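import Vale.Agent.P318.M.Stmt

/-!
Independent bits: conditioning on one bit, covariance identity, Bessel inequality, tail bound.
-/

namespace Vale.Agent.P318.M

open Finset Function

namespace Bit

variable {ι : Type} [Fintype ι] [DecidableEq ι] {p : ι → ℝ}

theorem Eb_prod (p : ι → ℝ) (f : ι → Bool → ℝ) :
    Eb p (fun b => ∏ i, f i (b i)) = ∏ i, (p i * f i true + (1 - p i) * f i false) := by
  have := Finset.prod_univ_sum (fun _ : ι => (univ : Finset Bool)) fun i a => wt1 (p i) a * f i a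
  rw [Fintype.piFinset_univ] at this
  simp only [Eb, wt, ← prod_mul_distrib, ← this]
  simp [wt1]

theorem sum_wt (p : ι → ℝ) : ∑ b, wt p b = 1 := by
  simpa [Eb] using Eb_prod p fun _ _ => 1

omit [DecidableEq ι] in
theorem wt_nonneg (hp : ∀ i, 0 ≤ p i ∧ p i ≤ 1) (b : ι → Bool) : 0 ≤ wt p b :=
  prod_nonneg fun i _ => by
    unfold wt1
    split_ifs
    exacts [(hp i).1, sub_nonneg.2 (hp i).2]

theorem Eb_const (p : ι → ℝ) (c : ℝ) : Eb p (fun _ => c) = c := by
  rw [Eb, ← sum_mul, sum_wt, one_mul]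

theorem Eb_add (p : ι → ℝ) (F G : (ι → Bool) → ℝ) :
    Eb p (fun b => F b + G b) = Eb p F + Eb p G := by
  simp only [Eb, mul_add, sum_add_distrib]

theorem Eb_sub (p : ι → ℝ) (F G : (ι → Bool) → ℝ) :
    Eb p (fun b => F b - G b) = Eb p F - Eb p G := by
  simp only [Eb, mul_sub, sum_sub_distrib]

theorem Eb_const_mul (p : ι → ℝ) (c : ℝ) (F : (ι → Bool) → ℝ) :
    Eb p (fun b => c * F b) = c * Eb p F := by
  simp only [Eb, mul_sum, mul_left_comm]

theorem Eb_sum {α : Type} (p : ι → ℝ) (s : Finset α) (F : α → (ι → Bool) → ℝ) :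
    Eb p (fun b => ∑ a ∈ s, F a b) = ∑ a ∈ s, Eb p (F a) := by
  simp only [Eb, mul_sum]
  exact sum_comm

theorem Eb_mono (hp : ∀ i, 0 ≤ p i ∧ p i ≤ 1) {F G : (ι → Bool) → ℝ} (h : ∀ b, F b ≤ G b) :
    Eb p F ≤ Eb p G :=
  sum_le_sum fun b _ => mul_le_mul_of_nonneg_left (h b) (wt_nonneg hp b)

theorem Eb_nonneg (hp : ∀ i, 0 ≤ p i ∧ p i ≤ 1) {F : (ι → Bool) → ℝ} (h : ∀ b, 0 ≤ F b) :
    0 ≤ Eb p F :=
  sum_nonneg fun b _ => mul_nonneg (wt_nonneg hp b) (h b)

theorem abs_Eb_le (hp : ∀ i, 0 ≤ p i ∧ p i ≤ 1) (F : (ι → Bool) → ℝ) :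
    |Eb p F| ≤ Eb p fun b => |F b| :=
  (abs_sum_le_sum_abs _ _).trans (sum_le_sum fun b _ => by
    rw [abs_mul, abs_of_nonneg (wt_nonneg hp b)])

theorem two_mul_sum (j : ι) (G : (ι → Bool) → ℝ) :
    2 * ∑ b, G b = ∑ b, (G (update b j true) + G (update b j false)) := by
  have h : Involutive fun b : ι → Bool => update b j (!b j) := fun b => by simp
  rw [two_mul]
  nth_rw 2 [← Equiv.sum_comp h.toPerm G]
  rw [← sum_add_distrib]
  refine sum_congr rfl fun b _ => ?_
  rw [Involutive.coe_toPerm]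
  cases e : b j
  · rw [add_comm, ← e, update_eq_self, e]; rfl
  · rw [← e, update_eq_self, e]; rfl

theorem wt_update (p : ι → ℝ) (j : ι) (b : ι → Bool) (a : Bool) :
    wt p (update b j a) = wt1 (p j) a * ∏ i ∈ univ.erase j, wt1 (p i) (b i) := by
  rw [wt, ← mul_prod_erase _ _ (mem_univ j), update_self]
  congr 1
  exact prod_congr rfl fun i hi => by rw [update_of_ne (ne_of_mem_erase hi)]

/-- Conditioning on all the bits except one. -/
theorem Eb_cond (p : ι → ℝ) (j : ι) (F : (ι → Bool) → ℝ) :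
    Eb p F = Eb p fun b => p j * F (update b j true) + (1 - p j) * F (update b j false) := by
  refine mul_left_cancel₀ (two_ne_zero (α := ℝ)) ?_
  rw [Eb, Eb, two_mul_sum j, two_mul_sum j]
  refine sum_congr rfl fun b _ => ?_
  simp only [wt_update, update_idem, wt1, if_true, Bool.false_eq_true, if_false]
  ring

theorem cov (p : ι → ℝ) (F : (ι → Bool) → ℝ) (j : ι) :
    Eb p (fun b => F b * (bit (b j) - p j)) = p j * (1 - p j) * Eb p (Dd j F) := by
  rw [Eb_cond p j, ← Eb_const_mul]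
  congr 1
  funext b
  simp only [update_self, bit, Dd, if_true, Bool.false_eq_true, if_false]
  ring

theorem cov_sum (p : ι → ℝ) (F : (ι → Bool) → ℝ) (M : ι → ℝ) :
    Eb p (fun b => F b * ∑ j, M j * (bit (b j) - p j)) =
      ∑ j, M j * (p j * (1 - p j) * Eb p (Dd j F)) := by
  simp only [mul_sum, Eb_sum]
  refine sum_congr rfl fun j _ => ?_
  rw [← cov, ← Eb_const_mul]
  simp only [mul_left_comm]

theorem Dd_lin (p M : ι → ℝ) (j : ι) :
    Dd j (fun b => ∑ i, M i * (bit (b i) - p i)) = fun _ => M j := by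
  funext b
  rw [Dd, ← sum_sub_distrib, sum_eq_single j]
  · simp only [update_self, bit, if_true, Bool.false_eq_true, if_false]
    ring
  · intro i _ hi
    rw [update_of_ne hi, update_of_ne hi, sub_self]
  · simp

omit [Fintype ι] in
theorem Dd_comm {j j' : ι} (h : j ≠ j') (F : (ι → Bool) → ℝ) :
    Dd j' (Dd j F) = Dd j (Dd j' F) := by
  funext b
  simp only [Dd, update_comm h]
  ring

theorem bessel (hp : ∀ i, 0 ≤ p i ∧ p i ≤ 1) (F : (ι → Bool) → ℝ) :
    ∑ j, p j * (1 - p j) * Eb p (Dd j F) ^ 2 ≤ Eb p fun b => F b ^ 2 := by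
  set S : (ι → Bool) → ℝ := fun b => ∑ j, Eb p (Dd j F) * (bit (b j) - p j) with hS
  have h1 : Eb p (fun b => F b * S b) = ∑ j, p j * (1 - p j) * Eb p (Dd j F) ^ 2 := by
    rw [hS, cov_sum]
    exact sum_congr rfl fun j _ => by ring
  have h2 : Eb p (fun b => S b * S b) = ∑ j, p j * (1 - p j) * Eb p (Dd j F) ^ 2 := by
    refine (cov_sum p S _).trans (sum_congr rfl fun j _ => ?_)
    rw [hS, Dd_lin, Eb_const]
    ring
  have h3 : Eb p (fun b => 2 * (F b * S b) - S b * S b) ≤ Eb p fun b => F b ^ 2 :=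
    Eb_mono hp fun b => by nlinarith [sq_nonneg (F b - S b)]
  rw [Eb_sub, Eb_const_mul, h1, h2] at h3
  linarith

theorem mgf_le (hp : ∀ i, 0 ≤ p i ∧ p i ≤ 1) {M : ι → ℝ} (hM : ∀ j, |M j| ≤ 1) :
    Eb p (fun b => Real.exp (∑ j, M j * (bit (b j) - p j))) ≤
      Real.exp (∑ j, p j * (1 - p j) * M j ^ 2) := by
  simp only [Real.exp_sum]
  rw [Eb_prod p fun j a => Real.exp (M j * (bit a - p j))]
  refine prod_le_prod (fun j _ => add_nonneg (mul_nonneg (hp j).1 (Real.exp_pos _).le)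
    (mul_nonneg (sub_nonneg.2 (hp j).2) (Real.exp_pos _).le)) fun j _ => ?_
  have key : ∀ a, Real.exp (M j * (bit a - p j)) ≤
      1 + M j * (bit a - p j) + (M j * (bit a - p j)) ^ 2 := fun a => by
    have h1 : |bit a - p j| ≤ 1 := by
      have := hp j
      cases a <;> simp only [bit, if_true, Bool.false_eq_true, if_false, abs_le] <;>
        constructor <;> linarith
    have h2 : |M j * (bit a - p j)| ≤ 1 := by
      rw [abs_mul]; exact mul_le_one₀ (hM j) (abs_nonneg _) h1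
    linarith [(abs_le.1 (Real.abs_exp_sub_one_sub_id_le h2)).2]
  have h1 := mul_le_mul_of_nonneg_left (key true) (hp j).1
  have h2 := mul_le_mul_of_nonneg_left (key false) (sub_nonneg.2 (hp j).2)
  have h3 := Real.add_one_le_exp (p j * (1 - p j) * M j ^ 2)
  simp only [bit, if_true, Bool.false_eq_true, if_false] at h1 h2 ⊢
  nlinarith

theorem abs_mul_le {g z M0 l : ℝ} (hg : |g| ≤ 1) (hM : 0 < M0) (hl : 0 ≤ l) :
    |g * z| ≤ 2 * l * M0 * |g| +
      2 * M0 * Real.exp (-l) * (Real.exp (z / M0) + Real.exp (-z / M0)) := by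
  rw [abs_mul]
  rcases le_total |z| (2 * l * M0) with h | h
  · have h1 : |g| * |z| ≤ |g| * (2 * l * M0) := mul_le_mul_of_nonneg_left h (abs_nonneg g)
    have h2 : 0 ≤ 2 * M0 * Real.exp (-l) * (Real.exp (z / M0) + Real.exp (-z / M0)) := by positivity
    linarith
  · have h1 : |g| * |z| ≤ |z| := mul_le_of_le_one_left (abs_nonneg z) hg
    have h2 : Real.exp (|z| / M0) ≤ Real.exp (z / M0) + Real.exp (-z / M0) := by
      rcases abs_cases z with e | e <;> rw [e.1] <;>
        linarith [Real.exp_pos (z / M0), Real.exp_pos (-z / M0)]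
    have h3 : l ≤ |z| / M0 / 2 := by
      rw [div_div, le_div_iff₀ (by positivity)]; linarith
    have h4 : |z| / M0 / 2 ≤ Real.exp (-l) * Real.exp (|z| / M0) := by
      rw [← Real.exp_add]
      linarith [Real.add_one_le_exp (-l + |z| / M0)]
    have h5 : |z| ≤ 2 * M0 * (Real.exp (-l) * Real.exp (|z| / M0)) := by
      rw [div_div, div_le_iff₀ (by positivity)] at h4; linarith
    have h6 : 2 * M0 * Real.exp (-l) * Real.exp (|z| / M0) ≤
        2 * M0 * Real.exp (-l) * (Real.exp (z / M0) + Real.exp (-z / M0)) :=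
      mul_le_mul_of_nonneg_left h2 (by positivity)
    have h7 : 0 ≤ 2 * l * M0 * |g| := by positivity
    linarith

theorem tail (hp : ∀ i, 0 ≤ p i ∧ p i ≤ 1) (G : (ι → Bool) → ℝ) (M : ι → ℝ) (M0 l : ℝ)
    (hG : ∀ b, |G b| ≤ 1) (h0 : 0 ≤ M0) (hl : 0 ≤ l) (hM : ∀ j, |M j| ≤ M0)
    (hs : ∑ j, p j * (1 - p j) * M j ^ 2 ≤ M0 ^ 2) :
    |Eb p fun b => G b * ∑ j, M j * (bit (b j) - p j)| ≤
      2 * l * M0 * Eb p (fun b => |G b|) + 12 * M0 * Real.exp (-l) := by
  rcases h0.eq_or_lt with rfl | h0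
  · have : ∀ j, M j = 0 := fun j => abs_nonpos_iff.1 (hM j)
    simp [this, Eb]
  have key : ∀ N : ι → ℝ, (∀ j, |N j| = |M j|) →
      Eb p (fun b => Real.exp ((∑ j, N j * (bit (b j) - p j)) / M0)) ≤ 3 := by
    intro N hN
    have h1 := mgf_le hp (M := fun j => N j / M0) fun j => by
      rw [abs_div, abs_of_pos h0, div_le_one h0, hN]; exact hM j
    have h2 : ∑ j, p j * (1 - p j) * (N j / M0) ^ 2 ≤ 1 := by
      have : ∀ j, p j * (1 - p j) * (N j / M0) ^ 2 = p j * (1 - p j) * M j ^ 2 / M0 ^ 2 :=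
        fun j => by rw [div_pow, ← sq_abs (N j), hN, sq_abs, mul_div_assoc]
      simp only [this]
      rwa [← sum_div, div_le_one (by positivity)]
    simp only [div_mul_eq_mul_div, ← sum_div] at h1
    exact h1.trans ((Real.exp_le_exp.2 h2).trans Real.exp_one_lt_three.le)
  have h1 := key M fun _ => rfl
  have h2 := key (fun j => -M j) fun j => abs_neg _
  simp only [neg_mul, sum_neg_distrib] at h2
  refine (abs_Eb_le hp _).trans ((Eb_mono hp fun b => abs_mul_le (hG b) h0 hl).trans ?_)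
  rw [Eb_add, Eb_const_mul, Eb_const_mul, Eb_add]
  have h3 : 0 ≤ 2 * M0 * Real.exp (-l) := by positivity
  nlinarith [mul_le_mul_of_nonneg_left (add_le_add h1 h2) h3]

end Bit

theorem bit_proof : BitStmt := fun _ _ _ p hp =>
  ⟨Bit.wt_nonneg hp, Bit.sum_wt p, Bit.cov p, Bit.bessel hp, Bit.tail hp⟩

end Vale.Agent.P318.M
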