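import Vale.Agent.P318.M.Stmt

/-! Elementary facts on the window function. -/

namespace Vale.Agent.P318.M

open MeasureTheory Set Filter

namespace Ramp

lemma hd_sq (x : ℝ) : HasDerivAt (fun y : ℝ => (max y 0) ^ 2) (2 * max x 0) x := by
  rw [hasDerivAt_iff_isLittleO]
  refine (Asymptotics.IsBigO.of_bound 1 (Eventually.of_forall fun y => ?_)).trans_isLittleO
    (Asymptotics.isLittleO_pow_sub_sub x (m := 2) one_lt_two)
  rw [one_mul, norm_pow, norm_norm, Real.norm_eq_abs, Real.norm_eq_abs, sq_abs, smul_eq_mul, abs_le]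
  rcases le_total x 0 with h | h <;> rcases le_total y 0 with h' | h' <;>
    simp only [max_eq_left, max_eq_right, h, h'] <;> constructor <;> nlinarith [sq_nonneg (y - x)]

lemma cases (x : ℝ) : (x ≤ 0 ∧ tent x = 0 ∧ ramp x = 0) ∨
    (0 ≤ x ∧ x ≤ 1 / 2 ∧ tent x = x ∧ ramp x = 2 * x ^ 2) ∨
    (1 / 2 ≤ x ∧ x ≤ 1 ∧ tent x = 1 - x ∧ ramp x = 1 - 2 * (1 - x) ^ 2) ∨
    (1 ≤ x ∧ tent x = 0 ∧ ramp x = 1) := by
  unfold tent ramp
  rcases le_total x 0 with h | h
  · refine Or.inl ⟨h, max_eq_right ((min_le_left _ _).trans h), ?_⟩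
    rw [max_eq_right h, max_eq_right (by linarith), max_eq_right (by linarith)]
    ring
  rcases le_total x (1 / 2) with h1 | h1
  · refine Or.inr (Or.inl ⟨h, h1, ?_, ?_⟩)
    · rw [min_eq_left (by linarith), max_eq_left h]
    · rw [max_eq_left h, max_eq_right (by linarith), max_eq_right (by linarith)]
      ring
  rcases le_total x 1 with h2 | h2
  · refine Or.inr (Or.inr (Or.inl ⟨h1, h2, ?_, ?_⟩))
    · rw [min_eq_right (by linarith), max_eq_left (by linarith)]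
    · rw [max_eq_left h, max_eq_left (by linarith), max_eq_right (by linarith)]
      ring
  · refine Or.inr (Or.inr (Or.inr ⟨h2, max_eq_right ((min_le_right _ _).trans (by linarith)), ?_⟩))
    rw [max_eq_left h, max_eq_left (by linarith), max_eq_left (by linarith)]
    ring

lemma hd (x : ℝ) : HasDerivAt ramp (4 * tent x) x := by
  have h1 := (((hd_sq x).const_mul 2).sub (((hd_sq _).comp_sub_const x (1 / 2)).const_mul 4)).add
    (((hd_sq _).comp_sub_const x 1).const_mul 2)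
  refine HasDerivAt.congr_deriv h1 ?_
  rcases cases x with h | h | h | h
  · rw [h.2.1, max_eq_right h.1, max_eq_right (by linarith), max_eq_right (by linarith)]
    ring
  · rw [h.2.2.1, max_eq_left h.1, max_eq_right (by linarith), max_eq_right (by linarith)]
    ring
  · rw [h.2.2.1, max_eq_left (by linarith), max_eq_left (by linarith), max_eq_right (by linarith)]
    ring
  · rw [h.2.1, max_eq_left (by linarith), max_eq_left (by linarith), max_eq_left (by linarith)]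
    ring

lemma tent_nonneg (x : ℝ) : 0 ≤ tent x := le_max_right _ _

lemma tent_le (x : ℝ) : tent x ≤ 1 / 2 := by
  rcases cases x with h | h | h | h <;> linarith [h.1, h.2.1, h.2.2]

lemma tent_pos {x : ℝ} (h : 0 < tent x) : tent x ≤ x ∧ tent x ≤ 1 - x ∧
    (tent x = x ∨ tent x = 1 - x) := by
  rcases cases x with h1 | h1 | h1 | h1
  · exact absurd h1.2.1 h.ne'
  · exact ⟨h1.2.2.1.le, by linarith [h1.2.1, h1.2.2.1], Or.inl h1.2.2.1⟩
  · exact ⟨by linarith [h1.1, h1.2.2.1], h1.2.2.1.le, Or.inr h1.2.2.1⟩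
  · exact absurd h1.2.1 h.ne'

lemma ramp_or (x : ℝ) : ramp x = 2 * tent x ^ 2 ∨ ramp x = 1 - 2 * tent x ^ 2 := by
  rcases cases x with h | h | h | h
  · left; rw [h.2.1, h.2.2]; ring
  · left; rw [h.2.2.1, h.2.2.2]
  · right; rw [h.2.2.1, h.2.2.2]
  · right; rw [h.2.1, h.2.2]; ring

lemma ramp_symm (x : ℝ) : ramp (1 - x) = 1 - ramp x := by
  rcases cases x with h | h | h | h <;> rcases cases (1 - x) with h' | h' | h' | h' <;>
    nlinarith [h.1, h.2.1, h.2.2, h'.1, h'.2.1, h'.2.2]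

lemma pq_eq (ω y : ℝ) : pq ω y = 2 * ee ω y ^ 2 * (1 - 2 * ee ω y ^ 2) := by
  unfold pq pr ee
  rcases ramp_or (pos ω y) with h | h
  · rw [h]
  · rw [h]; ring

lemma sq_le (ω y : ℝ) : ee ω y ^ 2 ≤ 1 / 4 := by
  nlinarith [tent_nonneg (pos ω y), tent_le (pos ω y), show ee ω y = tent (pos ω y) from rfl]

lemma sq_le_pq (ω y : ℝ) : ee ω y ^ 2 ≤ pq ω y := by
  rw [pq_eq]
  nlinarith [sq_le ω y, sq_nonneg (ee ω y)]

lemma pq_le_sq (ω y : ℝ) : pq ω y ≤ 2 * ee ω y ^ 2 := by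
  rw [pq_eq]
  nlinarith [sq_nonneg (ee ω y ^ 2)]

lemma pq_le (ω y : ℝ) : pq ω y ≤ 1 / 4 := by
  unfold pq
  nlinarith [sq_nonneg (pr ω y - 1 / 2)]

lemma pos_per (ω y : ℝ) (n : ℤ) : pos ω (y + n) = pos ω y := by
  rw [pos, pos, Int.fract_add_intCast]

lemma pos_meas (ω : ℝ) : Measurable (pos ω) :=
  ((measurable_fract.sub_const _).add_const _).div_const _

lemma ee_meas (ω : ℝ) : Measurable (ee ω) :=
  (show Continuous tent by unfold tent; fun_prop).measurable.comp (pos_meas ω)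

lemma pr_meas (ω : ℝ) : Measurable (pr ω) :=
  (show Continuous ramp by unfold ramp; fun_prop).measurable.comp (pos_meas ω)

lemma dpr_meas (ω : ℝ) : Measurable (dpr ω) := ((ee_meas ω).const_mul 2).div_const ω

lemma psi_meas (ω e3 : ℝ) : Measurable (psi ω e3) :=
  Measurable.ite (measurableSet_le measurable_const (ee_meas ω)) (dpr_meas ω) measurable_const

variable {ω : ℝ}

lemma fract_eq (h0 : 0 < ω) (y : ℝ) : Int.fract y = 1 / 2 - ω + 2 * ω * pos ω y := by
  rw [pos]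
  field_simp
  ring

lemma dpr_nonneg (h0 : 0 < ω) (y : ℝ) : 0 ≤ dpr ω y :=
  div_nonneg (mul_nonneg zero_le_two (tent_nonneg _)) h0.le

lemma dpr_le (h0 : 0 < ω) (y : ℝ) : dpr ω y ≤ 1 / ω :=
  div_le_div_of_nonneg_right (by linarith [show ee ω y ≤ 1 / 2 from tent_le _]) h0.le

lemma ee_supp (h0 : 0 < ω) (y : ℝ) (h : 0 < ee ω y) : |Int.fract y - 1 / 2| < ω := by
  obtain ⟨h1, h2, -⟩ := tent_pos h
  rw [fract_eq h0, abs_lt]
  constructor <;> nlinarith [show 0 < tent (pos ω y) from h]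

lemma int_fract (G : ℝ → ℝ) : ∫ t in (0 : ℝ)..1, G (Int.fract t) = ∫ t in (0 : ℝ)..1, G t := by
  rw [intervalIntegral.integral_of_le zero_le_one, intervalIntegral.integral_of_le zero_le_one,
    integral_Ioc_eq_integral_Ioo, integral_Ioc_eq_integral_Ioo]
  refine setIntegral_congr_fun measurableSet_Ioo fun t ht => ?_
  simp only [Int.fract_eq_self.2 ⟨ht.1.le, ht.2⟩]

lemma int_le {f : ℝ → ℝ} {S : Set ℝ} {c : ℝ} (hS : MeasurableSet S) (hv : volume S ≠ ⊤)
    (hc : 0 ≤ c) (h0 : ∀ t, 0 ≤ f t) (h1 : ∀ t, f t ≤ c)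
    (h2 : ∀ t, f t ≠ 0 → Int.fract t ∈ S) : ∫ t in (0 : ℝ)..1, f t ≤ volume.real S * c := by
  have hi : Integrable (S.indicator fun _ : ℝ => c) :=
    (integrable_indicator_iff hS).2 (integrableOn_const hv)
  rw [intervalIntegral.integral_of_le zero_le_one, integral_Ioc_eq_integral_Ioo, ← smul_eq_mul,
    ← integral_indicator_const c hS]
  refine (integral_mono_of_nonneg (Eventually.of_forall h0) hi.integrableOn
    (ae_restrict_of_forall_mem measurableSet_Ioo fun t ht => ?_)).trans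
    (setIntegral_le_integral hi (Eventually.of_forall fun t => indicator_nonneg (fun _ _ => hc) t))
  by_cases h3 : f t = 0
  · exact h3.le.trans (indicator_nonneg (fun _ _ => hc) t)
  · have h4 := h2 t h3
    rw [Int.fract_eq_self.2 ⟨ht.1.le, ht.2⟩] at h4
    exact (h1 t).trans (indicator_of_mem h4 fun _ => c).ge

lemma ind_nonneg (P : Prop) : 0 ≤ ind P := by unfold ind; split_ifs <;> norm_num

lemma ind_le (P : Prop) : ind P ≤ 1 := by unfold ind; split_ifs <;> norm_num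

lemma of_ind {P : Prop} (h : ind P ≠ 0) : P := by
  by_contra h1
  exact h (if_neg h1)

lemma int_win (h0 : 0 < ω) {f : ℝ → ℝ} {c : ℝ} (hc : 0 ≤ c) (h1 : ∀ t, 0 ≤ f t) (h2 : ∀ t, f t ≤ c)
    (h3 : ∀ t, f t ≠ 0 → 0 < ee ω t) : ∫ t in (0 : ℝ)..1, f t ≤ 2 * ω * c := by
  have h4 := int_le (S := Ioo (1 / 2 - ω) (1 / 2 + ω)) measurableSet_Ioo measure_Ioo_lt_top.ne hc
    h1 h2 fun t ht => by
      have h5 := abs_lt.1 (ee_supp h0 t (h3 t ht))
      exact ⟨by linarith [h5.1], by linarith [h5.2]⟩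
  rwa [Real.volume_real_Ioo_of_le (by linarith), show 1 / 2 + ω - (1 / 2 - ω) = 2 * ω by ring] at h4

lemma int_dpr (h0 : 0 < ω) (h1 : ω ≤ 1 / 8) : ∫ t in (0 : ℝ)..1, dpr ω t = 1 := by
  have h2 : 0 < 2 * ω := by positivity
  refine (int_fract fun t => 2 * tent ((t - 1 / 2 + ω) / (2 * ω)) / ω).trans ?_
  rw [intervalIntegral.integral_eq_sub_of_hasDerivAt
    (f := fun t => ramp ((t - 1 / 2 + ω) / (2 * ω))) (fun t _ => ?_)
    (Continuous.intervalIntegrable (by unfold tent; fun_prop) _ _)]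
  · have h3 : 1 < (1 - 1 / 2 + ω) / (2 * ω) := by rw [lt_div_iff₀ h2]; linarith
    have h4 : (0 - 1 / 2 + ω) / (2 * ω) < 0 := div_neg_of_neg_of_pos (by linarith) h2
    rcases cases ((1 - 1 / 2 + ω) / (2 * ω)) with h | h | h | h <;>
      rcases cases ((0 - 1 / 2 + ω) / (2 * ω)) with h' | h' | h' | h' <;>
        linarith [h.1, h.2.1, h.2.2, h'.1, h'.2.1, h'.2.2]
  · refine ((hd _).comp t ((((hasDerivAt_id t).sub_const _).add_const _).div_const _)).congr_deriv ?_
    simp only [id]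
    field_simp
    ring

lemma ii {f : ℝ → ℝ} (hf : Measurable f) {C : ℝ} (h0 : ∀ t, 0 ≤ f t) (h1 : ∀ t, f t ≤ C) :
    IntervalIntegrable f volume 0 1 :=
  (intervalIntegrable_const (c := C)).mono_fun' hf.aestronglyMeasurable
    (Eventually.of_forall fun t => by
      simp only [Real.norm_of_nonneg (h0 t)]
      exact h1 t)

lemma int_psi (h0 : 0 < ω) (h1 : ω ≤ 1 / 8) (e3 : ℝ) (h3 : 0 < e3) :
    1 - 4 * e3 ≤ ∫ t in (0 : ℝ)..1, psi ω e3 t := by
  have h4 : ∀ t, 0 ≤ psi ω e3 t ∧ psi ω e3 t ≤ dpr ω t := fun t => by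
    unfold psi
    split_ifs
    exacts [⟨dpr_nonneg h0 t, le_rfl⟩, ⟨le_rfl, dpr_nonneg h0 t⟩]
  have h5 := int_win h0 (f := fun t => dpr ω t - psi ω e3 t) (c := 2 * e3 / ω) (by positivity)
    (fun t => sub_nonneg.2 (h4 t).2) (fun t => by
      unfold psi
      split_ifs with h
      · rw [sub_self]; positivity
      · rw [sub_zero]
        exact div_le_div_of_nonneg_right (by linarith [not_le.1 h]) h0.le) fun t ht => by
      refine (tent_nonneg _).lt_of_ne fun h => ht (le_antisymm ?_ (sub_nonneg.2 (h4 t).2))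
      have h6 : dpr ω t = 0 := by rw [dpr, ee, ← h, mul_zero, zero_div]
      linarith [(h4 t).1]
  rw [intervalIntegral.integral_sub (ii (dpr_meas ω) (dpr_nonneg h0) (dpr_le h0))
    (ii (psi_meas ω e3) (fun t => (h4 t).1) fun t => (h4 t).2.trans (dpr_le h0 t)),
    int_dpr h0 h1, show 2 * ω * (2 * e3 / ω) = 4 * e3 by field_simp; ring] at h5
  linarith

lemma int_ends (h0 : 0 < ω) (e3 : ℝ) (h3 : 0 < e3) :
    ∫ t in (0 : ℝ)..1, ind (0 < ee ω t ∧ ee ω t < e3) ≤ 4 * ω * e3 := by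
  have h4 := mul_pos h0 h3
  refine (int_le (S := Ioo (1 / 2 - ω) (1 / 2 - ω + 2 * ω * e3) ∪
    Ioo (1 / 2 + ω - 2 * ω * e3) (1 / 2 + ω)) (measurableSet_Ioo.union measurableSet_Ioo)
    (measure_union_lt_top measure_Ioo_lt_top measure_Ioo_lt_top).ne zero_le_one
    (fun _ => ind_nonneg _) (fun _ => ind_le _) fun t ht => ?_).trans ?_
  · obtain ⟨h5, h6⟩ := of_ind ht
    have h7 := abs_lt.1 (ee_supp h0 t h5)
    have h8 := fract_eq h0 t
    have h9 : tent (pos ω t) < e3 := h6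
    rcases (tent_pos h5).2.2 with h | h <;> rw [h] at h9
    · exact Or.inl ⟨by linarith [h7.1], by nlinarith⟩
    · exact Or.inr ⟨by nlinarith, by linarith [h7.2]⟩
  · rw [mul_one]
    refine (measureReal_union_le _ _).trans ?_
    rw [Real.volume_real_Ioo_of_le (by linarith), Real.volume_real_Ioo_of_le (by linarith)]
    linarith

lemma zmean_id (h0 : 0 < ω) : zmean ω (fun z => z) = 0 := by
  let G : ℝ → ℝ := fun t => t - ramp ((t - 1 / 2 + ω) / (2 * ω))
  have h1 : zmean ω (fun z => z) = ∫ t in (0 : ℝ)..1, G t := by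
    rw [← int_fract, zmean]
    congr 1
    funext t
    simp only [G, pr, pos]
    ring
  have h2 : ∀ t, G (1 - t) = -G t := fun t => by
    have h3 : (1 - t - 1 / 2 + ω) / (2 * ω) = 1 - (t - 1 / 2 + ω) / (2 * ω) := by
      field_simp
      ring
    simp only [G, h3, ramp_symm]
    ring
  have h3 := intervalIntegral.integral_comp_sub_left G (a := 0) (b := 1) 1
  simp only [h2, intervalIntegral.integral_neg, sub_self, sub_zero] at h3
  linarith

lemma ratio (h0 : 0 < ω) (h1 : ω ≤ 1 / 8) (y u r e3 : ℝ) (h3 : 0 < e3) (h4 : e3 ≤ 1 / 2)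
    (hu : |u| < 1 / 2) (hy : 0 < ee ω y) (he : e3 ≤ ee ω (y + u)) (hr0 : 0 ≤ r) (hr1 : r ≤ 1) :
    ⌊y + r * u⌋ = ⌊y⌋ ∧ pq ω y ≤ 1 / (2 * e3 ^ 2) * pq ω (y + r * u) := by
  have a1 := abs_lt.1 (ee_supp h0 y hy)
  have a2 := abs_lt.1 (ee_supp h0 _ (h3.trans_le he))
  have a3 := abs_lt.1 hu
  have f1 := Int.floor_add_fract y
  have f2 := Int.floor_add_fract (y + u)
  have b1 : ⌊y + u⌋ = ⌊y⌋ := by
    have c1 : ((⌊y + u⌋ : ℤ) : ℝ) < (⌊y⌋ + 1 : ℤ) := by push_cast; linarith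
    have c2 : ((⌊y⌋ : ℤ) : ℝ) < (⌊y + u⌋ + 1 : ℤ) := by push_cast; linarith
    have c3 := Int.cast_lt.1 c1
    have c4 := Int.cast_lt.1 c2
    omega
  rw [b1] at f2
  have b2 : ⌊y + r * u⌋ = ⌊y⌋ := by
    rw [Int.floor_eq_iff]
    constructor <;> nlinarith [mul_nonneg hr0 (show 0 ≤ Int.fract (y + u) - 1 / 4 by linarith),
      mul_nonneg (sub_nonneg.2 hr1) (show 0 ≤ Int.fract y - 1 / 4 by linarith),
      mul_nonneg hr0 (show 0 ≤ 3 / 4 - Int.fract (y + u) by linarith),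
      mul_nonneg (sub_nonneg.2 hr1) (show 0 ≤ 3 / 4 - Int.fract y by linarith)]
  refine ⟨b2, ?_⟩
  have f3 := Int.floor_add_fract (y + r * u)
  rw [b2] at f3
  have b3 : pos ω (y + r * u) = (1 - r) * pos ω y + r * pos ω (y + u) := by
    rw [pos, pos, pos, show Int.fract (y + r * u) = (1 - r) * Int.fract y + r * Int.fract (y + u) by
      linear_combination f3 - (1 - r) * f1 - r * f2]
    ring
  obtain ⟨t1, t2, -⟩ := tent_pos hy
  obtain ⟨t3, t4, -⟩ := tent_pos (h3.trans_le he)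
  have b4 : ∀ m, m ≤ ee ω y → m ≤ e3 → m ≤ ee ω (y + r * u) := fun m m1 m2 => by
    have m3 : m ≤ tent (pos ω y) := m1
    have m4 : m ≤ tent (pos ω (y + u)) := m2.trans he
    refine le_max_of_le_left (le_min ?_ ?_) <;> rw [b3]
    · nlinarith [mul_nonneg hr0 (sub_nonneg.2 (m4.trans t3)),
        mul_nonneg (sub_nonneg.2 hr1) (sub_nonneg.2 (m3.trans t1))]
    · nlinarith [mul_nonneg hr0 (sub_nonneg.2 (m4.trans t4)),
        mul_nonneg (sub_nonneg.2 hr1) (sub_nonneg.2 (m3.trans t2))]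
  have b5 := sq_le_pq ω (y + r * u)
  rw [one_div, inv_mul_eq_div, le_div_iff₀ (by positivity)]
  rcases le_total (ee ω y) e3 with h | h
  · have b6 := pow_le_pow_left₀ hy.le (b4 _ le_rfl h) 2
    have b7 : e3 ^ 2 ≤ 1 / 4 := by nlinarith
    nlinarith [mul_le_mul (pq_le_sq ω y) b7 (sq_nonneg _) (by positivity)]
  · have b6 := pow_le_pow_left₀ h3.le (b4 _ h le_rfl) 2
    nlinarith [mul_le_mul_of_nonneg_right (pq_le ω y) (sq_nonneg e3), sq_nonneg e3]

end Ramp

open Ramp in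
theorem ramp_proof : RampStmt := by
  refine ⟨hd, fun ω h0 h1 => ?_⟩
  have he : ∀ y (n : ℤ), ee ω (y + n) = ee ω y := fun y n => by rw [ee, ee, pos_per]
  have hp : ∀ y (n : ℤ), pr ω (y + n) = pr ω y := fun y n => by rw [pr, pr, pos_per]
  have hd : ∀ y (n : ℤ), dpr ω (y + n) = dpr ω y := fun y n => by rw [dpr, dpr, he]
  refine ⟨fun y => ?_, fun y => ?_, fun y => tent_nonneg _, fun y => tent_le _, sq_le_pq ω,
    pq_le_sq ω, fun y => (sq_nonneg _).trans (sq_le_pq ω y), pq_le ω, dpr_nonneg h0, dpr_le h0,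
    fun y => ?_, fun y => ?_, hp, he, hd, fun y n => by rw [pq, pq, hp],
    fun e3 y n => by rw [psi, psi, he, hd], pr_meas ω, ee_meas ω, dpr_meas ω,
    (pr_meas ω).mul ((pr_meas ω).const_sub 1), psi_meas ω, ee_supp h0, fun y h => ?_, fun y h => ?_,
    int_dpr h0 h1, ?_, int_ends h0, int_psi h0 h1, zmean_id h0, ratio h0 h1⟩
  · have h2 : tent (pos ω y) ^ 2 ≤ 1 / 4 := sq_le ω y
    rcases ramp_or (pos ω y) with h | h <;> rw [pr, h] <;> nlinarith [sq_nonneg (tent (pos ω y))]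
  · have h2 : tent (pos ω y) ^ 2 ≤ 1 / 4 := sq_le ω y
    rcases ramp_or (pos ω y) with h | h <;> rw [pr, h] <;> nlinarith [sq_nonneg (tent (pos ω y))]
  · rw [dpr, div_pow, div_mul_eq_mul_div]
    exact div_le_div_of_nonneg_right (by nlinarith [sq_le_pq ω y]) (sq_nonneg _)
  · have h2 : 0 ≤ ee ω y := tent_nonneg _
    have h3 : ee ω y ≤ 1 / 2 := tent_le _
    rw [dpr, le_div_iff₀ h0]
    nlinarith [mul_le_mul (pq_le_sq ω y) h1 h0.le (by positivity)]
  · rw [fract_eq h0]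
    refine lt_add_of_pos_right _ (mul_pos (by positivity) (not_le.1 fun h2 => h ?_))
    rcases cases (pos ω y) with h3 | h3 | h3 | h3
    · exact h3.2.2
    · rw [pr, h3.2.2.2, le_antisymm h2 h3.1]; ring
    · linarith [h3.1]
    · linarith [h3.1]
  · have h4 : pos ω y < 1 := not_le.1 fun h2 => h (by
      rcases cases (pos ω y) with h3 | h3 | h3 | h3
      · linarith [h3.1]
      · linarith [h3.2.1]
      · rw [pr, h3.2.2.2, le_antisymm h3.2.1 h2]; ring
      · exact h3.2.2)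
    rw [fract_eq h0]
    nlinarith
  · simpa only [mul_one] using int_win h0 zero_le_one (fun t => ind_nonneg (0 < ee ω t))
      (fun _ => ind_le _) fun t ht => of_ind ht

end Vale.Agent.P318.M
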