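import Vale.Agent.P318.M.Stmt

/-! The block lemma: bounded measurable functions and the estimate for one coordinate. -/

namespace Vale.Agent.P318.M.Block

open Finset MeasureTheory ProbabilityTheory

/-! ### Bounded measurable functions -/

section BMs

variable {α β : Type} [MeasurableSpace α] [MeasurableSpace β] {F G : α → ℝ}

theorem bm_int (h : BM F) (μ : Measure α) [IsFiniteMeasure μ] : Integrable F μ := by
  obtain ⟨m, C, hC⟩ := h
  exact Integrable.of_bound m.aestronglyMeasurable C (Filter.Eventually.of_forall hC)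

theorem bm_const (c : ℝ) : BM fun _ : α => c := ⟨measurable_const, |c|, fun _ => le_rfl⟩

theorem bm_mul (hF : BM F) (hG : BM G) : BM fun x => F x * G x := by
  obtain ⟨m, C, hC⟩ := hF
  obtain ⟨m', C', hC'⟩ := hG
  refine ⟨m.mul m', C * C', fun x => ?_⟩
  rw [abs_mul]
  exact mul_le_mul (hC x) (hC' x) (abs_nonneg _) ((abs_nonneg _).trans (hC x))

theorem bm_add (hF : BM F) (hG : BM G) : BM fun x => F x + G x := by
  obtain ⟨m, C, hC⟩ := hF
  obtain ⟨m', C', hC'⟩ := hG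
  exact ⟨m.add m', C + C', fun x => (abs_add_le _ _).trans (add_le_add (hC x) (hC' x))⟩

theorem bm_sub (hF : BM F) (hG : BM G) : BM fun x => F x - G x := by
  obtain ⟨m, C, hC⟩ := hF
  obtain ⟨m', C', hC'⟩ := hG
  exact ⟨m.sub m', C + C', fun x => (abs_sub _ _).trans (add_le_add (hC x) (hC' x))⟩

theorem bm_sq (hF : BM F) : BM fun x => F x ^ 2 := by
  simpa only [sq] using bm_mul hF hF

theorem bm_abs (hF : BM F) : BM fun x => |F x| := by
  obtain ⟨m, C, hC⟩ := hF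
  exact ⟨m.abs, C, fun x => by rw [abs_abs]; exact hC x⟩

theorem bm_comp (hF : BM F) {g : β → α} (hg : Measurable g) : BM fun x => F (g x) := by
  obtain ⟨m, C, hC⟩ := hF
  exact ⟨m.comp hg, C, fun x => hC _⟩

theorem bm_sum {ι : Type} (J : Finset ι) {F : ι → α → ℝ} (hF : ∀ j ∈ J, BM (F j)) :
    BM fun x => ∑ j ∈ J, F j x := by
  classical
  induction J using Finset.induction_on with
  | empty => simpa using bm_const 0
  | insert a J ha ih =>
    simp only [Finset.sum_insert ha]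
    exact bm_add (hF a (mem_insert_self a J)) (ih fun j hj => hF j (mem_insert_of_mem hj))

theorem bm_of_mem {a : ℝ} (m : Measurable F) (h0 : ∀ x, 0 ≤ F x) (h1 : ∀ x, F x ≤ a) : BM F :=
  ⟨m, a, fun x => by rw [abs_of_nonneg (h0 x)]; exact h1 x⟩

theorem bm_ind {P : α → Prop} (h : MeasurableSet {x | P x}) : BM fun x => ind (P x) := by
  refine bm_of_mem (a := 1) ?_ (fun x => ?_) fun x => ?_
  · exact Measurable.ite h measurable_const measurable_const
  · unfold ind; split_ifs <;> norm_num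
  · unfold ind; split_ifs <;> norm_num

theorem ind_sq (P : Prop) : ind P ^ 2 = ind P := by
  unfold ind; split_ifs <;> norm_num

end BMs

/-! ### Means over the cube -/

section Mean

variable {κ : Type} [Fintype κ] {F G : (κ → ℝ) → ℝ}

theorem bm_tm {α : Type} [MeasurableSpace α] {H : α → (κ → ℝ) → ℝ}
    (h : BM fun p : α × (κ → ℝ) => H p.1 p.2) : BM fun a => tm (H a) := by
  obtain ⟨m, C, hC⟩ := h
  refine ⟨(m.stronglyMeasurable.integral_prod_right' (ν := cube κ)).measurable, C, fun a => ?_⟩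
  simpa [tm] using norm_integral_le_of_norm_le_const (μ := cube κ) (f := H a) (C := C)
    (Filter.Eventually.of_forall fun x => hC (a, x))

theorem tm_mono (hF : BM F) (hG : BM G) (h : ∀ x, F x ≤ G x) : tm F ≤ tm G :=
  integral_mono (bm_int hF _) (bm_int hG _) h

theorem tm_nonneg (h : ∀ x, 0 ≤ F x) : 0 ≤ tm F := integral_nonneg h

theorem tm_add (hF : BM F) (hG : BM G) : tm (fun x => F x + G x) = tm F + tm G :=
  integral_add (bm_int hF _) (bm_int hG _)

theorem tm_sub (hF : BM F) (hG : BM G) : tm (fun x => F x - G x) = tm F - tm G :=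
  integral_sub (bm_int hF _) (bm_int hG _)

theorem tm_cmul (c : ℝ) (F : (κ → ℝ) → ℝ) : tm (fun x => c * F x) = c * tm F :=
  integral_const_mul c F

theorem tm_const (c : ℝ) : tm (fun _ : κ → ℝ => c) = c := by simp [tm]

theorem tm_sum {ι : Type} (J : Finset ι) {F : ι → (κ → ℝ) → ℝ} (hF : ∀ j ∈ J, BM (F j)) :
    tm (fun x => ∑ j ∈ J, F j x) = ∑ j ∈ J, tm (F j) :=
  integral_finsetSum J fun j hj => bm_int (hF j hj) _

theorem abs_tm_le (F : (κ → ℝ) → ℝ) : |tm F| ≤ tm fun x => |F x| :=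
  abs_integral_le_integral_abs

theorem tm_cs (hF : BM F) (hG : BM G) :
    tm (fun x => F x * G x) ^ 2 ≤ tm (fun x => F x ^ 2) * tm fun x => G x ^ 2 := by
  have := discrim_le_zero (a := tm fun x => F x ^ 2) (b := 2 * tm fun x => F x * G x)
    (c := tm fun x => G x ^ 2) fun t => by
      have h0 : 0 ≤ tm fun x => t * t * F x ^ 2 + 2 * t * (F x * G x) + G x ^ 2 :=
        tm_nonneg fun x => by nlinarith [sq_nonneg (t * F x + G x)]
      rw [tm_add (bm_add (bm_mul (bm_const _) (bm_sq hF)) (bm_mul (bm_const _) (bm_mul hF hG)))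
        (bm_sq hG), tm_add (bm_mul (bm_const _) (bm_sq hF)) (bm_mul (bm_const _) (bm_mul hF hG)),
        tm_cmul, tm_cmul] at h0
      linarith
  rw [discrim] at this
  linarith

theorem tm_sq_le (hF : BM F) : tm F ^ 2 ≤ tm fun x => F x ^ 2 := by
  simpa [tm_const] using tm_cs hF (bm_const 1)

theorem ip_add (m : κ → ℤ) (a b : κ → ℝ) : ip m (a + b) = ip m a + ip m b := by
  simp [ip, mul_add, sum_add_distrib]

theorem ip_smul (m : κ → ℤ) (r : ℝ) (a : κ → ℝ) : ip m (r • a) = r * ip m a := by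
  simp only [ip, Pi.smul_apply, smul_eq_mul, mul_sum]
  exact sum_congr rfl fun k _ => by ring

theorem ip_single [DecidableEq κ] (m : κ → ℤ) (k : κ) (x : ℝ) :
    ip m (Pi.single k x) = m k * x := by
  simp [ip, Pi.single_apply]

theorem meas_ip (m : κ → ℤ) : Measurable (ip m) := by
  unfold ip; fun_prop

/-- A function of `ip s` has Fourier coefficients on the line only. -/
theorem fc_line (hT : TorusStmt) [Nonempty κ] {s : κ → ℤ} (hs : PM s) {φ : ℝ → ℝ}
    (hP : Per fun β => φ (ip s β)) (hB : BM fun β => φ (ip s β)) {m : κ → ℤ}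
    (hm : ¬ ∃ i : ℤ, m = i • s) : fc (fun β => φ (ip s β)) m = 0 := by
  classical
  obtain ⟨k0⟩ := ‹Nonempty κ›
  have sq : ∀ k, s k * s k = 1 := fun k => by rcases hs k with h | h <;> simp [h]
  obtain ⟨k, hk⟩ : ∃ k, m k * s k - m k0 * s k0 ≠ 0 := by
    by_contra hn
    push Not at hn
    refine hm ⟨m k0 * s k0, funext fun k => ?_⟩
    rw [Pi.smul_apply, smul_eq_mul]
    linear_combination s k * hn k - m k * sq k
  have hk' : ((m k * s k - m k0 * s k0 : ℤ) : ℝ) ≠ 0 := Int.cast_ne_zero.2 hk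
  obtain ⟨τ, hτ⟩ : ∃ τ : ℝ, τ * ((m k * s k - m k0 * s k0 : ℤ) : ℝ) = 1 / 2 :=
    ⟨1 / 2 / _, div_mul_cancel₀ _ hk'⟩
  have sq' : ∀ k, (s k : ℝ) * s k = 1 := fun k => by exact_mod_cast sq k
  refine (hT κ).2.2.2.1 _ hP hB (Pi.single k (τ * s k) + Pi.single k0 (-(τ * s k0))) m
    (fun β => ?_) ?_
  · simp only [ip_add, ip_single]
    congr 1
    linear_combination τ * sq' k - τ * sq' k0
  · rintro ⟨n, hn⟩
    rw [ip_add, ip_single, ip_single] at hn
    have : (2 * n : ℝ) = 1 := by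
      push_cast at hτ
      linear_combination 2 * hτ - 2 * hn
    have h2 : 2 * n = 1 := by exact_mod_cast this
    omega

/-- Dual vectors off the line are far from the real line. -/
theorem far_line {Γ : AddSubgroup (κ → ℝ)} {sh : ℝ} (hL : Lat Γ sh) {s m : κ → ℤ} (hs : PM s)
    (hd : Dual Γ s) (hm : Dual Γ m) (hn : ¬ ∃ i : ℤ, m = i • s) (η : ℝ) :
    sh / 4 ≤ ∑ k, ((m k : ℝ) + η * s k) ^ 2 := by
  have d : Dual Γ (m + round η • s) := fun ρ hρ => by
    obtain ⟨a, ha⟩ := hm ρ hρ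
    obtain ⟨b, hb⟩ := hd ρ hρ
    refine ⟨a + round η * b, ?_⟩
    push_cast
    rw [← ha, ← hb]
    simp only [ip, Pi.add_apply, Pi.smul_apply, smul_eq_mul, mul_sum, ← sum_add_distrib]
    exact sum_congr rfl fun k _ => by push_cast; ring
  rcases hL.2 _ d with h | h
  · exact absurd ⟨-round η, by rw [neg_smul]; exact eq_neg_of_add_eq_zero_left h⟩ hn
  · refine (div_le_div_of_nonneg_right h (by norm_num)).trans ?_
    rw [sum_div]
    refine sum_le_sum fun k _ => ?_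
    have h1 := abs_le.1 (abs_sub_round η)
    have e : (m k : ℝ) + η * s k = ((m + round η • s) k : ℤ) + (η - round η) * s k := by
      simp only [Pi.add_apply, Pi.smul_apply, smul_eq_mul]
      push_cast; ring
    rw [e]
    generalize (m + round η • s) k = w
    have h2 : -(1 / 2) ≤ (η - round η) * s k ∧ (η - round η) * s k ≤ 1 / 2 := by
      rcases hs k with h | h <;> rw [h] <;> push_cast <;> constructor <;> linarith [h1.1, h1.2]
    generalize (η - round η) * s k = θ at h2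
    rcases lt_trichotomy w 0 with h3 | h3 | h3
    · have : (w : ℝ) ≤ -1 := by exact_mod_cast Int.le_sub_one_of_lt h3
      nlinarith [h2.1, h2.2]
    · rw [h3]; simp; positivity
    · have : (1 : ℝ) ≤ w := by exact_mod_cast h3
      nlinarith [h2.1, h2.2]

theorem tm_le_sqrt (hF : BM F) {x : ℝ} (hx : 0 ≤ x) (h : tm (fun β => F β ^ 2) ≤ x ^ 2) :
    tm (fun β => |F β|) ≤ x := by
  have := tm_sq_le (bm_abs hF)
  simp only [sq_abs] at this
  exact (abs_le_of_sq_le_sq' (this.trans h) hx).2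

theorem tm_mul_le (hF : BM F) (hG : BM G) {x y : ℝ} (hx : 0 ≤ x) (hy : 0 ≤ y)
    (h : tm (fun β => F β ^ 2) ≤ x ^ 2) (h' : tm (fun β => G β ^ 2) ≤ y ^ 2) :
    tm (fun β => F β * G β) ≤ x * y := by
  refine (abs_le_of_sq_le_sq' ((tm_cs hF hG).trans ?_) (mul_nonneg hx hy)).2
  rw [mul_pow]
  exact mul_le_mul h h' (tm_nonneg fun _ => sq_nonneg _) (sq_nonneg _)

end Mean

/-! ### One coordinate -/

section One

variable {κ : Type} [Fintype κ]

/-- The data for one coordinate. -/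
structure Hyp (ω : ℝ) (Γ : AddSubgroup (κ → ℝ)) (s : κ → ℤ) (c : (κ → ℝ) → ℝ) : Prop where
  R : RampAt ω
  pos : 0 < ω
  int : ∀ n : κ → ℤ, (fun k => (n k : ℝ)) ∈ Γ
  pm : PM s
  dual : Dual Γ s
  bm : BM c
  inv : ∀ ρ ∈ Γ, ∀ β, c (β + ρ) = c β

theorem psi_nonneg {ω : ℝ} (R : RampAt ω) (e y : ℝ) : 0 ≤ psi ω e y := by
  unfold psi; split_ifs
  exacts [R.dpr_nonneg y, le_rfl]

theorem psi_le {ω : ℝ} (R : RampAt ω) (e y : ℝ) : psi ω e y ≤ dpr ω y := by
  unfold psi; split_ifs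
  exacts [le_rfl, R.dpr_nonneg y]

theorem psi_sq_le {ω : ℝ} (R : RampAt ω) (e y : ℝ) : psi ω e y ^ 2 ≤ 4 / ω ^ 2 * pq ω y :=
  (pow_le_pow_left₀ (psi_nonneg R e y) (psi_le R e y) 2).trans (R.dpr_sq_le y)

theorem bm_pq {ω : ℝ} (R : RampAt ω) : BM (pq ω) := bm_of_mem R.pq_meas R.pq_nonneg R.pq_le

theorem bm_dpr {ω : ℝ} (R : RampAt ω) : BM (dpr ω) := bm_of_mem R.dpr_meas R.dpr_nonneg R.dpr_le

theorem bm_psi {ω : ℝ} (R : RampAt ω) (e : ℝ) : BM (psi ω e) :=
  bm_of_mem (R.psi_meas e) (psi_nonneg R e) fun y => (psi_le R e y).trans (R.dpr_le y)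

theorem pq_supp {ω : ℝ} (R : RampAt ω) {y : ℝ} (h : pq ω y ≠ 0) : 0 < ee ω y := by
  refine (R.ee_nonneg y).lt_of_ne fun h0 => h (le_antisymm ?_ (R.pq_nonneg y))
  simpa [← h0] using R.pq_le_sq y

theorem psi_supp {ω e y : ℝ} (he : 0 < e) (h : psi ω e y ≠ 0) : 0 < ee ω y := by
  unfold psi at h
  split_ifs at h with h1
  · exact he.trans_le h1
  · exact absurd rfl h

theorem bm_line {φ : ℝ → ℝ} (h : BM φ) (s : κ → ℤ) (t : ℝ) : BM fun η => φ (t + ip s η) :=
  bm_comp h ((meas_ip s).const_add t)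

theorem bm_corr {F G : (κ → ℝ) → ℝ} (hF : BM F) (hG : BM G) :
    BM fun ξ => tm fun β => F β * G (β + ξ) :=
  bm_tm (H := fun ξ β => F β * G (β + ξ))
    (bm_mul (bm_comp hF measurable_snd) (bm_comp hG (measurable_snd.add measurable_fst)))

theorem chi_le (a u : ℝ) : chi a u ≤ 1 :=
  Real.exp_le_one_iff.2 (div_nonpos_of_nonpos_of_nonneg (neg_nonpos.2 (sq_nonneg u))
    (by positivity))

theorem bm_chi (a : ℝ) : BM (chi a) :=
  bm_of_mem (by unfold chi; fun_prop) (fun _ => (Real.exp_pos _).le) (chi_le a)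

variable {ω : ℝ} {Γ : AddSubgroup (κ → ℝ)} {s : κ → ℤ} {c : (κ → ℝ) → ℝ}

namespace Hyp

theorem shift (H : Hyp ω Γ s c) {φ : ℝ → ℝ} (h : ∀ y (n : ℤ), φ (y + n) = φ y) (t : ℝ)
    {ρ : κ → ℝ} (hρ : ρ ∈ Γ) (β : κ → ℝ) : φ (t + ip s (β + ρ)) = φ (t + ip s β) := by
  obtain ⟨n, hn⟩ := H.dual ρ hρ
  rw [ip_add, hn, ← add_assoc, h]

theorem per (H : Hyp ω Γ s c) {F : (κ → ℝ) → ℝ} (h : ∀ ρ ∈ Γ, ∀ β, F (β + ρ) = F β) : Per F :=
  fun β n => h _ (H.int n) β

theorem bm0 (H : Hyp ω Γ s c) (t : ℝ) : BM fun η => pq ω (t + ip s η) * c η ^ 2 :=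
  bm_mul (bm_line (bm_pq H.R) s t) (bm_sq H.bm)

theorem bm1 (H : Hyp ω Γ s c) (t : ℝ) : BM fun η => pq ω (t + ip s η) * c η :=
  bm_mul (bm_line (bm_pq H.R) s t) H.bm

theorem bm2 (H : Hyp ω Γ s c) (e t : ℝ) : BM fun η => psi ω e (t + ip s η) * c η :=
  bm_mul (bm_line (bm_psi H.R e) s t) H.bm

theorem per0 (H : Hyp ω Γ s c) (t : ℝ) : Per fun η => pq ω (t + ip s η) * c η ^ 2 :=
  H.per fun ρ hρ β => by simp only [H.shift H.R.pq_per t hρ, H.inv ρ hρ]

theorem inv1 (H : Hyp ω Γ s c) (t : ℝ) {ρ : κ → ℝ} (hρ : ρ ∈ Γ) (β : κ → ℝ) :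
    pq ω (t + ip s (β + ρ)) * c (β + ρ) = pq ω (t + ip s β) * c β := by
  simp only [H.shift H.R.pq_per t hρ, H.inv ρ hρ]

theorem per2 (H : Hyp ω Γ s c) (e t : ℝ) : Per fun η => psi ω e (t + ip s η) * c η :=
  H.per fun ρ hρ β => by simp only [H.shift (H.R.psi_per e) t hρ, H.inv ρ hρ]

theorem w_nonneg (H : Hyp ω Γ s c) (t : ℝ) : 0 ≤ tm fun η => pq ω (t + ip s η) * c η ^ 2 :=
  tm_nonneg fun _ => mul_nonneg (H.R.pq_nonneg _) (sq_nonneg _)

theorem sq1 (H : Hyp ω Γ s c) (t : ℝ) (η : κ → ℝ) :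
    (pq ω (t + ip s η) * c η) ^ 2 ≤ 1 / 4 * (pq ω (t + ip s η) * c η ^ 2) := by
  have := mul_le_mul_of_nonneg_right (H.R.pq_le (t + ip s η))
    (mul_nonneg (H.R.pq_nonneg (t + ip s η)) (sq_nonneg (c η)))
  linarith

theorem sq2 (H : Hyp ω Γ s c) {x : ℝ} (t : ℝ) (η : κ → ℝ) (h0 : 0 ≤ x)
    (h1 : x ≤ dpr ω (t + ip s η)) :
    (x * c η) ^ 2 ≤ 4 / ω ^ 2 * (pq ω (t + ip s η) * c η ^ 2) := by
  rw [mul_pow, ← mul_assoc]
  exact mul_le_mul_of_nonneg_right ((pow_le_pow_left₀ h0 h1 2).trans (H.R.dpr_sq_le _))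
    (sq_nonneg _)

theorem marg (H : Hyp ω Γ s c) (hT : TorusStmt) [Nonempty κ] {φ : ℝ → ℝ} (hB : BM φ)
    (h : ∀ y (n : ℤ), φ (y + n) = φ y) (t : ℝ) :
    tm (fun β => φ (t + ip s β)) = ∫ x in (0 : ℝ)..1, φ x :=
  (hT κ).2.2.2.2 φ s (Classical.arbitrary κ) t hB h (H.pm _)

/-- The diagonal term is large. -/
theorem main_lb (H : Hyp ω Γ s c) (hT : TorusStmt) (hL : LineStmt) [Nonempty κ] {σ a W e : ℝ}
    (t : ℝ) (ha : 0 < a) (hW : 0 < W) (hσ : W ^ 2 = σ ^ 2 * Fintype.card κ) (hb : bb W a ≤ 1)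
    (he : 0 < e) (h0 : 0 ≤ A0 W a) (h1 : 0 ≤ A1 W a) :
    (A0 W a * (1 - 4 * e) - 4 * Real.pi * ω * A1 W a) *
        tm (fun η => pq ω (t + ip s η) * c η ^ 2) ≤
      ∫ ξ, chi a (ip s ξ) * tm (fun β => pq ω (t + ip s β) * c β ^ 2 *
        psi ω e (t + ip s (β + ξ))) ∂gm κ σ := by
  have pP : Per fun η => psi ω e (t + ip s η) := H.per fun ρ hρ β => H.shift (H.R.psi_per e) t hρ β
  have bP := bm_line (bm_psi H.R e) s t
  have L := hL κ σ a W ω t 0 s _ _ ha hW hσ hb H.pm H.pos.le le_rfl (H.per0 t) (H.bm0 t) pP bP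
    (fun β hβ => (H.R.ee_supp _ (pq_supp H.R (left_ne_zero_of_mul hβ))).le)
    (fun β hβ => (H.R.ee_supp _ (psi_supp he hβ)).le)
    (fun m hm _ h2 => absurd (fc_line hT H.pm (φ := fun x => psi ω e (t + x)) pP bP hm) h2)
  have e1 : (fun β => |pq ω (t + ip s β) * c β ^ 2|) = fun β => pq ω (t + ip s β) * c β ^ 2 :=
    funext fun β => abs_of_nonneg (mul_nonneg (H.R.pq_nonneg _) (sq_nonneg _))
  have e2 : (fun β => |psi ω e (t + ip s β)|) = fun β => psi ω e (t + ip s β) :=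
    funext fun β => abs_of_nonneg (psi_nonneg H.R _ _)
  rw [e1, e2, zero_mul, zero_mul, add_zero] at L
  have lo : 1 - 4 * e ≤ tm fun β => psi ω e (t + ip s β) := by
    rw [H.marg hT (bm_psi H.R e) (H.R.psi_per e)]; exact H.R.int_psi e he
  have hi : tm (fun β => psi ω e (t + ip s β)) ≤ 1 := by
    rw [← H.R.int_dpr, ← H.marg hT (bm_dpr H.R) H.R.dpr_per t]
    exact tm_mono bP (bm_line (bm_dpr H.R) s t) fun β => psi_le H.R _ _
  have w0 := H.w_nonneg t
  have a1 := mul_le_mul_of_nonneg_left lo (mul_nonneg h0 w0)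
  have a2 := mul_le_mul_of_nonneg_left hi (mul_nonneg (mul_nonneg (by
    have := H.pos; positivity : 0 ≤ 4 * Real.pi * ω) h1) w0)
  linarith [(abs_le.1 L).1]

/-- The crossed term is small. -/
theorem tail_ub (H : Hyp ω Γ s c) (hT : TorusStmt) (hG : GaussStmt) (hL : LineStmt) [Nonempty κ]
    {σ a W c0 : ℝ} (t : ℝ) (hLat : Lat Γ (c0 * Fintype.card κ)) (ha : 0 < a) (hW : 0 < W)
    (hσ : W ^ 2 = σ ^ 2 * Fintype.card κ) (hb : bb W a ≤ 1) (h0 : 0 ≤ A0 W a) (h1 : 0 ≤ A1 W a) :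
    ∫ ξ, chi a (ip s ξ) * tm (fun β => pq ω (t + ip s β) * c β *
        (psi ω (ω / 256) (t + ip s (β + ξ)) * c (β + ξ))) ∂gm κ σ ≤
      A0 W a * tm (fun η => dpr ω (t + ip s η) * c η) ^ 2 / 2 +
      (A0 W a / 4 + 4 * Real.pi * Real.sqrt (2 * ω) * A1 W a +
        Real.exp (-(Real.pi ^ 2 * W ^ 2 * c0 / 2)) / ω) *
        tm (fun η => pq ω (t + ip s η) * c η ^ 2) := by
  have p := H.pos
  have he : 0 < ω / 256 := by positivity
  have p1 : Per fun η => pq ω (t + ip s η) * c η := H.per fun ρ hρ β => H.inv1 t hρ β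
  have L := hL κ σ a W ω t (Real.exp (-(Real.pi ^ 2 * W ^ 2 * c0 / 2))) s _ _ ha hW hσ hb H.pm
    p.le (Real.exp_pos _).le p1 (H.bm1 t) (H.per2 (ω / 256) t) (H.bm2 (ω / 256) t)
    (fun β hβ => (H.R.ee_supp _ (pq_supp H.R (left_ne_zero_of_mul hβ))).le)
    (fun β hβ => (H.R.ee_supp _ (psi_supp he (left_ne_zero_of_mul hβ))).le)
    (fun m hm h2 _ => by
      have d : Dual Γ m := fun ρ hρ => by
        by_contra hn
        exact h2 ((hT κ).2.2.2.1 _ p1 (H.bm1 t) ρ m (H.inv1 t hρ) hn)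
      refine ((hG.1 κ σ).2.2.2.1 a _ s m ha (far_line hLat H.pm H.dual d hm)).trans (le_of_eq ?_)
      rw [hσ]; congr 1; ring)
  obtain ⟨w, hw⟩ : ∃ w, w = Real.sqrt (tm fun η => pq ω (t + ip s η) * c η ^ 2) := ⟨_, rfl⟩
  have w0 : 0 ≤ w := hw ▸ Real.sqrt_nonneg _
  have w2 : tm (fun η => pq ω (t + ip s η) * c η ^ 2) = w ^ 2 := by
    rw [hw, Real.sq_sqrt (H.w_nonneg t)]
  have q1 : tm (fun η => (pq ω (t + ip s η) * c η) ^ 2) ≤ (w / 2) ^ 2 :=
    (tm_mono (bm_sq (H.bm1 t)) (bm_mul (bm_const _) (H.bm0 t)) (H.sq1 t)).trans (by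
      rw [tm_cmul, w2]; exact le_of_eq (by ring))
  have q2 : ∀ {x : ℝ → ℝ}, BM x → (∀ y, 0 ≤ x y) → (∀ y, x y ≤ dpr ω y) →
      tm (fun η => (x (t + ip s η) * c η) ^ 2) ≤ (2 / ω * w) ^ 2 := fun hx x0 x1 =>
    (tm_mono (bm_sq (bm_mul (bm_line hx s t) H.bm)) (bm_mul (bm_const _) (H.bm0 t))
      fun η => H.sq2 t η (x0 _) (x1 _)).trans (by rw [tm_cmul, w2]; exact le_of_eq (by ring))
  have q2' := q2 (bm_psi H.R (ω / 256)) (psi_nonneg H.R _) (psi_le H.R _)
  have n1 := tm_le_sqrt (H.bm1 t) (by positivity) q1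
  have i1 : BM fun y => ind (0 < ee ω y) := bm_ind (measurableSet_lt measurable_const H.R.ee_meas)
  have i2 : BM fun y => ind (0 < ee ω y ∧ ee ω y < ω / 256) :=
    bm_ind ((measurableSet_lt measurable_const H.R.ee_meas).inter
      (measurableSet_lt H.R.ee_meas measurable_const))
  have n2 : tm (fun η => |psi ω (ω / 256) (t + ip s η) * c η|) ≤
      2 / ω * w * Real.sqrt (2 * ω) := by
    refine le_trans (le_of_eq (congrArg tm (funext fun η => ?_)))
      (tm_mul_le (bm_abs (H.bm2 (ω / 256) t)) (bm_line i1 s t) (by positivity) (Real.sqrt_nonneg _)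
        (by simpa only [sq_abs] using q2') ?_)
    · by_cases h : psi ω (ω / 256) (t + ip s η) = 0
      · simp [h]
      · simp [ind, psi_supp he h]
    · simp only [ind_sq]
      rw [H.marg hT i1 (fun y n => by rw [H.R.ee_per]) t, Real.sq_sqrt (by positivity)]
      exact H.R.int_win
  have n3 : |tm (fun η => psi ω (ω / 256) (t + ip s η) * c η)| ≤
      |tm fun η => dpr ω (t + ip s η) * c η| + w / 4 := by
    have bD := bm_mul (bm_line (bm_dpr H.R) s t) H.bm
    have b1 : |tm (fun η => dpr ω (t + ip s η) * c η) -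
        tm fun η => psi ω (ω / 256) (t + ip s η) * c η| ≤ 2 / ω * w * (ω / 8) := by
      rw [← tm_sub bD (H.bm2 _ t)]
      refine (abs_tm_le _).trans (le_trans (le_of_eq (congrArg tm (funext fun η => ?_)))
        (tm_mul_le (bm_abs bD) (bm_line i2 s t) (by positivity) (by positivity)
          (by simpa only [sq_abs] using q2 (bm_dpr H.R) H.R.dpr_nonneg fun _ => le_rfl) ?_))
      · by_cases h : ω / 256 ≤ ee ω (t + ip s η)
        · simp [ind, psi, h, not_lt.2 h]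
        · rcases (H.R.ee_nonneg (t + ip s η)).eq_or_lt with h2 | h2
          · simp [psi, dpr, ← h2]
          · simp [ind, psi, h, not_le.1 h, h2]
      · simp only [ind_sq]
        rw [H.marg hT i2 (fun y n => by rw [H.R.ee_per]) t]
        exact (H.R.int_ends _ he).trans (le_of_eq (by ring))
    rw [show 2 / ω * w * (ω / 8) = w / 4 by field_simp; ring, abs_sub_comm] at b1
    linarith [abs_sub_abs_le_abs_sub (tm fun η => psi ω (ω / 256) (t + ip s η) * c η)
      (tm fun η => dpr ω (t + ip s η) * c η)]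
  have m1 : tm (fun η => pq ω (t + ip s η) * c η) *
      tm (fun η => psi ω (ω / 256) (t + ip s η) * c η) ≤
      tm (fun η => dpr ω (t + ip s η) * c η) ^ 2 / 2 + w ^ 2 / 4 := by
    refine (le_abs_self _).trans ?_
    rw [abs_mul, ← sq_abs (tm fun η => dpr ω (t + ip s η) * c η)]
    refine (mul_le_mul ((abs_tm_le _).trans n1) n3 (abs_nonneg _) (by positivity)).trans ?_
    nlinarith [sq_nonneg (w / 2 - |tm fun η => dpr ω (t + ip s η) * c η|)]
  have m2 := mul_le_mul_of_nonneg_left m1 h0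
  have m3 := mul_le_mul_of_nonneg_left
    (mul_le_mul n1 n2 (tm_nonneg fun _ => abs_nonneg _) (by positivity))
    (mul_nonneg (by positivity : 0 ≤ 4 * Real.pi * ω) h1)
  have m4 := mul_le_mul_of_nonneg_left (mul_le_mul (Real.sqrt_le_iff.2 ⟨by positivity, q1⟩)
    (Real.sqrt_le_iff.2 ⟨by positivity, q2'⟩) (Real.sqrt_nonneg _) (by positivity))
    (Real.exp_pos (-(Real.pi ^ 2 * W ^ 2 * c0 / 2))).le
  rw [show 4 * Real.pi * ω * A1 W a * (w / 2 * (2 / ω * w * Real.sqrt (2 * ω))) =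
    4 * Real.pi * Real.sqrt (2 * ω) * A1 W a * w ^ 2 by field_simp] at m3
  rw [show ∀ x : ℝ, x * (w / 2 * (2 / ω * w)) = x / ω * w ^ 2 from fun x => by field_simp] at m4
  rw [w2]
  linarith [(abs_le.1 L).2]

/-- The far part of the move. -/
theorem far_ub (H : Hyp ω Γ s c) (hT : TorusStmt) (e t : ℝ) (ξ : κ → ℝ) :
    tm (fun η => pq ω (t + ip s η) * c η * psi ω e (t + ip s (η + ξ)) * (c η - c (η + ξ))) ≤
      2 / ω * tm fun η => pq ω (t + ip s η) * c η ^ 2 := by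
  have p := H.pos
  have m : Measurable fun η : κ → ℝ => η + ξ := measurable_id.add_const ξ
  have b0 := bm_comp (H.bm0 t) m
  refine (tm_mono (G := fun η => 3 / (2 * ω) * (pq ω (t + ip s η) * c η ^ 2) +
    1 / (2 * ω) * (pq ω (t + ip s (η + ξ)) * c (η + ξ) ^ 2))
    (bm_mul (bm_mul (H.bm1 t) (bm_comp (bm_line (bm_psi H.R e) s t) m))
      (bm_sub H.bm (bm_comp H.bm m)))
    (bm_add (bm_mul (bm_const _) (H.bm0 t)) (bm_mul (bm_const _) b0)) fun η => ?_).trans ?_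
  · have a1 := mul_le_mul_of_nonneg_left ((psi_le H.R e (t + ip s (η + ξ))).trans (H.R.dpr_le _))
      (mul_nonneg (H.R.pq_nonneg (t + ip s η)) (sq_nonneg (c η)))
    have a2 := mul_le_mul_of_nonneg_left (H.sq1 t η) (by positivity : 0 ≤ 2 / ω)
    have a3 := mul_le_mul_of_nonneg_left
      (H.sq2 t (η + ξ) (psi_nonneg H.R e _) (psi_le H.R e _)) (by positivity : 0 ≤ ω / 8)
    generalize pq ω (t + ip s η) = P at *
    generalize pq ω (t + ip s (η + ξ)) = P' at *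
    generalize psi ω e (t + ip s (η + ξ)) = Q at *
    have a4 : 0 ≤ 2 / ω * (P * c η) ^ 2 + P * c η * (Q * c (η + ξ)) +
        ω / 8 * (Q * c (η + ξ)) ^ 2 := by
      rw [show 2 / ω * (P * c η) ^ 2 + P * c η * (Q * c (η + ξ)) + ω / 8 * (Q * c (η + ξ)) ^ 2 =
        2 / ω * (P * c η + ω / 4 * (Q * c (η + ξ))) ^ 2 by field_simp; ring]
      positivity
    rw [show ω / 8 * (4 / ω ^ 2 * (P' * c (η + ξ) ^ 2)) = 1 / (2 * ω) * (P' * c (η + ξ) ^ 2) by
      field_simp; ring] at a3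
    rw [show 3 / (2 * ω) * (P * c η ^ 2) = P * c η ^ 2 * (1 / ω) + 2 / ω * (1 / 4 * (P * c η ^ 2)) by
      field_simp; ring]
    linarith
  · rw [tm_add (bm_mul (bm_const _) (H.bm0 t)) (bm_mul (bm_const _) b0), tm_cmul, tm_cmul,
      (hT κ).1 _ (H.per0 t) (H.bm0 t) ξ]
    exact le_of_eq (by field_simp; ring)

/-- The estimate for one coordinate. -/
theorem one (H : Hyp ω Γ s c) (hT : TorusStmt) (hG : GaussStmt) (hL : LineStmt) [Nonempty κ]
    {σ a W c0 : ℝ} (t : ℝ) (hLat : Lat Γ (c0 * Fintype.card κ)) (ha : 0 < a) (hW : 0 < W)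
    (hσ : W ^ 2 = σ ^ 2 * Fintype.card κ) (hb : bb W a ≤ 1) (h0 : 0 ≤ A0 W a) (h1 : 0 ≤ A1 W a)
    (hω : ω ≤ 1 / 8)
    (k1 : (4 * Real.pi * ω + 4 * Real.pi * Real.sqrt (2 * ω)) * A1 W a ≤ A0 W a / 8)
    (k2 : (Real.exp (-(Real.pi ^ 2 * W ^ 2 * c0 / 2)) + 2 * Real.exp (-(1 / (8 * a ^ 2)))) / ω ≤
      A0 W a / 8) :
    3 / 8 * A0 W a * tm (fun η => pq ω (t + ip s η) * c η ^ 2) ≤
      A0 W a * tm (fun η => dpr ω (t + ip s η) * c η) ^ 2 / 2 +
      ∫ ξ, (if |ip s ξ| < 1 / 2 then chi a (ip s ξ) else 0) *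
        tm (fun η => pq ω (t + ip s η) * c η * psi ω (ω / 256) (t + ip s (η + ξ)) *
          (c η - c (η + ξ))) ∂gm κ σ := by
  have p := H.pos
  have A := H.main_lb hT hL t ha hW hσ hb (by positivity : 0 < ω / 256) h0 h1
  have B := H.tail_ub hT hG hL t hLat ha hW hσ hb h0 h1
  have bc := bm_comp (bm_chi a) (meas_ip s)
  have bP := bm_line (bm_psi H.R (ω / 256)) s t
  have c0' := bm_corr (H.bm0 t) bP
  have c1' := bm_corr (H.bm1 t) (H.bm2 (ω / 256) t)
  have e : ∀ ξ, tm (fun η => pq ω (t + ip s η) * c η * psi ω (ω / 256) (t + ip s (η + ξ)) *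
      (c η - c (η + ξ))) = tm (fun β => pq ω (t + ip s β) * c β ^ 2 *
        psi ω (ω / 256) (t + ip s (β + ξ))) - tm (fun β => pq ω (t + ip s β) * c β *
        (psi ω (ω / 256) (t + ip s (β + ξ)) * c (β + ξ))) := fun ξ => by
    have m : Measurable fun η : κ → ℝ => η + ξ := measurable_id.add_const ξ
    rw [← tm_sub (bm_mul (H.bm0 t) (bm_comp bP m)) (bm_mul (H.bm1 t) (bm_comp (H.bm2 _ t) m))]
    exact congrArg tm (funext fun η => by ring)
  have bw : BM fun ξ => if |ip s ξ| < 1 / 2 then chi a (ip s ξ) else 0 :=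
    bm_of_mem (a := 1) (Measurable.ite (measurableSet_lt (meas_ip s).abs measurable_const) bc.1
      measurable_const) (fun ξ => by split_ifs; exacts [(Real.exp_pos _).le, le_rfl])
      fun ξ => by split_ifs; exacts [chi_le _ _, zero_le_one]
  have w0 := H.w_nonneg t
  have C := integral_mono (bm_int (bm_sub (bm_mul bc c0') (bm_mul bc c1')) (gm κ σ))
    (bm_int (bm_add (bm_mul bw (bm_sub c0' c1')) (bm_const (Real.exp (-(1 / (8 * a ^ 2))) *
      (2 / ω * tm fun η => pq ω (t + ip s η) * c η ^ 2)))) (gm κ σ)) fun ξ => by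
      have f := H.far_ub hT (ω / 256) t ξ
      rw [e] at f
      simp only
      split_ifs with h
      · rw [← mul_sub]
        exact le_add_of_nonneg_right (by positivity)
      · rw [← mul_sub, zero_mul, zero_add]
        have g : chi a (ip s ξ) ≤ Real.exp (-(1 / (8 * a ^ 2))) := by
          refine Real.exp_le_exp.2 ?_
          have := pow_le_pow_left₀ (by norm_num) (not_lt.1 h) 2
          rw [sq_abs] at this
          rw [neg_div, neg_le_neg_iff, div_le_div_iff₀ (by positivity) (by positivity)]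
          nlinarith [sq_nonneg a]
        exact (mul_le_mul_of_nonneg_left f (Real.exp_pos _).le).trans
          (mul_le_mul_of_nonneg_right g (by positivity))
  rw [integral_sub (bm_int (bm_mul bc c0') _) (bm_int (bm_mul bc c1') _),
    integral_add (bm_int (bm_mul bw (bm_sub c0' c1')) _) (integrable_const _), integral_const,
    probReal_univ, one_smul] at C
  simp only [e]
  have D1 := mul_le_mul_of_nonneg_right k1 w0
  have D2 := mul_le_mul_of_nonneg_right k2 w0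
  have D3 := mul_le_mul_of_nonneg_left hω (mul_nonneg h0 w0)
  have D4 := mul_nonneg h0 w0
  rw [add_div, show ∀ x : ℝ, 2 * x / ω = x * (2 / ω) from fun x => by ring] at D2
  linarith

end Hyp

end One

end Vale.Agent.P318.M.Block
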