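import Vale.Agent.P318.M.Stmt

/-! Fourier analysis of periodic functions on the unit cube. -/

namespace Vale.Agent.P318.M

open Finset MeasureTheory

namespace Torus

variable {κ : Type} [Fintype κ]

/-- The Haar probability measure of the torus. -/
noncomputable def mu (κ : Type) [Fintype κ] : Measure (UnitAddTorus κ) :=
  Measure.pi fun _ : κ => AddCircle.haarAddCircle

theorem mu_prob (κ : Type) [Fintype κ] : IsProbabilityMeasure (mu κ) := by
  unfold mu
  infer_instance

theorem mu_inv (κ : Type) [Fintype κ] : (mu κ).IsAddRightInvariant := by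
  unfold mu
  infer_instance

/-- The projection to the torus. -/
def mk (β : κ → ℝ) : UnitAddTorus κ := fun i => (β i : UnitAddCircle)

/-- The representative in the cube. -/
noncomputable def rep (x : UnitAddTorus κ) : κ → ℝ := fun i => (AddCircle.equivIoc 1 0 (x i)).1

omit [Fintype κ] in
theorem mk_rep (x : UnitAddTorus κ) : mk (rep x) = x := by
  funext i
  exact (AddCircle.equivIoc 1 0).symm_apply_apply (x i)

omit [Fintype κ] in
theorem mk_add (a b : κ → ℝ) : mk (a + b) = mk a + mk b := rfl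

omit [Fintype κ] in
theorem measurable_rep : Measurable (rep : UnitAddTorus κ → κ → ℝ) :=
  measurable_pi_lambda _ fun i => measurable_subtype_coe.comp
    ((AddCircle.measurableEquivIoc 1 0).measurable.comp (measurable_pi_apply i))

omit [Fintype κ] in
theorem per_congr {E : Type} {H : (κ → ℝ) → E}
    (hH : ∀ (β : κ → ℝ) (n : κ → ℤ), H (β + fun k => (n k : ℝ)) = H β) {a b : κ → ℝ}
    (h : mk a = mk b) : H a = H b := by
  have h1 : ∀ i, ∃ n : ℤ, b i = a i + n := by
    intro i
    have h2 : -a i + b i ∈ AddSubgroup.zmultiples (1 : ℝ) :=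
      QuotientAddGroup.eq.1 (congrFun h i)
    obtain ⟨n, hn⟩ := AddSubgroup.mem_zmultiples_iff.1 h2
    refine ⟨n, ?_⟩
    rw [zsmul_eq_mul, mul_one] at hn
    linarith
  choose n hn using h1
  rw [← hH a n]
  exact congrArg H (funext fun i => (hn i).symm)

section Int

variable {E : Type} [NormedAddCommGroup E] [NormedSpace ℝ E] {H : (κ → ℝ) → E}

theorem int_cube (hH : ∀ (β : κ → ℝ) (n : κ → ℤ), H (β + fun k => (n k : ℝ)) = H β) :
    ∫ β, H β ∂cube κ = ∫ x, H (rep x) ∂mu κ := by
  have h1 : ∫ x, H (rep x) ∂mu κ = ∫ β in {x : κ → ℝ | ∀ i, x i ∈ Set.Ioc ((0 : κ → ℝ) i)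
      ((0 : κ → ℝ) i + 1)}, H (rep (mk β)) :=
    UnitAddTorus.integral_preimage (fun x => H (rep x)) 0
  have h2 : {x : κ → ℝ | ∀ i, x i ∈ Set.Ioc ((0 : κ → ℝ) i) ((0 : κ → ℝ) i + 1)} =
      Set.univ.pi fun _ : κ => Set.Ioc (0 : ℝ) 1 := by
    ext x
    simp
  rw [h1, h2, cube]
  exact integral_congr_ae (Filter.Eventually.of_forall fun β => per_congr hH (mk_rep _).symm)

theorem int_shift (hH : ∀ (β : κ → ℝ) (n : κ → ℤ), H (β + fun k => (n k : ℝ)) = H β)
    (ξ : κ → ℝ) : ∫ β, H (β + ξ) ∂cube κ = ∫ β, H β ∂cube κ := by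
  have := mu_inv κ
  rw [int_cube hH, int_cube (H := fun β => H (β + ξ)) fun β n => by rw [add_right_comm, hH],
    ← integral_add_right_eq_self (fun x => H (rep x)) (mk ξ)]
  refine integral_congr_ae (Filter.Eventually.of_forall fun x => per_congr hH ?_)
  rw [mk_add, mk_rep, mk_rep]

end Int

theorem ip_add (m : κ → ℤ) (a b : κ → ℝ) : ip m (a + b) = ip m a + ip m b := by
  simp only [ip, Pi.add_apply, mul_add, sum_add_distrib]

theorem ip_int (m n : κ → ℤ) : ip m (fun k => (n k : ℝ)) = ((∑ k, m k * n k : ℤ) : ℝ) := by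
  simp only [ip]
  push_cast
  rfl

theorem ch_add (x y : ℝ) : ch (x + y) = ch x * ch y := by
  simp only [ch, Complex.ofReal_add, mul_add, Complex.exp_add]

theorem ch_eq_one {x : ℝ} : ch x = 1 ↔ ∃ n : ℤ, x = n := by
  rw [ch, Complex.exp_eq_one_iff]
  refine exists_congr fun n => ?_
  rw [mul_comm (n : ℂ), mul_right_inj' Complex.two_pi_I_ne_zero]
  exact_mod_cast Iff.rfl

theorem conj_ch (x : ℝ) : (starRingEnd ℂ) (ch x) = ch (-x) := by
  rw [ch, ch, ← Complex.exp_conj]
  congr 1
  simp [Complex.conj_ofReal, map_ofNat]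

theorem mFourier_mk (m : κ → ℤ) (β : κ → ℝ) :
    UnitAddTorus.mFourier (-m) (mk β) = ch (-ip m β) := by
  simp only [UnitAddTorus.mFourier, ContinuousMap.coe_mk, mk, fourier_coe_apply, ch, ip,
    ← Complex.exp_sum]
  congr 1
  push_cast
  rw [← sum_neg_distrib, mul_sum]
  refine sum_congr rfl fun i _ => ?_
  simp only [Pi.neg_apply, Int.cast_neg]
  ring

theorem per_fc {F : (κ → ℝ) → ℝ} (hF : Per F) (m : κ → ℤ) (β : κ → ℝ) (n : κ → ℤ) :
    ch (-ip m (β + fun k => (n k : ℝ))) * (F (β + fun k => (n k : ℝ)) : ℂ) =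
      ch (-ip m β) * (F β : ℂ) := by
  rw [hF, ip_add, neg_add, ch_add, ip_int,
    (ch_eq_one (x := -((∑ k, m k * n k : ℤ) : ℝ))).2 ⟨-∑ k, m k * n k, by push_cast; rfl⟩, mul_one]

theorem fc_shift {F : (κ → ℝ) → ℝ} (hF : Per F) (m : κ → ℤ) (ξ : κ → ℝ) :
    fc (fun β => F (β + ξ)) m = ch (ip m ξ) * fc F m := by
  rw [fc, fc, ← int_shift (H := fun β => ch (-ip m β) * (F β : ℂ)) (per_fc hF m) ξ,
    ← integral_const_mul]
  refine integral_congr_ae (Filter.Eventually.of_forall fun β => ?_)
  simp only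
  rw [← mul_assoc, ← ch_add, ip_add]
  congr 2
  ring

theorem fc_eq {F : (κ → ℝ) → ℝ} (hF : Per F) (m : κ → ℤ) :
    fc F m = ∫ x, UnitAddTorus.mFourier (-m) x • (F (rep x) : ℂ) ∂mu κ := by
  rw [fc, int_cube (H := fun β => ch (-ip m β) * (F β : ℂ)) (per_fc hF m)]
  refine integral_congr_ae (Filter.Eventually.of_forall fun x => ?_)
  simp only
  rw [← mFourier_mk, mk_rep, smul_eq_mul]

theorem memLp {F : (κ → ℝ) → ℝ} (hF : BM F) : MemLp (fun x => (F (rep x) : ℂ)) 2 (mu κ) := by
  have := mu_prob κ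
  obtain ⟨h1, C, hC⟩ := hF
  refine MemLp.of_bound (Complex.measurable_ofReal.comp (h1.comp measurable_rep)).aestronglyMeasurable
    C (Filter.Eventually.of_forall fun x => ?_)
  rw [Complex.norm_real]
  exact hC _

theorem coeff_toLp {F : (κ → ℝ) → ℝ} (hF : Per F) (hB : BM F) (m : κ → ℤ) :
    UnitAddTorus.mFourierCoeff ((memLp hB).toLp _) m = fc F m := by
  rw [fc_eq hF]
  refine integral_congr_ae (μ := mu κ) ?_
  filter_upwards [(memLp hB).coeFn_toLp] with x hx
  rw [hx]

theorem parseval {F G : (κ → ℝ) → ℝ} (hF : Per F) (hF' : BM F) (hG : Per G) (hG' : BM G) :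
    HasSum (fun m : κ → ℤ => (starRingEnd ℂ) (fc G m) * fc F m)
      ((tm fun β => F β * G β : ℝ) : ℂ) := by
  have h : HasSum (fun m : κ → ℤ =>
      (starRingEnd ℂ) (UnitAddTorus.mFourierCoeff ((memLp hG').toLp _) m) *
        UnitAddTorus.mFourierCoeff ((memLp hF').toLp _) m)
      (∫ x, (starRingEnd ℂ) ((memLp hG').toLp _ x) * (memLp hF').toLp _ x ∂mu κ) :=
    UnitAddTorus.hasSum_prod_mFourierCoeff ((memLp hG').toLp _) ((memLp hF').toLp _)
  simp only [coeff_toLp hF hF', coeff_toLp hG hG'] at h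
  convert h using 1
  rw [tm, int_cube (H := fun β => F β * G β) fun β n => by rw [hF, hG], ← integral_complex_ofReal]
  refine integral_congr_ae ?_
  filter_upwards [(memLp hF').coeFn_toLp, (memLp hG').coeFn_toLp] with x hx hy
  rw [hx, hy, Complex.conj_ofReal, mul_comm]
  exact Complex.ofReal_mul _ _

theorem marginal (φ : ℝ → ℝ) (s : κ → ℤ) (k : κ) (t : ℝ) (hφ : BM φ)
    (hp : ∀ x (n : ℤ), φ (x + n) = φ x) (hs : s k = 1 ∨ s k = -1) :
    tm (fun β => φ (t + ip s β)) = ∫ x in (0 : ℝ)..1, φ x := by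
  classical
  obtain ⟨hm, C, hC⟩ := hφ
  have hper : Function.Periodic φ 1 := fun x => by simpa using hp x 1
  have h1 : ∀ r : ℝ, tm (fun β => φ (t + ip s β)) =
      ∫ β, φ (t + ip s β + s k * r) ∂cube κ := by
    intro r
    rw [tm, ← int_shift (H := fun β => φ (t + ip s β))
      (fun β n => by rw [ip_add, ip_int, ← add_assoc, hp]) (Pi.single k r)]
    refine integral_congr_ae (Filter.Eventually.of_forall fun β => ?_)
    have h2 : ip s (Pi.single k r) = s k * r := by
      rw [ip, sum_eq_single k (fun b _ hb => by rw [Pi.single_eq_of_ne hb, mul_zero])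
        (fun h => absurd (mem_univ k) h), Pi.single_eq_same]
    simp only
    rw [ip_add, h2, add_assoc]
  have h2 : ∀ c : ℝ, ∫ r in (0 : ℝ)..1, φ (c + s k * r) = ∫ x in (0 : ℝ)..1, φ x := by
    intro c
    rcases hs with h | h
    · simp only [h, Int.cast_one, one_mul]
      rw [intervalIntegral.integral_comp_add_left, add_zero, hper.intervalIntegral_add_eq c 0,
        zero_add]
    · simp only [h, Int.cast_neg, Int.cast_one, neg_mul, one_mul, ← sub_eq_add_neg]
      rw [intervalIntegral.integral_comp_sub_left, sub_zero]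
      have h3 := hper.intervalIntegral_add_eq (c - 1) 0
      rwa [sub_add_cancel, zero_add] at h3
  have hip : Measurable (ip s : (κ → ℝ) → ℝ) := by
    unfold ip
    fun_prop
  have h3 : Integrable (Function.uncurry fun (r : ℝ) (β : κ → ℝ) => φ (t + ip s β + s k * r))
      ((volume.restrict (Set.Ioc (0 : ℝ) 1)).prod (cube κ)) := by
    refine Integrable.of_bound (hm.comp ?_).aestronglyMeasurable C
      (Filter.Eventually.of_forall fun x => hC _)
    exact ((hip.comp measurable_snd).const_add t).add (measurable_fst.const_mul _)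
  have h4 := integral_integral_swap h3
  simp only [← h1, ← intervalIntegral.integral_of_le zero_le_one, h2] at h4
  simpa using h4

end Torus

theorem torus_proof : TorusStmt := by
  intro κ _
  refine ⟨fun F hF _ ξ => Torus.int_shift hF ξ, fun F G hF hF' hG hG' ξ => ?_,
    fun F hF hF' => ?_, fun F hF _ ρ m hρ hm => ?_, Torus.marginal⟩
  · have h := Torus.parseval hF hF' (G := fun β => G (β + ξ))
      (fun β n => by simp only [add_right_comm β _ ξ, hG _ n])
      ⟨hG'.1.comp (measurable_add_const ξ), hG'.2.imp fun C hC x => hC _⟩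
    refine h.congr_fun fun m => ?_
    rw [Torus.fc_shift hG, map_mul, Torus.conj_ch]
    ring
  · have h := Complex.hasSum_re (Torus.parseval hF hF' hF hF')
    simp only [Complex.ofReal_re, ← sq] at h
    refine h.congr_fun fun m => ?_
    rw [Complex.conj_mul', ← Complex.ofReal_pow, Complex.ofReal_re]
  · have h := Torus.fc_shift hF m ρ
    simp only [hρ] at h
    by_contra hc
    exact hm (Torus.ch_eq_one.1 (mul_left_eq_self₀.1 h.symm |>.resolve_right hc))

end Vale.Agent.P318.M
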