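import Vale.Agent.P318.M.Stmt

/-! Fourier expansion in the bits. -/

namespace Vale.Agent.P318.M

open Finset

noncomputable section

namespace FourierP

variable {ι : Type} [Fintype ι] [DecidableEq ι]

def sg (a : Bool) : ℝ := if a then 1 else -1

def dl (a b : Bool) : ℝ := if a = b then 1 else 0

/-- Sum against a product kernel. -/
def T (k : ι → Bool → ℝ) (F : (ι → Bool) → ℝ) : ℝ := ∑ a, (∏ i, k i (a i)) * F a

/-- `k` on `J`, the noise kernel started from `b` outside `J`. -/
def nk (p : ι → ℝ) (ρ : ℝ) (J : Finset ι) (b : ι → Bool) (k : ι → Bool → ℝ) (i : ι) (d : Bool) :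
    ℝ := if i ∈ J then k i d else ρ * dl d (b i) + (1 - ρ) * wt1 (p i) d

/-- The kernel of `coef`. -/
def ck (p : ι → ℝ) (R : Finset ι) (i : ι) (d : Bool) : ℝ := if i ∈ R then sg d else wt1 (p i) d

theorem sum_prod (g : ι → Bool → ℝ) :
    ∑ b : ι → Bool, ∏ i, g i (b i) = ∏ i, (g i true + g i false) := by
  have := Finset.prod_univ_sum (fun _ : ι => (univ : Finset Bool)) g
  rw [Fintype.piFinset_univ] at this
  rw [← this]
  simp

theorem T_comp (m : ι → Bool → ℝ) (K : ι → Bool → Bool → ℝ) (F : (ι → Bool) → ℝ) :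
    T m (fun c => T (fun i => K i (c i)) F) =
      T (fun i d => m i true * K i true d + m i false * K i false d) F := by
  unfold T
  simp only [mul_sum]
  rw [sum_comm]
  refine sum_congr rfl fun d _ => ?_
  rw [← sum_prod (fun i c => m i c * K i c (d i)), sum_mul]
  refine sum_congr rfl fun c _ => ?_
  rw [prod_mul_distrib, mul_assoc]

theorem T_dl (e : ι → Bool) (F : (ι → Bool) → ℝ) : T (fun i d => dl d (e i)) F = F e := by
  unfold T
  rw [sum_eq_single e]
  · simp [dl]
  · intro a _ h
    obtain ⟨i, hi⟩ := Function.ne_iff.1 h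
    rw [prod_eq_zero (mem_univ i) (by simp [dl, hi]), zero_mul]
  · simp

theorem T_map (m : ι → Bool → ℝ) (φ : ι → Bool → Bool) (F : (ι → Bool) → ℝ) :
    T m (fun c => F fun i => φ i (c i)) =
      T (fun i d => m i true * dl d (φ i true) + m i false * dl d (φ i false)) F := by
  rw [← T_comp m (fun i c d => dl d (φ i c))]
  congr 1
  funext c
  exact (T_dl (fun i => φ i (c i)) F).symm

theorem T_mono {k : ι → Bool → ℝ} (hk : ∀ i d, 0 ≤ k i d) {F G : (ι → Bool) → ℝ}
    (h : ∀ a, F a ≤ G a) : T k F ≤ T k G :=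
  sum_le_sum fun a _ => mul_le_mul_of_nonneg_left (h a) (prod_nonneg fun i _ => hk i _)

theorem T_const (k : ι → Bool → ℝ) (hk : ∀ i, k i true + k i false = 1) (c : ℝ) :
    T k (fun _ => c) = c := by
  unfold T
  rw [← sum_mul, sum_prod]
  simp [hk]

theorem T_abs {k : ι → Bool → ℝ} (hk : ∀ i d, 0 ≤ k i d) (F : (ι → Bool) → ℝ) :
    |T k F| ≤ T k fun a => |F a| := by
  refine (abs_sum_le_sum_abs _ _).trans (le_of_eq (sum_congr rfl fun a _ => ?_))
  rw [abs_mul, abs_of_nonneg (prod_nonneg fun i _ => hk i _)]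

theorem Eb_eq (p : ι → ℝ) (F : (ι → Bool) → ℝ) : Eb p F = T (fun i => wt1 (p i)) F := rfl

theorem coef_eq (p : ι → ℝ) (F : (ι → Bool) → ℝ) (S : Finset ι) : coef p F S = T (ck p S) F :=
  sum_congr rfl fun _ _ => mul_comm _ _

theorem prod_at (j : ι) (u : ℝ) (w : ι → ℝ) :
    ∏ i, (if i = j then u else w i) = u * ∏ i ∈ univ.erase j, w i := by
  rw [← mul_prod_erase univ _ (mem_univ j), if_pos rfl]
  congr 1
  exact prod_congr rfl fun i hi => if_neg (ne_of_mem_erase hi)

theorem Dd_eq (j : ι) (F : (ι → Bool) → ℝ) (b : ι → Bool) :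
    Dd j F b = T (fun i d => if i = j then sg d else dl d (b i)) F := by
  unfold Dd
  rw [← T_dl _ F, ← T_dl (Function.update b j false) F]
  unfold T
  rw [← sum_sub_distrib]
  refine sum_congr rfl fun a _ => ?_
  have h : ∀ t, ∏ i, dl (a i) (Function.update b j t i) =
      ∏ i, if i = j then dl (a j) t else dl (a i) (b i) := fun t => prod_congr rfl fun i _ => by
    by_cases h : i = j
    · subst h; simp
    · simp [h]
  have h' : ∏ i, (if i = j then sg (a i) else dl (a i) (b i)) =
      ∏ i, if i = j then sg (a j) else dl (a i) (b i) := prod_congr rfl fun i _ => by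
    by_cases h : i = j
    · subst h; simp
    · simp [h]
  rw [h, h, h', prod_at, prod_at, prod_at, ← sub_mul, ← sub_mul]
  congr 2
  cases a j <;> simp [dl, sg]

theorem T_Dd (p : ι → ℝ) {R : Finset ι} {j : ι} (hj : j ∉ R) (F : (ι → Bool) → ℝ) :
    T (ck p R) (Dd j F) = T (ck p (insert j R)) F := by
  have := T_comp (ck p R) (fun i c d => if i = j then sg d else dl d c) F
  rw [show Dd j F = _ from funext (Dd_eq j F), this]
  congr 1
  funext i d
  by_cases h : i = j
  · subst h
    simp only [ck, hj, wt1, mem_insert_self, if_true, if_false, Bool.false_eq_true]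
    ring
  · cases d <;> simp [ck, h, dl]

omit [Fintype ι] in
theorem ck_empty (p : ι → ℝ) : ck p ∅ = fun i => wt1 (p i) := by
  funext i d
  simp [ck]

theorem prod_add' (f g : ι → ℝ) :
    ∏ i, (f i + g i) = ∑ S : Finset ι, ∏ i, if i ∈ S then f i else g i := by
  rw [Fintype.prod_add]
  refine sum_congr rfl fun S _ => ?_
  rw [prod_ite]
  congr 1 <;> refine prod_congr ?_ fun _ _ => rfl <;> ext <;> simp

theorem T_expand (p α β : ι → ℝ) (F : (ι → Bool) → ℝ) :
    T (fun i d => β i * sg d + α i * wt1 (p i) d) F =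
      ∑ S : Finset ι, (∏ i, if i ∈ S then β i else α i) * coef p F S := by
  unfold T coef
  simp only [prod_add', sum_mul, mul_sum]
  rw [sum_comm]
  refine sum_congr rfl fun S _ => sum_congr rfl fun a _ => ?_
  rw [mul_left_comm, mul_comm _ (F a), ← prod_mul_distrib]
  congr 1
  refine prod_congr rfl fun i _ => ?_
  by_cases h : i ∈ S <;> simp [sg, h]

theorem orth (p α : ι → ℝ) (β : ι → Bool → ℝ) (c : Finset ι → ℝ)
    (h : ∀ i, α i * (p i * β i true + (1 - p i) * β i false) = 0) :
    Eb p (fun b => (∑ S : Finset ι, (∏ i, if i ∈ S then β i (b i) else α i) * c S) ^ 2) =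
      ∑ S : Finset ι, (∏ i, if i ∈ S then p i * β i true ^ 2 + (1 - p i) * β i false ^ 2
        else α i ^ 2) * c S ^ 2 := by
  unfold Eb wt
  simp only [sq, sum_mul_sum]
  simp only [mul_sum]
  rw [sum_comm]
  refine sum_congr rfl fun S _ => ?_
  rw [sum_comm]
  have key : ∀ S' : Finset ι, ∑ b : ι → Bool, (∏ i, wt1 (p i) (b i)) *
      ((∏ i, if i ∈ S then β i (b i) else α i) * c S *
        ((∏ i, if i ∈ S' then β i (b i) else α i) * c S')) =
      (∏ i, (p i * ((if i ∈ S then β i true else α i) * if i ∈ S' then β i true else α i) +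
        (1 - p i) * ((if i ∈ S then β i false else α i) * if i ∈ S' then β i false else α i))) *
        (c S * c S') := fun S' => by
    have := sum_prod fun i t => wt1 (p i) t *
      ((if i ∈ S then β i t else α i) * if i ∈ S' then β i t else α i)
    simp only [wt1, if_true, if_false, Bool.false_eq_true] at this ⊢
    rw [← this, sum_mul]
    refine sum_congr rfl fun b _ => ?_
    rw [prod_mul_distrib, prod_mul_distrib]
    ring
  simp only [key]
  rw [sum_eq_single S]
  · congr 1
    refine prod_congr rfl fun i _ => ?_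
    by_cases h : i ∈ S
    · simp only [h, if_true]
    · simp only [h, if_false]
      ring
  · intro S' _ hS
    obtain ⟨i, hi⟩ : ∃ i, ¬ (i ∈ S' ↔ i ∈ S) := not_forall.1 fun e => hS (Finset.ext e)
    rw [prod_eq_zero (mem_univ i), zero_mul]
    by_cases h1 : i ∈ S <;> by_cases h2 : i ∈ S' <;> simp only [h1, h2, if_true, if_false]
    · exact absurd (iff_of_true h2 h1) hi
    · linear_combination h i
    · linear_combination h i
    · exact absurd (iff_of_false h2 h1) hi
  · simp

theorem main (p p' : ι → ℝ) (ρ : ℝ) {J R : Finset ι} (hR : R ⊆ J) (hp : ∀ i, i ∉ J → p' i = p i)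
    (F : (ι → Bool) → ℝ) :
    (∏ i ∈ R, p' i * (1 - p' i)) * Eb p (fun b => T (nk p ρ J b (ck p' R)) F ^ 2) =
      ∑ S : Finset ι, if S ∩ J = R then
        (∏ i ∈ S, p' i * (1 - p' i)) * coef p' F S ^ 2 * ρ ^ (2 * (S.card - R.card)) else 0 := by
  have h1 : ∀ b, nk p ρ J b (ck p' R) = fun i d =>
      (if i ∈ J then (if i ∈ R then 1 else 0) else ρ * (bit (b i) - p i)) * sg d +
        (if i ∈ R then 0 else 1) * wt1 (p' i) d := fun b => by
    funext i d
    by_cases hJ : i ∈ J
    · by_cases h : i ∈ R <;> simp [nk, ck, hJ, h]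
    · have h : i ∉ R := fun e => hJ (hR e)
      simp only [nk, hJ, h, if_false, hp i hJ]
      cases d <;> cases b i <;> simp [dl, wt1, sg, bit] <;> ring
  simp only [h1, T_expand]
  rw [orth p (fun i => if i ∈ R then 0 else 1)
    (fun i t => if i ∈ J then (if i ∈ R then 1 else 0) else ρ * (bit t - p i)), mul_sum]
  · refine sum_congr rfl fun S _ => ?_
    split_ifs with hS
    · have hRS : R ⊆ S := hS ▸ inter_subset_left
      rw [← card_sdiff_of_subset hRS, pow_mul, ← prod_const, mul_right_comm, ← mul_assoc,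
        ← prod_ite_mem_eq, ← prod_ite_mem_eq S, ← prod_ite_mem_eq (S \ R), ← prod_mul_distrib,
        ← prod_mul_distrib]
      congr 1
      refine prod_congr rfl fun i _ => ?_
      have h2 : i ∈ R ↔ i ∈ S ∧ i ∈ J := by rw [← hS, mem_inter]
      by_cases h3 : i ∈ S <;> by_cases h4 : i ∈ J
      · simp only [h2, h3, h4, mem_sdiff, and_self, if_true, not_true, and_false, if_false]
        ring
      · simp only [h2, h3, h4, mem_sdiff, and_false, if_true, not_false_eq_true, and_self,
          if_false, bit, hp i h4, Bool.false_eq_true]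
        ring
      · simp [h2, h3]
      · simp [h2, h3]
    · obtain ⟨i, hi⟩ : ∃ i, ¬ (i ∈ S ∩ J ↔ i ∈ R) := not_forall.1 fun e => hS (Finset.ext e)
      rw [prod_eq_zero (mem_univ i), zero_mul, mul_zero]
      by_cases h3 : i ∈ R
      · have h4 : i ∉ S := fun e => hi (by simp [e, h3, hR h3])
        simp [h3, h4]
      · have h4 : i ∈ S ∧ i ∈ J := by simpa [h3] using hi
        simp [h3, h4.1, h4.2]
  · intro i
    by_cases h3 : i ∈ R
    · simp [h3]
    · by_cases h4 : i ∈ J
      · simp [h3, h4]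
      · simp only [h3, h4, if_false, bit, if_true, Bool.false_eq_true]
        ring

omit [Fintype ι] in
theorem cnt1 {U J : Finset ι} (h : U ⊆ J) (x : ℝ) :
    ∑ j ∈ J, (if U = {j} then x else 0) = if U.card = 1 then x else 0 := by
  split_ifs with hU
  · obtain ⟨a, rfl⟩ := card_eq_one.1 hU
    rw [sum_eq_single_of_mem a (h (mem_singleton_self a)), if_pos rfl]
    exact fun b _ hb => if_neg fun e => hb (singleton_injective e).symm
  · exact sum_eq_zero fun j _ => if_neg fun e => hU (by rw [e, card_singleton])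

omit [Fintype ι] in
theorem cnt2 {U J : Finset ι} (h : U ⊆ J) (x : ℝ) :
    ∑ j ∈ J, ∑ j' ∈ J.erase j, (if U = {j, j'} then x else 0) =
      if U.card = 2 then 2 * x else 0 := by
  have aux : ∀ a b : ι, a ≠ b → b ∈ J →
      ∑ j' ∈ J.erase a, (if ({a, b} : Finset ι) = {a, j'} then x else 0) = x := fun a b h1 h2 => by
    rw [sum_eq_single_of_mem b (mem_erase.2 ⟨h1.symm, h2⟩), if_pos rfl]
    refine fun c _ hc => if_neg fun e => ?_
    have : b ∈ ({a, c} : Finset ι) := e ▸ by simp
    simp [h1.symm, hc.symm] at this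
  split_ifs with hU
  · obtain ⟨a, b, hab, rfl⟩ := card_eq_two.1 hU
    have ha : a ∈ J := h (by simp)
    have hb : b ∈ J := h (by simp)
    rw [sum_eq_add_of_mem a b ha hb hab, aux a b hab hb, pair_comm a b, aux b a hab.symm ha,
      two_mul]
    refine fun c _ hc => sum_eq_zero fun j _ => if_neg fun e => ?_
    have : c ∈ ({a, b} : Finset ι) := e ▸ by simp
    simp [hc.1, hc.2] at this
  · refine sum_eq_zero fun j _ => sum_eq_zero fun j' hj => if_neg fun e => hU ?_
    rw [e, card_pair (ne_of_mem_erase hj).symm]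

theorem Eb_sum {α : Type} (p : ι → ℝ) (J : Finset α) (u : α → ℝ) (G : α → (ι → Bool) → ℝ) :
    Eb p (fun b => ∑ j ∈ J, u j * G j b) = ∑ j ∈ J, u j * Eb p (G j) := by
  unfold Eb
  simp only [mul_sum]
  rw [sum_comm]
  exact sum_congr rfl fun _ _ => sum_congr rfl fun _ _ => mul_left_comm _ _ _

theorem wt1_sum (p : ℝ) : wt1 p true + wt1 p false = 1 := by simp [wt1]

theorem dl_nonneg (a b : Bool) : 0 ≤ dl a b := by
  unfold dl
  split_ifs <;> norm_num

theorem wt1_nonneg {p : ℝ} (h0 : 0 ≤ p) (h1 : p ≤ 1) (a : Bool) : 0 ≤ wt1 p a := by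
  unfold wt1
  split_ifs <;> linarith

omit [Fintype ι] in
theorem nk_nonneg {p : ι → ℝ} (hp : ∀ i, 0 ≤ p i ∧ p i ≤ 1) {ρ : ℝ} (h0 : 0 ≤ ρ) (h1 : ρ ≤ 1)
    (J : Finset ι) (b e : ι → Bool) (i : ι) (d : Bool) :
    0 ≤ nk p ρ J b (fun i d => dl d (e i)) i d := by
  unfold nk
  split_ifs
  · exact dl_nonneg _ _
  · exact add_nonneg (mul_nonneg h0 (dl_nonneg _ _))
      (mul_nonneg (sub_nonneg.2 h1) (wt1_nonneg (hp i).1 (hp i).2 d))

omit [Fintype ι] in
theorem nk_sum (p : ι → ℝ) (ρ : ℝ) (J : Finset ι) (b e : ι → Bool) (i : ι) :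
    nk p ρ J b (fun i d => dl d (e i)) i true + nk p ρ J b (fun i d => dl d (e i)) i false = 1 := by
  unfold nk
  split_ifs
  · show dl true (e i) + dl false (e i) = 1
    cases e i <;> simp [dl]
  · cases b i <;> simp [dl, wt1] <;> ring

theorem noised_eq (ω ρ : ℝ) (J : Finset ι) (f : (ι → ℤ) → ℝ) (y : ι → ℝ) (b : ι → Bool)
    (x : ι → ℤ) : noised ω ρ J f y b x = T (nk (py ω y) ρ J b fun _ d => dl d false)
      fun a => f fun i => if i ∈ J then x i else pt y a i := by
  refine sum_congr rfl fun a _ => ?_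
  congr 1
  refine prod_congr rfl fun i _ => ?_
  unfold nk
  cases a i <;> simp [dl, py]

theorem T_pw (p : ι → ℝ) (ρ : ℝ) (J : Finset ι) (b c : ι → Bool) (F : (ι → Bool) → ℝ) :
    T (nk p ρ J b fun _ d => dl d false) (fun a => F fun i => if i ∈ J then c i else a i) =
      T (nk p ρ J b fun i d => dl d (c i)) F := by
  rw [T_map _ fun i a => if i ∈ J then c i else a]
  congr 1
  funext i d
  by_cases h : i ∈ J
  · simp [nk, h, dl]
  · cases d <;> simp [nk, h, dl]

theorem noised_pt (ω ρ : ℝ) {J : Finset ι} (f : (ι → ℤ) → ℝ) {y y' : ι → ℝ}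
    (hy : ∀ i, i ∉ J → y' i = y i) (b c : ι → Bool) :
    noised ω ρ J f y b (pt y' c) = T (nk (py ω y) ρ J b fun _ d => dl d false)
      fun a => (fun e => f (pt y' e)) fun i => if i ∈ J then c i else a i := by
  rw [noised_eq]
  congr 1
  funext a
  congr 1
  funext i
  by_cases h : i ∈ J
  · simp [pt, h]
  · simp [pt, h, hy i h]

theorem T_ck_nk (p p' : ι → ℝ) (ρ : ℝ) {J R : Finset ι} (hR : R ⊆ J) (b : ι → Bool)
    (F : (ι → Bool) → ℝ) :
    T (ck p' R) (fun c => T (nk p ρ J b fun i d => dl d (c i)) F) =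
      T (nk p ρ J b (ck p' R)) F := by
  have := T_comp (ck p' R) (fun i t => nk p ρ J b (fun _ d => dl d t) i) F
  refine this.trans ?_
  congr 1
  funext i d
  by_cases h : i ∈ J
  · cases d <;> simp [nk, h, dl]
  · have h' : i ∉ R := fun e => h (hR e)
    simp only [nk, ck, h, h', if_false, ← add_mul, wt1_sum, one_mul]

/-- stationarity of the noise -/
theorem T_stat (p p' : ι → ℝ) (ρ : ℝ) {J : Finset ι} (hp : ∀ i, i ∉ J → p' i = p i)
    (F : (ι → Bool) → ℝ) : Eb p (fun b => T (nk p ρ J b (ck p' ∅)) F) = Eb p' F := by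
  have := T_comp (fun i => wt1 (p i)) (fun i t => nk p ρ J (fun _ => t) (ck p' ∅) i) F
  refine this.trans ?_
  rw [Eb_eq]
  congr 1
  funext i d
  by_cases h : i ∈ J
  · simp only [nk, h, if_true, ← add_mul, wt1_sum, one_mul, ck_empty]
  · simp only [nk, h, if_false, hp i h]
    cases d <;> simp [dl, wt1] <;> ring

theorem parseval (p : ι → ℝ) (F : (ι → Bool) → ℝ) :
    Eb p (fun b => F b ^ 2) = ∑ S : Finset ι, (∏ i ∈ S, p i * (1 - p i)) * coef p F S ^ 2 := by
  have := main p p 1 (Subset.refl ∅) (fun _ _ => rfl) F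
  simp only [prod_empty, one_mul, inter_empty, if_true, one_pow, mul_one] at this
  rw [← this]
  congr 1
  funext b
  rw [← T_dl b F]
  congr 2
  funext i d
  simp [nk]

theorem Dd_sq (p : ι → ℝ) (F : (ι → Bool) → ℝ) (j : ι) :
    p j * (1 - p j) * Eb p (fun b => Dd j F b ^ 2) =
      ∑ S : Finset ι, if j ∈ S then (∏ i ∈ S, p i * (1 - p i)) * coef p F S ^ 2 else 0 := by
  have := main p p 1 (Subset.refl {j}) (fun _ _ => rfl) F
  simp only [prod_singleton, one_pow, mul_one, inter_eq_right, singleton_subset_iff] at this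
  rw [← this]
  congr 2
  funext b
  rw [Dd_eq]
  congr 2
  funext i d
  by_cases h : i = j <;> simp [nk, ck, h]

theorem noised_W (ω ρ : ℝ) (J : Finset ι) (f : (ι → ℤ) → ℝ) (y y' : ι → ℝ)
    (hy : ∀ i, i ∉ J → y' i = y i) :
    Eb (py ω y) (fun b => W1 ω J (noised ω ρ J f y b) y') = Q1 ω ρ J f y' ∧
      Eb (py ω y) (fun b => W2 ω J (noised ω ρ J f y b) y') = Q2 ω ρ J f y' := by
  have hp : ∀ i, i ∉ J → py ω y' i = py ω y i := fun i h => by simp [py, hy i h]
  constructor
  · unfold W1 Q1
    rw [Eb_sum]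
    simp only [← cnt1 (inter_subset_right (s₂ := J))]
    rw [sum_comm]
    refine sum_congr rfl fun j hj => ?_
    have hR : {j} ⊆ J := singleton_subset_iff.2 hj
    have := main _ _ ρ hR hp fun e => f (pt y' e)
    rw [prod_singleton, card_singleton] at this
    refine Eq.trans ?_ this
    congr 2
    funext b
    unfold c1
    rw [Eb_eq, ← ck_empty, T_Dd _ (notMem_empty j), ← T_ck_nk _ _ _ hR]
    simp only [noised_pt ω ρ f hy, T_pw _ _ _ _ _ fun e => f (pt y' e)]
    rfl
  · unfold W2 Q2
    simp only [mul_assoc (2 : ℝ), ← cnt2 (inter_subset_right (s₂ := J))]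
    rw [sum_comm]
    have e := Eb_sum (py ω y) J (fun _ => 1) fun j b => ∑ j' ∈ J.erase j,
      pq ω (y' j) * pq ω (y' j') * c2 ω (noised ω ρ J f y b) j j' y' ^ 2
    simp only [one_mul] at e
    rw [e]
    refine sum_congr rfl fun j hj => ?_
    rw [Eb_sum, sum_comm]
    refine sum_congr rfl fun j' hj' => ?_
    have hne := (ne_of_mem_erase hj').symm
    have hR : {j, j'} ⊆ J := insert_subset hj (singleton_subset_iff.2 (mem_of_mem_erase hj'))
    have := main _ _ ρ hR hp fun e => f (pt y' e)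
    rw [prod_pair hne, card_pair hne] at this
    refine Eq.trans ?_ this
    congr 2
    funext b
    unfold c2
    rw [Eb_eq, ← ck_empty, T_Dd _ (notMem_empty j'), T_Dd _ (by simpa using hne),
      ← T_ck_nk _ _ _ hR]
    simp only [noised_pt ω ρ f hy, T_pw _ _ _ _ _ fun e => f (pt y' e)]
    rfl

theorem noised_inf (ω : ℝ) {ρ : ℝ} (h0 : 0 ≤ ρ) (h1 : ρ ≤ 1) {J : Finset ι} (f : (ι → ℤ) → ℝ)
    {y y' : ι → ℝ} (hy : ∀ i, i ∉ J → y' i = y i) (hp : ∀ t, 0 ≤ pr ω t ∧ pr ω t ≤ 1) {j : ι}
    (hj : j ∈ J) :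
    Eb (py ω y) (fun b => inf1 ω (noised ω ρ J f y b) j y') ≤ inf1 ω f j y' := by
  have hw : ∀ (z : ι → ℝ) i d, 0 ≤ wt1 (py ω z i) d := fun z i => wt1_nonneg (hp _).1 (hp _).2
  unfold inf1
  rw [← T_stat (py ω y) (py ω y') ρ (J := J) fun i h => by simp [py, hy i h]]
  refine T_mono (hw y) fun b => ?_
  rw [← T_ck_nk _ _ _ (empty_subset J), ck_empty]
  refine T_mono (hw y') fun c => ?_
  rw [← T_pw]
  refine le_trans (le_of_eq ?_) (T_abs (nk_nonneg (fun i => hp _) h0 h1 J b fun _ => false) _)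
  congr 1
  unfold Dd
  simp only [noised_pt ω ρ f hy]
  unfold T
  rw [← sum_sub_distrib]
  refine sum_congr rfl fun a _ => ?_
  have h : ∀ t, (fun i => if i ∈ J then Function.update c j t i else a i) =
      Function.update (fun i => if i ∈ J then c i else a i) j t := fun t => by
    funext i
    by_cases h : i = j
    · subst h; simp [hj]
    · simp [h]
  beta_reduce
  rw [h, h, mul_sub]
  rfl

end FourierP

open FourierP

theorem fourier_proof (hR : RampStmt) (_hB : BitStmt) : FourierStmt := by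
  intro ι _ _ ω f h0 h1 hf
  have R := hR.2 ω h0 h1
  have hp : ∀ t, 0 ≤ pr ω t ∧ pr ω t ≤ 1 := fun t => ⟨R.pr_nonneg t, R.pr_le t⟩
  have hw : ∀ (z : ι → ℝ) i d, 0 ≤ wt1 (py ω z i) d := fun z i => wt1_nonneg (hp _).1 (hp _).2
  have par : ∀ y, Ey ω (fun x => f x ^ 2) y = ∑ S : Finset ι, fw ω f S y := fun y =>
    parseval (py ω y) fun b => f (pt y b)
  refine ⟨fun S => ⟨?_, fun y => ?_⟩, fun y => ?_, fun y => ?_, fun y => ?_, fun y => ?_,
    fun r hr S y => ?_, fun ρ J y r0 r1 => ⟨fun b x => ?_, fun r b hr hf x => ?_, fun y' hy =>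
      ⟨(noised_W ω ρ J f y y' hy).1, (noised_W ω ρ J f y y' hy).2, ?_⟩⟩⟩
  · unfold fw coef
    refine (Finset.measurable_prod _ fun i _ => R.pq_meas.comp (measurable_pi_apply i)).mul
      ((Finset.measurable_sum _ fun a _ => Measurable.mul ?_
        (Finset.measurable_prod _ fun i _ => ?_)).pow_const 2)
    · exact (measurable_of_countable f).comp (measurable_pi_lambda _ fun i =>
        (measurable_of_countable fun n : ℤ => -n - if a i then 1 else 0).comp
          (Int.measurable_floor.comp (measurable_pi_apply i)))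
    · have hm : Measurable fun y : ι → ℝ => pr ω (y i) := R.pr_meas.comp (measurable_pi_apply i)
      unfold wt1 py
      split_ifs
      exacts [measurable_const, measurable_const, hm, measurable_const.sub hm]
  · exact mul_nonneg (prod_nonneg fun i _ => R.pq_nonneg _) (sq_nonneg _)
  · rw [← par, ← T_const (fun i => wt1 (py ω y i)) (fun i => wt1_sum _) 1]
    exact T_mono (hw y) fun a => pow_le_one₀ (hf _).1 (hf _).2
  · have e : Ey ω f y ^ 2 = fw ω f ∅ y := by
      unfold fw
      rw [prod_empty, one_mul, coef_eq, ck_empty]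
      rfl
    rw [par, e, ← add_sum_erase _ _ (mem_univ ∅), ← add_sum_erase _ _ (mem_univ ∅), if_pos rfl,
      add_sub_cancel_left, zero_add]
    exact sum_congr rfl fun S hS => (if_neg (ne_of_mem_erase hS)).symm
  · have e : ∀ S : Finset ι, (S.card : ℝ) * fw ω f S y = ∑ j, if j ∈ S then fw ω f S y else 0 :=
      fun S => by rw [sum_ite_mem_eq, sum_const, nsmul_eq_mul]
    simp only [e]
    rw [sum_comm]
    refine sum_le_sum fun j _ => ?_
    refine (Dd_sq (py ω y) (fun b => f (pt y b)) j).symm.trans_le ?_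
    refine mul_le_mul (R.pq_le_dpr _) (T_mono (hw y) fun b => ?_) ?_ (R.dpr_nonneg _)
    · rw [← sq_abs]
      refine pow_le_of_le_one (abs_nonneg _) (abs_le.2 ?_) two_ne_zero
      unfold Dd
      constructor <;> linarith [hf (pt y (Function.update b j true)),
        hf (pt y (Function.update b j false))]
    · rw [← T_const (fun i => wt1 (py ω y i)) (fun i => wt1_sum _) 0]
      exact T_mono (hw y) fun b => sq_nonneg _
  · have e := (noised_W ω 1 univ f y y fun _ _ => rfl).1
    have e' : ∀ b, noised ω 1 univ f y b = f := fun b => funext fun x => by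
      rw [noised_eq]
      simp only [mem_univ, if_true]
      exact T_const _ (nk_sum _ _ _ _ fun _ => false) _
    simp only [e', Q1, inter_univ, one_pow, mul_one] at e
    rw [← e]
    exact (T_const _ (fun i => wt1_sum _) _).symm
  · have e1 : py ω (y + fun i => (r i : ℝ)) = py ω y := funext fun i => R.pr_per _ _
    have e2 : (fun b => f (pt (y + fun i => (r i : ℝ)) b)) = fun b => f (pt y b) := by
      funext b
      rw [← hr]
      congr 1
      funext i
      simp only [pt, Pi.add_apply, Int.floor_add_intCast]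
      ring
    unfold fw
    rw [e1, e2]
    congr 1
    exact prod_congr rfl fun i _ => R.pq_per _ _
  · have hk := nk_nonneg (p := py ω y) (fun i => hp _) r0 r1 J b fun _ => false
    have hs := nk_sum (py ω y) ρ J b fun _ => false
    rw [noised_eq]
    exact ⟨(T_const _ hs 0).symm.trans_le (T_mono hk fun a => (hf _).1),
      (T_mono hk fun a => (hf _).2).trans_eq (T_const _ hs 1)⟩
  · rw [noised_eq, noised_eq]
    congr 1
    funext a
    rw [← hf fun i => if i ∈ J then x i else pt y a i]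
    congr 1
    funext i
    by_cases h : i ∈ J
    · simp [h]
    · simp [h, hr i h]
  · unfold Inf
    rw [Eb_sum]
    exact sum_le_sum fun j hj =>
      mul_le_mul_of_nonneg_left (noised_inf ω r0 r1 f hy hp hj) (R.dpr_nonneg _)

end

end Vale.Agent.P318.M
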