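import Vale.Agent.P318.M.Stmt

/-!
The block lemma for the noised function, averaged over the whole torus.
-/

namespace Vale.Agent.P318.M

open Finset MeasureTheory ProbabilityTheory

namespace Noised

section Basic

variable {κ : Type} [Fintype κ]

theorem bm_int {α : Type} [MeasurableSpace α] {F : α → ℝ} (hF : BM F) (μ : Measure α)
    [IsFiniteMeasure μ] : Integrable F μ := by
  obtain ⟨hm, C, hC⟩ := hF
  exact Integrable.of_bound hm.aestronglyMeasurable C
    (Filter.Eventually.of_forall fun x => by simpa [Real.norm_eq_abs] using hC x)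

theorem bm_comp {α β : Type} [MeasurableSpace α] [MeasurableSpace β] {F : β → ℝ} (hF : BM F)
    {g : α → β} (hg : Measurable g) : BM fun x => F (g x) := by
  obtain ⟨hm, C, hC⟩ := hF
  exact ⟨hm.comp hg, C, fun x => hC _⟩

theorem bm_const {α : Type} [MeasurableSpace α] (c : ℝ) : BM fun _ : α => c :=
  ⟨measurable_const, |c|, fun _ => le_rfl⟩

theorem bm_add {α : Type} [MeasurableSpace α] {F G : α → ℝ} (hF : BM F) (hG : BM G) :
    BM fun x => F x + G x := by
  obtain ⟨hm, C, hC⟩ := hF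
  obtain ⟨hm', C', hC'⟩ := hG
  exact ⟨hm.add hm', C + C', fun x => (abs_add_le _ _).trans (add_le_add (hC x) (hC' x))⟩

theorem bm_mul {α : Type} [MeasurableSpace α] {F G : α → ℝ} (hF : BM F) (hG : BM G) :
    BM fun x => F x * G x := by
  obtain ⟨hm, C, hC⟩ := hF
  obtain ⟨hm', C', hC'⟩ := hG
  refine ⟨hm.mul hm', C * C', fun x => ?_⟩
  rw [abs_mul]
  exact mul_le_mul (hC x) (hC' x) (abs_nonneg _) ((abs_nonneg _).trans (hC x))

theorem bm_sum {α ι : Type} [MeasurableSpace α] (s : Finset ι) {F : ι → α → ℝ}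
    (hF : ∀ i ∈ s, BM (F i)) : BM fun x => ∑ i ∈ s, F i x := by
  classical
  induction s using Finset.induction_on with
  | empty => simpa using bm_const (α := α) 0
  | insert a s ha ih =>
    simp only [Finset.sum_insert ha]
    exact bm_add (hF a (Finset.mem_insert_self _ _))
      (ih fun i hi => hF i (Finset.mem_insert_of_mem hi))

theorem tm_const (c : ℝ) : tm (fun _ : κ → ℝ => c) = c := by
  simp [tm]

theorem tm_add {F G : (κ → ℝ) → ℝ} (hF : BM F) (hG : BM G) :
    tm (fun β => F β + G β) = tm F + tm G :=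
  integral_add (bm_int hF _) (bm_int hG _)

theorem tm_sub {F G : (κ → ℝ) → ℝ} (hF : BM F) (hG : BM G) :
    tm (fun β => F β - G β) = tm F - tm G :=
  integral_sub (bm_int hF _) (bm_int hG _)

theorem tm_mul (c : ℝ) (F : (κ → ℝ) → ℝ) : tm (fun β => c * F β) = c * tm F :=
  integral_const_mul c F

theorem tm_sum {ι : Type} (s : Finset ι) {F : ι → (κ → ℝ) → ℝ} (hF : ∀ i ∈ s, BM (F i)) :
    tm (fun β => ∑ i ∈ s, F i β) = ∑ i ∈ s, tm (F i) :=
  integral_finsetSum s fun i hi => bm_int (hF i hi) _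

theorem tm_mono {F G : (κ → ℝ) → ℝ} (hF : BM F) (hG : BM G) (h : ∀ β, F β ≤ G β) :
    tm F ≤ tm G :=
  integral_mono (bm_int hF _) (bm_int hG _) h

theorem tm_nonneg {F : (κ → ℝ) → ℝ} (h : ∀ β, 0 ≤ F β) : 0 ≤ tm F :=
  integral_nonneg h

variable {ι : Type} [Fintype ι] [DecidableEq ι]

omit [Fintype ι] [DecidableEq ι] in
theorem lin_add (s : ι → κ → ℤ) (β η : κ → ℝ) : lin s (β + η) = lin s β + lin s η := by
  funext j
  simp [lin, ip, mul_add, Finset.sum_add_distrib]

omit [Fintype ι] [DecidableEq ι] in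
theorem meas_lin (s : ι → κ → ℤ) (c : ι → ℝ) : Measurable fun β : κ → ℝ => c + lin s β := by
  refine measurable_pi_lambda _ fun j => ?_
  simp only [Pi.add_apply, lin, ip]
  fun_prop

omit [Fintype ι] [DecidableEq ι] in
/-- Functions invariant under the integer vectors which fix `f` give periodic functions. -/
theorem per_of_inv {Γ : AddSubgroup (κ → ℝ)} {S : ι → κ → ℤ} {f : (ι → ℤ) → ℝ}
    (hZ : ∀ n : κ → ℤ, (fun k => (n k : ℝ)) ∈ Γ) (hf : Inv Γ S f) (c : ι → ℝ)
    {Φ : (ι → ℝ) → ℝ}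
    (hΦ : ∀ r : ι → ℤ, (∀ x, f (x + r) = f x) → ∀ y, Φ (y + fun i => (r i : ℝ)) = Φ y) :
    Per fun β => Φ (c + lin S β) := by
  intro β n
  have h1 : ∀ j, (((∑ k, S j k * n k : ℤ)) : ℝ) = lin S (fun k => (n k : ℝ)) j := by
    intro j
    simp [lin, ip]
  have h2 := hΦ (fun j => ∑ k, S j k * n k) (hf _ (hZ n) _ h1) (c + lin S β)
  beta_reduce
  rw [← h2]
  congr 1
  rw [lin_add]
  funext j
  simp only [Pi.add_apply, h1 j]
  ring

/-- Averaging over a subtorus does not change the mean. -/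
theorem tm_tm {K : Type} [Fintype K] (hT : TorusStmt) {Φ : (κ → ℝ) → ℝ} (hP : Per Φ) (hB : BM Φ)
    {emb : (K → ℝ) → (κ → ℝ)} (he : Measurable emb) :
    BM (fun β => tm fun η => Φ (β + emb η)) ∧ tm (fun β => tm fun η => Φ (β + emb η)) = tm Φ := by
  have hm : Measurable fun p : (κ → ℝ) × (K → ℝ) => p.1 + emb p.2 :=
    measurable_fst.add (he.comp measurable_snd)
  have hb : BM fun p : (κ → ℝ) × (K → ℝ) => Φ (p.1 + emb p.2) := bm_comp hB hm
  have hi : Integrable (Function.uncurry fun (β : κ → ℝ) (η : K → ℝ) => Φ (β + emb η))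
      ((cube κ).prod (cube K)) := bm_int hb _
  constructor
  · obtain ⟨hm', C, hC⟩ := hb
    refine ⟨?_, C, fun β => ?_⟩
    · exact (hm'.stronglyMeasurable.integral_prod_right' (ν := cube K)).measurable
    · have := norm_integral_le_of_norm_le_const (μ := cube K)
        (f := fun η => Φ (β + emb η)) (C := C)
        (Filter.Eventually.of_forall fun η => by simpa [Real.norm_eq_abs] using hC (β, η))
      simpa [tm, Real.norm_eq_abs] using this
  · unfold tm
    rw [integral_integral_swap hi]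
    have : ∀ η : K → ℝ, ∫ β, Φ (β + emb η) ∂cube κ = tm Φ := fun η =>
      (hT κ).1 Φ hP hB (emb η)
    simp only [this]
    simp [tm]

end Basic

section Q

variable {ι : Type} [Fintype ι] [DecidableEq ι]

theorem bm_fw (hF : FourierStmt) {ω : ℝ} {f : (ι → ℤ) → ℝ} (h0 : 0 < ω) (h1 : ω ≤ 1 / 8)
    (hf : U01 f) (S : Finset ι) : BM (fw ω f S) := by
  obtain ⟨a, b, -⟩ := hF ι ω f h0 h1 hf
  refine ⟨(a S).1, 1, fun y => ?_⟩
  rw [abs_of_nonneg ((a S).2 y)]
  exact (Finset.single_le_sum (f := fun S => fw ω f S y) (fun T _ => (a T).2 y)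
    (Finset.mem_univ S)).trans (b y)

theorem bm_fsum (hF : FourierStmt) {ω : ℝ} {f : (ι → ℤ) → ℝ} (h0 : 0 < ω) (h1 : ω ≤ 1 / 8)
    (hf : U01 f) (a : Finset ι → ℝ) : BM fun y => ∑ S : Finset ι, a S * fw ω f S y :=
  bm_sum _ fun S _ => bm_mul (bm_const _) (bm_fw hF h0 h1 hf S)

theorem Q1_eq (ω ρ : ℝ) (J : Finset ι) (f : (ι → ℤ) → ℝ) :
    Q1 ω ρ J f = fun y => ∑ S : Finset ι,
      (if (S ∩ J).card = 1 then ρ ^ (2 * (S.card - 1)) else 0) * fw ω f S y := by
  funext y
  refine Finset.sum_congr rfl fun S _ => ?_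
  split_ifs <;> ring

theorem Q2_eq (ω ρ : ℝ) (J : Finset ι) (f : (ι → ℤ) → ℝ) :
    Q2 ω ρ J f = fun y => ∑ S : Finset ι,
      (if (S ∩ J).card = 2 then 2 * ρ ^ (2 * (S.card - 2)) else 0) * fw ω f S y := by
  funext y
  refine Finset.sum_congr rfl fun S _ => ?_
  split_ifs <;> ring

end Q

end Noised

open Noised in
theorem noised_proof (hR' : RampStmt) (hT : TorusStmt) (hB : BitStmt) (hD : DerivStmt)
    (hF : FourierStmt) : NoisedStmt := by
  intro ι K κ _ _ _ _ Γ Γt J s S emb c f ω L ε l ρ h0 h1 hL hε hl hρ0 hρ1 hBl hs hemb hlin hZ hf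
    hinv hinvt
  obtain ⟨-, hR⟩ := hR'
  have hRω := hR ω h0 h1
  obtain ⟨-, -, -, -, -, fper, fno⟩ := hF ι ω f h0 h1 hf
  obtain ⟨-, -, -, dbm, dper, -⟩ := hD ι ω f h0 h1 hf
  have bQ1 : BM (Q1 ω ρ J f) := by rw [Q1_eq]; exact bm_fsum hF h0 h1 hf _
  have bQ2 : BM (Q2 ω ρ J f) := by rw [Q2_eq]; exact bm_fsum hF h0 h1 hf _
  have bI : BM (Inf ω J f) := (dbm J).2.2.1
  -- the inequality for one base point
  have key : ∀ y : ι → ℝ, tm (fun η => Q1 ω ρ J f (y + lin s η)) ≤
      L * (tm (fun η => Q2 ω ρ J f (y + lin s η)) +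
        l * ε * tm (fun η => Inf ω J f (y + lin s η)) + J.card * Real.exp (-l)) := by
    intro y
    obtain ⟨nU, nI, nF⟩ := fno ρ J y hρ0 hρ1
    obtain ⟨w0, w1, -⟩ := hB ι (py ω y) fun i => ⟨hRω.pr_nonneg _, hRω.pr_le _⟩
    have hy : ∀ η i, i ∉ J → (y + lin s η) i = y i := by
      intro η i hi
      simp [lin, ip, hs i hi]
    have hI : ∀ b, Inv Γ s (noised ω ρ J f y b) := by
      intro b r hr z hz
      refine nI z b (fun i hi => ?_) (hinv r hr z hz)
      have := hz i
      simp only [lin, ip, hs i hi, Pi.zero_apply, Int.cast_zero, zero_mul,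
        Finset.sum_const_zero] at this
      exact_mod_cast this
    have hb := fun b => hBl y (noised ω ρ J f y b) (nU b) (hI b)
    have bm := fun b => (hD ι ω (noised ω ρ J f y b) h0 h1 (nU b)).2.2.2.1 J
    have e1 : tm (fun η => Q1 ω ρ J f (y + lin s η)) =
        ∑ b, wt (py ω y) b * tm (fun η => W1 ω J (noised ω ρ J f y b) (y + lin s η)) := by
      simp only [← tm_mul]
      rw [← tm_sum _ fun b _ => bm_mul (bm_const _) (bm_comp (bm b).1 (meas_lin s y))]
      congr 1
      funext η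
      exact ((nF _ (hy η)).1).symm
    have e2 : tm (fun η => Q2 ω ρ J f (y + lin s η)) =
        ∑ b, wt (py ω y) b * tm (fun η => W2 ω J (noised ω ρ J f y b) (y + lin s η)) := by
      simp only [← tm_mul]
      rw [← tm_sum _ fun b _ => bm_mul (bm_const _) (bm_comp (bm b).2.1 (meas_lin s y))]
      congr 1
      funext η
      exact ((nF _ (hy η)).2.1).symm
    have e3 : ∑ b, wt (py ω y) b * tm (fun η => Inf ω J (noised ω ρ J f y b) (y + lin s η)) ≤
        tm (fun η => Inf ω J f (y + lin s η)) := by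
      simp only [← tm_mul]
      rw [← tm_sum _ fun b _ => bm_mul (bm_const _) (bm_comp (bm b).2.2.1 (meas_lin s y))]
      refine tm_mono (bm_sum _ fun b _ => bm_mul (bm_const _)
        (bm_comp (bm b).2.2.1 (meas_lin s y))) (bm_comp bI (meas_lin s y)) fun η => ?_
      exact (nF _ (hy η)).2.2
    rw [e1, e2]
    calc ∑ b, wt (py ω y) b * tm (fun η => W1 ω J (noised ω ρ J f y b) (y + lin s η))
        ≤ ∑ b, wt (py ω y) b * (L * (tm (fun η => W2 ω J (noised ω ρ J f y b) (y + lin s η)) +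
          l * ε * tm (fun η => Inf ω J (noised ω ρ J f y b) (y + lin s η)) +
            J.card * Real.exp (-l))) :=
          Finset.sum_le_sum fun b _ => mul_le_mul_of_nonneg_left (hb b) (w0 b)
      _ = L * (∑ b, wt (py ω y) b * tm (fun η => W2 ω J (noised ω ρ J f y b) (y + lin s η)) +
          l * ε * ∑ b, wt (py ω y) b * tm (fun η => Inf ω J (noised ω ρ J f y b) (y + lin s η)) +
            (∑ b, wt (py ω y) b) * (J.card * Real.exp (-l))) := by
          rw [Finset.mul_sum, Finset.sum_mul, ← Finset.sum_add_distrib, ← Finset.sum_add_distrib,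
            Finset.mul_sum]
          exact Finset.sum_congr rfl fun b _ => by ring
      _ ≤ _ := by
          rw [w1, one_mul]
          have := mul_le_mul_of_nonneg_left e3 (mul_nonneg hl hε)
          gcongr
  have pQ1 : Per fun β => Q1 ω ρ J f (c + lin S β) := by
    refine per_of_inv hZ hinvt c (Φ := Q1 ω ρ J f) fun r hr y => ?_
    simp only [Q1, fper r hr]
  have pQ2 : Per fun β => Q2 ω ρ J f (c + lin S β) := by
    refine per_of_inv hZ hinvt c (Φ := Q2 ω ρ J f) fun r hr y => ?_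
    simp only [Q2, fper r hr]
  have pI : Per fun β => Inf ω J f (c + lin S β) :=
    per_of_inv hZ hinvt c (Φ := Inf ω J f) fun r hr y => ((dper r hr y).2.2.2 J).2.2
  obtain ⟨b1, t1⟩ := tm_tm hT pQ1 (bm_comp bQ1 (meas_lin S c)) hemb
  obtain ⟨b2, t2⟩ := tm_tm hT pQ2 (bm_comp bQ2 (meas_lin S c)) hemb
  obtain ⟨b3, t3⟩ := tm_tm hT pI (bm_comp bI (meas_lin S c)) hemb
  have hsh : ∀ β η, c + lin S (β + emb η) = (c + lin S β) + lin s η := by
    intro β η
    rw [lin_add, hlin, add_assoc]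
  simp only [hsh] at b1 b2 b3 t1 t2 t3
  rw [← t1, ← t2, ← t3, ← tm_mul, ← tm_add b2 (bm_mul (bm_const _) b3),
    ← tm_const (κ := κ) (J.card * Real.exp (-l)),
    ← tm_add (bm_add b2 (bm_mul (bm_const _) b3)) (bm_const _), ← tm_mul]
  exact tm_mono b1 (bm_mul (bm_const _) (bm_add (bm_add b2 (bm_mul (bm_const _) b3))
    (bm_const _))) fun β => key _

end Vale.Agent.P318.M
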