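import Vale.Agent.P318.M.Defs

/-!
Random parity checks: first and second moments, counting of short vectors and of correlated
pairs of sign vectors.
-/

namespace Vale.Agent.P318.M.LatCnt

open Finset

theorem ind_pos {P : Prop} (h : P) : ind P = 1 := if_pos h

theorem ind_neg {P : Prop} (h : ¬ P) : ind P = 0 := if_neg h

theorem ind_nonneg (P : Prop) : 0 ≤ ind P := by
  by_cases h : P
  · rw [ind_pos h]; exact zero_le_one
  · rw [ind_neg h]

theorem ind_mul (P Q : Prop) : ind P * ind Q = ind (P ∧ Q) := by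
  by_cases h : P <;> by_cases h' : Q <;> simp [ind, h, h']

theorem card_filter_eq {α : Type} (s : Finset α) (P : α → Prop) [DecidablePred P] :
    ((s.filter P).card : ℝ) = ∑ a ∈ s, ind (P a) := by
  rw [card_filter, Nat.cast_sum]
  exact sum_congr rfl fun a _ => by by_cases h : P a <;> simp [ind, h]

theorem sum_filter_eq {α : Type} (s : Finset α) (P : α → Prop) [DecidablePred P] (g : α → ℝ) :
    ∑ a ∈ s.filter P, g a = ∑ a ∈ s, g a * ind (P a) := by
  rw [sum_filter]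
  exact sum_congr rfl fun a _ => by by_cases h : P a <;> simp [ind, h]

theorem sum_ker {A A' : Type} [AddGroup A] [AddGroup A'] [Fintype A] [Fintype A'] (ψ : A →+ A')
    (hψ : Function.Surjective ψ) :
    ∑ a, ind (ψ a = 0) = (Fintype.card A : ℝ) / Fintype.card A' := by
  classical
  have h1 := ψ.ker.card_mul_index
  rw [AddSubgroup.index_ker, AddMonoidHom.range_eq_top.2 hψ, AddSubgroup.card_top,
    Nat.card_eq_fintype_card (α := A'), Nat.card_eq_fintype_card (α := A)] at h1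
  have h2 : Nat.card ψ.ker = (univ.filter fun a => ψ a = 0).card := by
    rw [← Fintype.card_subtype, ← Nat.card_eq_fintype_card]; rfl
  rw [← card_filter_eq, ← h2, ← h1, Nat.cast_mul, mul_div_cancel_right₀]
  exact Nat.cast_ne_zero.2 Fintype.card_ne_zero

theorem sum_rows {A A' : Type} [AddGroup A] [AddGroup A'] [Fintype A] [Fintype A'] (ψ : A →+ A')
    (hψ : Function.Surjective ψ) (h : ℕ) :
    ∑ H : Fin h → A, ind (∀ i, ψ (H i) = 0) =
      (Fintype.card (Fin h → A) : ℝ) / (Fintype.card A' : ℝ) ^ h := by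
  have := sum_ker (ψ.compLeft (Fin h)) (hψ.comp_left (α := Fin h))
  rw [Fintype.card_fun (α := Fin h) (β := A'), Fintype.card_fin, Nat.cast_pow] at this
  rw [← this]
  exact sum_congr rfl fun H _ => congrArg ind (propext funext_iff.symm)

variable {κ : Type} [Fintype κ] [DecidableEq κ] {q h : ℕ}

/-- the parity check `r` applied to `m` -/
def dot (m : κ → ℤ) : (κ → ZMod q) →+ ZMod q where
  toFun r := ∑ k, r k * (m k : ZMod q)
  map_zero' := by simp
  map_add' a b := by simp [add_mul, sum_add_distrib]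

omit [DecidableEq κ] in
theorem dot_apply (m : κ → ℤ) (r : κ → ZMod q) : dot m r = ∑ k, r k * (m k : ZMod q) := rfl

theorem dot_single (m : κ → ℤ) (k : κ) (x : ZMod q) : dot m (Pi.single k x) = x * m k := by
  rw [dot_apply, sum_eq_single k (fun j _ hj => by simp [hj]) (by simp), Pi.single_eq_same]

/-- the lattice of the parity checks `H` -/
def Lam (H : Fin h → κ → ZMod q) (m : κ → ℤ) : Prop := ∀ i, dot m (H i) = 0

omit [DecidableEq κ] in
theorem lam_neg (H : Fin h → κ → ZMod q) (m : κ → ℤ) : Lam H (-m) ↔ Lam H m := by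
  simp [Lam, dot_apply]

/-- sign vectors -/
def Sg (κ : Type) [Fintype κ] [DecidableEq κ] : Finset (κ → ℤ) := Fintype.piFinset fun _ => {1, -1}

theorem mem_Sg {s : κ → ℤ} : s ∈ Sg κ ↔ PM s := by simp [Sg, PM]

theorem card_Sg : ((Sg κ).card : ℝ) = 2 ^ Fintype.card κ := by
  simp [Sg, Fintype.card_piFinset]

theorem neg_mem_Sg {s : κ → ℤ} (hs : s ∈ Sg κ) : -s ∈ Sg κ :=
  mem_Sg.2 fun k => by rcases mem_Sg.1 hs k with e | e <;> simp [e]

section
variable [Fact q.Prime]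

theorem one (m : κ → ℤ) (hm : ∃ k, (m k : ZMod q) ≠ 0) :
    ∑ H : Fin h → κ → ZMod q, ind (Lam H m) =
      Fintype.card (Fin h → κ → ZMod q) * (1 / (q : ℝ) ^ h) := by
  obtain ⟨k, hk⟩ := hm
  have := sum_rows (dot (q := q) m) (fun a => ⟨Pi.single k (a * (m k : ZMod q)⁻¹), by
    rw [dot_single, inv_mul_cancel_right₀ hk]⟩) h
  rw [ZMod.card] at this
  rw [mul_one_div, ← this]
  rfl

theorem two (h2 : (2 : ZMod q) ≠ 0) {s s' : κ → ℤ} (hs : s ∈ Sg κ) (hs' : s' ∈ Sg κ) (h1 : s' ≠ s)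
    (h1' : s' ≠ -s) : ∑ H : Fin h → κ → ZMod q, ind (Lam H s) * ind (Lam H s') =
      Fintype.card (Fin h → κ → ZMod q) * (1 / (q : ℝ) ^ h) ^ 2 := by
  obtain ⟨k, hk⟩ := Function.ne_iff.1 h1
  obtain ⟨k', hk'⟩ := Function.ne_iff.1 h1'
  have e1 : s' k = -s k := by
    rcases mem_Sg.1 hs k with e | e <;> rcases mem_Sg.1 hs' k with e' | e' <;> simp_all
  have e2 : s' k' = s k' := by
    rcases mem_Sg.1 hs k' with e | e <;> rcases mem_Sg.1 hs' k' with e' | e' <;> simp_all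
  have sq : ∀ k, (s k : ZMod q) * s k = 1 := fun k => by
    rcases mem_Sg.1 hs k with e | e <;> simp [e]
  have := sum_rows ((dot (q := q) s).prod (dot s')) (fun a =>
    ⟨Pi.single k ((a.1 - a.2) / 2 * s k) + Pi.single k' ((a.1 + a.2) / 2 * s k'), by
      ext
      · simp only [AddMonoidHom.prod_apply, map_add, dot_single, mul_assoc, sq, Prod.fst_add]
        field_simp
        ring
      · simp only [AddMonoidHom.prod_apply, map_add, dot_single, mul_assoc, sq, e1, e2,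
          Int.cast_neg, mul_neg, Prod.snd_add]
        field_simp
        ring⟩) h
  rw [Fintype.card_prod, ZMod.card, Nat.cast_mul, mul_pow, ← pow_two] at this
  rw [div_pow, one_pow, mul_one_div, ← this]
  refine sum_congr rfl fun H _ => ?_
  rw [ind_mul]
  simp only [Lam, AddMonoidHom.prod_apply, Prod.mk_eq_zero, forall_and]

theorem one_sg [Nonempty κ] {s : κ → ℤ} (hs : s ∈ Sg κ) :
    ∑ H : Fin h → κ → ZMod q, ind (Lam H s) =
      Fintype.card (Fin h → κ → ZMod q) * (1 / (q : ℝ) ^ h) := by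
  obtain ⟨k⟩ := ‹Nonempty κ›
  exact one s ⟨k, by rcases mem_Sg.1 hs k with e | e <;> simp [e]⟩

theorem pair [Nonempty κ] (h2 : (2 : ZMod q) ≠ 0) {s s' : κ → ℤ} (hs : s ∈ Sg κ)
    (hs' : s' ∈ Sg κ) : ∑ H : Fin h → κ → ZMod q, ind (Lam H s) * ind (Lam H s') =
      Fintype.card (Fin h → κ → ZMod q) * ((1 / (q : ℝ) ^ h) ^ 2 +
        (1 / (q : ℝ) ^ h - (1 / (q : ℝ) ^ h) ^ 2) * ind (s' = s ∨ s' = -s)) := by
  by_cases e : s' = s ∨ s' = -s
  · rw [ind_pos e, mul_one, add_sub_cancel, ← one_sg hs]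
    refine sum_congr rfl fun H _ => ?_
    rw [ind_mul]
    rcases e with rfl | rfl <;> simp only [lam_neg, and_self]
  · rw [ind_neg e, mul_zero, add_zero]
    exact two h2 hs hs' (not_or.1 e).1 (not_or.1 e).2

end

omit [DecidableEq κ] in
theorem sum_pm_le (T : Finset (κ → ℤ)) (s : κ → ℤ) : ∑ s' ∈ T, ind (s' = s ∨ s' = -s) ≤ 2 := by
  rw [← card_filter_eq]
  have : (T.filter fun s' => s' = s ∨ s' = -s) ⊆ {s, -s} := fun x hx => by
    simpa using (mem_filter.1 hx).2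
  exact_mod_cast (card_le_card this).trans card_le_two

theorem mom [Fact q.Prime] [Nonempty κ] (h2 : (2 : ZMod q) ≠ 0) (g : (κ → ℤ) → ℝ)
    (hg : ∀ s ∈ Sg κ, |g s| ≤ 1) :
    ∑ H : Fin h → κ → ZMod q, (∑ s ∈ Sg κ, g s * ind (Lam H s)) ^ 2 ≤
      Fintype.card (Fin h → κ → ZMod q) * ((1 / (q : ℝ) ^ h * ∑ s ∈ Sg κ, g s) ^ 2 +
        2 * (2 ^ Fintype.card κ * (1 / (q : ℝ) ^ h))) := by
  set p : ℝ := 1 / (q : ℝ) ^ h with hp
  have hq : (1 : ℝ) ≤ q := Nat.one_le_cast.2 (Fact.out : q.Prime).one_le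
  have hp0 : 0 ≤ p := by positivity
  have hp1 : p ≤ 1 := div_le_one_of_le₀ (one_le_pow₀ hq) (by positivity)
  have e : ∀ H : Fin h → κ → ZMod q, (∑ s ∈ Sg κ, g s * ind (Lam H s)) ^ 2 =
      ∑ s ∈ Sg κ, ∑ s' ∈ Sg κ, g s * g s' * (ind (Lam H s) * ind (Lam H s')) := fun H => by
    rw [sq, sum_mul_sum]
    exact sum_congr rfl fun s _ => sum_congr rfl fun s' _ => by ring
  simp only [e]
  rw [sum_comm, mul_pow, sq (∑ s ∈ Sg κ, g s), sum_mul_sum, ← card_Sg, ← nsmul_eq_mul (Sg κ).card,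
    ← sum_const, mul_sum, mul_sum, ← sum_add_distrib, mul_sum]
  refine sum_le_sum fun s hs => ?_
  rw [sum_comm]
  have e2 : ∀ s' ∈ Sg κ, ∑ H : Fin h → κ → ZMod q, g s * g s' * (ind (Lam H s) * ind (Lam H s')) ≤
      Fintype.card (Fin h → κ → ZMod q) * (p ^ 2 * (g s * g s') + p * ind (s' = s ∨ s' = -s)) := by
    intro s' hs'
    rw [← mul_sum, pair h2 hs hs', mul_left_comm, ← hp]
    refine mul_le_mul_of_nonneg_left ?_ (Nat.cast_nonneg _)
    have h1 : g s * g s' ≤ 1 := (le_abs_self _).trans (by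
      rw [abs_mul]; exact mul_le_one₀ (hg s hs) (abs_nonneg _) (hg s' hs'))
    have h3 := ind_nonneg (s' = s ∨ s' = -s)
    have h4 : 0 ≤ (p - p ^ 2) * ind (s' = s ∨ s' = -s) := mul_nonneg (by nlinarith) h3
    nlinarith [mul_le_mul_of_nonneg_right h1 h4, mul_nonneg (sq_nonneg p) h3]
  refine (sum_le_sum e2).trans ?_
  rw [← mul_sum, sum_add_distrib, ← mul_sum, ← mul_sum]
  refine mul_le_mul_of_nonneg_left (add_le_add le_rfl ?_) (Nat.cast_nonneg _)
  rw [← mul_sum, mul_comm 2]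
  exact mul_le_mul_of_nonneg_left (sum_pm_le _ s) hp0

theorem sum_prod_Sg (f : κ → ℤ → ℝ) :
    ∑ s ∈ Sg κ, ∏ k, f k (s k) = ∏ k, (f k 1 + f k (-1)) := by
  rw [Sg, ← prod_univ_sum]
  exact prod_congr rfl fun k _ => sum_pair (by decide)

theorem sum_corr {k k' : κ} (hk : k ≠ k') : ∑ s ∈ Sg κ, (s k : ℝ) * s k' = 0 := by
  have := sum_prod_Sg (κ := κ) fun j x => if j ∈ ({k, k'} : Finset κ) then (x : ℝ) else 1
  rw [prod_eq_zero (mem_univ k) (by simp)] at this
  rw [← this]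
  refine sum_congr rfl fun s _ => ?_
  rw [prod_ite_mem_eq, prod_pair hk]

theorem mgf {s : κ → ℤ} (hs : s ∈ Sg κ) (θ : ℝ) :
    ∑ s' ∈ Sg κ, Real.exp (θ * ∑ k, (s k : ℝ) * s' k) ≤
      2 ^ Fintype.card κ * Real.exp (Fintype.card κ * (θ ^ 2 / 2)) := by
  simp only [mul_sum, Real.exp_sum]
  rw [sum_prod_Sg fun k x => Real.exp (θ * ((s k : ℝ) * x)), Real.exp_nat_mul, ← mul_pow,
    ← card_univ, ← prod_const]
  refine prod_le_prod (fun k _ => by positivity) fun k _ => ?_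
  have h1 := Real.cosh_le_exp_half_sq θ
  rw [Real.cosh_eq] at h1
  rcases mem_Sg.1 hs k with e | e <;> simp [e] <;> linarith

theorem hoeff [Nonempty κ] {s : κ → ℤ} (hs : s ∈ Sg κ) {μ : ℝ} (hμ : 0 ≤ μ) :
    ∑ s' ∈ Sg κ, ind (μ < |∑ k, (s k : ℝ) * s' k|) ≤
      2 * (2 ^ Fintype.card κ * Real.exp (-(μ ^ 2 / (2 * Fintype.card κ)))) := by
  have hB : (0 : ℝ) < Fintype.card κ := Nat.cast_pos.2 Fintype.card_pos
  set θ := μ / Fintype.card κ with hθ
  have hθ0 : 0 ≤ θ := by positivity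
  have e : ∀ z : ℝ, ind (μ < |z|) ≤
      Real.exp (-(θ * μ)) * (Real.exp (θ * z) + Real.exp (-θ * z)) := fun z => by
    by_cases hz : μ < |z|
    · rw [ind_pos hz, mul_add, ← Real.exp_add, ← Real.exp_add]
      rcases lt_abs.1 hz with hz | hz
      · have := Real.one_le_exp (x := -(θ * μ) + θ * z) (by nlinarith)
        linarith [Real.exp_pos (-(θ * μ) + -θ * z)]
      · have := Real.one_le_exp (x := -(θ * μ) + -θ * z) (by nlinarith)
        linarith [Real.exp_pos (-(θ * μ) + θ * z)]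
    · rw [ind_neg hz]; positivity
  refine (sum_le_sum fun s' _ => e _).trans ?_
  rw [← mul_sum, sum_add_distrib]
  refine (mul_le_mul_of_nonneg_left (add_le_add (mgf hs θ) (mgf hs (-θ)))
    (Real.exp_pos _).le).trans (le_of_eq ?_)
  rw [neg_sq, show -(μ ^ 2 / (2 * (Fintype.card κ : ℝ))) =
    -(θ * μ) + Fintype.card κ * (θ ^ 2 / 2) by rw [hθ]; field_simp; ring, Real.exp_add]
  ring

theorem geo (n : ℕ) : ∑ x ∈ Icc (-(n : ℤ)) n, (1 / 16 : ℝ) ^ x.natAbs =
    17 / 15 - 2 / 15 * (1 / 16) ^ n := by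
  induction n with
  | zero => simp; norm_num
  | succ n ih =>
    have : Icc (-((n + 1 : ℕ) : ℤ)) (n + 1 : ℕ) =
        insert (-((n + 1 : ℕ) : ℤ)) (insert ((n + 1 : ℕ) : ℤ) (Icc (-(n : ℤ)) n)) := by
      ext x; simp only [mem_Icc, mem_insert]; omega
    rw [this, sum_insert (by simp only [mem_Icc, mem_insert]; omega),
      sum_insert (by simp only [mem_Icc]; omega), ih, Int.natAbs_neg, Int.natAbs_natCast]
    ring

theorem short (n : ℕ) : ∑ m ∈ Fintype.piFinset fun _ : κ => Icc (-(n : ℤ)) n,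
    ind (∑ k, (m k : ℝ) ^ 2 < 1 / 500 * Fintype.card κ) ≤ (5 / 4) ^ Fintype.card κ := by
  have e : ∀ m : κ → ℤ, ind (∑ k, (m k : ℝ) ^ 2 < 1 / 500 * Fintype.card κ) ≤
      (11 / 10) ^ Fintype.card κ * ∏ k, (1 / 16 : ℝ) ^ (m k).natAbs := fun m => by
    by_cases hm : ∑ k, (m k : ℝ) ^ 2 < 1 / 500 * Fintype.card κ
    · rw [ind_pos hm, prod_pow_eq_pow_sum]
      have h1 : ((∑ k, (m k).natAbs : ℕ) : ℝ) ≤ ∑ k, (m k : ℝ) ^ 2 := by
        rw [Nat.cast_sum]
        exact sum_le_sum fun k _ => by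
          have : (((m k).natAbs : ℤ) : ℝ) ≤ ((m k ^ 2 : ℤ) : ℝ) :=
            Int.cast_le.2 (Int.natAbs_le_self_sq (m k))
          rwa [Int.cast_natCast, Int.cast_pow] at this
      have h2 : 500 * ∑ k, (m k).natAbs ≤ Fintype.card κ := by
        have : (500 : ℝ) * (∑ k, (m k).natAbs : ℕ) ≤ Fintype.card κ := by linarith
        exact_mod_cast this
      have h3 : (16 : ℝ) ≤ (11 / 10) ^ 500 :=
        (by norm_num : (16 : ℝ) ≤ (11 / 10) ^ 30).trans
          (pow_le_pow_right₀ (by norm_num) (by norm_num))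
      have h4 : (16 : ℝ) ^ ∑ k, (m k).natAbs ≤ (11 / 10) ^ Fintype.card κ :=
        (pow_le_pow_left₀ (by norm_num) h3 _).trans (by
          rw [← pow_mul]; exact pow_le_pow_right₀ (by norm_num) h2)
      rw [one_div, inv_pow, ← div_eq_mul_inv, one_le_div (by positivity)]
      exact h4
    · rw [ind_neg hm]; positivity
  refine (sum_le_sum fun m _ => e m).trans ?_
  rw [← mul_sum, ← prod_univ_sum (fun _ : κ => Icc (-(n : ℤ)) n)
    fun _ x => (1 / 16 : ℝ) ^ x.natAbs, prod_const, card_univ, ← mul_pow, geo]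
  have : (0 : ℝ) < (1 / 16) ^ n := by positivity
  have h1 : (1 / 16 : ℝ) ^ n ≤ 1 := pow_le_one₀ (by norm_num) (by norm_num)
  exact pow_le_pow_left₀ (by nlinarith) (by nlinarith) _

end Vale.Agent.P318.M.LatCnt
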