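import Vale.Agent.P318.M.Stmt

/-!
From the model on the torus to a finite weighted instance.
-/

namespace Vale.Agent.P318.M

open Finset MeasureTheory ProbabilityTheory

namespace Model

theorem ind_nonneg (P : Prop) : 0 ≤ ind P := by
  unfold ind; split_ifs <;> norm_num

theorem ind_le (P : Prop) : ind P ≤ 1 := by
  unfold ind; split_ifs <;> norm_num

theorem ind_pos {P : Prop} (h : P) : ind P = 1 := by
  unfold ind; rw [if_pos h]

theorem ind_neg {P : Prop} (h : ¬ P) : ind P = 0 := by
  unfold ind; rw [if_neg h]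

/-- The law of a weighted family of points with values in a finite set. -/
theorem law {Ω T Z : Type} [MeasurableSpace Ω] (μ : Measure Ω) [IsFiniteMeasure μ] [Fintype T]
    [MeasurableSpace Z] [Countable Z] [MeasurableSingletonClass Z]
    (w : T → Ω → ℝ) (a : T → Ω → Z) (X : Finset Z) (M : ℝ)
    (hw : ∀ t, Measurable (w t)) (hM : ∀ t β, |w t β| ≤ M) (ha : ∀ t, Measurable (a t))
    (hX : ∀ᵐ β ∂μ, ∀ t, a t β ∈ X) (G : Z → ℝ) :
    ∑ z ∈ X, (∫ β, ∑ t, w t β * ind (a t β = z) ∂μ) * G z = ∫ β, ∑ t, w t β * G (a t β) ∂μ := by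
  classical
  have hint : ∀ z, Integrable (fun β => (∑ t, w t β * ind (a t β = z)) * G z) μ := by
    intro z
    refine Integrable.mul_const (integrable_finsetSum _ fun t _ => ?_) _
    refine Integrable.of_bound (C := M) ?_ (Filter.Eventually.of_forall fun β => ?_)
    · exact ((hw t).mul ((measurable_of_countable fun x : Z => ind (x = z)).comp
        (ha t))).aestronglyMeasurable
    · rw [Real.norm_eq_abs, abs_mul, abs_of_nonneg (ind_nonneg _)]
      calc |w t β| * ind (a t β = z) ≤ |w t β| * 1 :=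
            mul_le_mul_of_nonneg_left (ind_le _) (abs_nonneg _)
        _ ≤ M := by rw [mul_one]; exact hM t β
  simp_rw [← integral_mul_const]
  rw [← integral_finsetSum _ fun z _ => hint z]
  refine integral_congr_ae (hX.mono fun β hβ => ?_)
  simp only [Finset.sum_mul]
  rw [Finset.sum_comm]
  refine Finset.sum_congr rfl fun t _ => ?_
  rw [Finset.sum_eq_single_of_mem (a t β) (hβ t)]
  · rw [ind_pos rfl, mul_one]
  · intro z _ hz
    rw [ind_neg (fun h => hz h.symm)]; ring

section

variable {ι κ : Type} [Fintype ι] [DecidableEq ι] [Fintype κ]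

/-- The integer vectors of the form `lin s ρ`. -/
def RR (Γ : AddSubgroup (κ → ℝ)) (s : ι → κ → ℤ) : AddSubgroup (ι → ℤ) where
  carrier := {r | ∃ ρ ∈ Γ, ∀ j, (r j : ℝ) = lin s ρ j}
  add_mem' := by
    rintro a b ⟨ρ, hρ, h⟩ ⟨ρ', hρ', h'⟩
    refine ⟨ρ + ρ', Γ.add_mem hρ hρ', fun j => ?_⟩
    have h1 := h j
    have h2 := h' j
    simp only [lin, ip] at h1 h2 ⊢
    simp only [Pi.add_apply, Int.cast_add, h1, h2, mul_add, Finset.sum_add_distrib]
  zero_mem' := ⟨0, Γ.zero_mem, fun j => by simp [lin, ip]⟩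
  neg_mem' := by
    rintro a ⟨ρ, hρ, h⟩
    refine ⟨-ρ, Γ.neg_mem hρ, fun j => ?_⟩
    have h1 := h j
    simp only [lin, ip] at h1 ⊢
    simp only [Pi.neg_apply, Int.cast_neg, h1, mul_neg, Finset.sum_neg_distrib]

/-- Representative of the class of `x`. -/
noncomputable def rep (Γ : AddSubgroup (κ → ℝ)) (s : ι → κ → ℤ) (x : ι → ℤ) : ι → ℤ :=
  (QuotientAddGroup.mk x : (ι → ℤ) ⧸ RR Γ s).out

omit [Fintype ι] [DecidableEq ι] in
theorem rep_inv (Γ : AddSubgroup (κ → ℝ)) (s : ι → κ → ℤ) (G : (ι → ℤ) → ℝ) :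
    Inv Γ s fun x => G (rep Γ s x) := by
  intro ρ hρ r hr x
  have : (QuotientAddGroup.mk (x + r) : (ι → ℤ) ⧸ RR Γ s) = QuotientAddGroup.mk x :=
    QuotientAddGroup.mk_add_of_mem x ⟨ρ, hρ, hr⟩
  simp only [rep, this]

omit [Fintype ι] [DecidableEq ι] in
theorem inv_rep {Γ : AddSubgroup (κ → ℝ)} {s : ι → κ → ℤ} {h : (ι → ℤ) → ℝ} (hh : Inv Γ s h)
    (x : ι → ℤ) : h (rep Γ s x) = h x := by
  obtain ⟨⟨r, ρ, hρ, hr⟩, he⟩ := QuotientAddGroup.mk_out_eq_add (RR Γ s) x
  have : rep Γ s x = x + r := he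
  rw [this]
  exact hh ρ hρ r hr x

omit [Fintype ι] [DecidableEq ι] in
theorem meas_y (s : ι → κ → ℤ) (c : ι → ℝ) : Measurable fun β : κ → ℝ => c + lin s β := by
  refine measurable_pi_lambda _ fun j => ?_
  simp only [Pi.add_apply, lin, ip]
  fun_prop

omit [Fintype ι] [DecidableEq ι] in
theorem meas_pt (b : ι → Bool) : Measurable fun y : ι → ℝ => pt y b := by
  refine measurable_pi_lambda _ fun j => ?_
  simp only [pt]
  exact ((measurable_of_countable fun n : ℤ => -n - if b j then 1 else 0).comp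
    Int.measurable_floor).comp (measurable_pi_apply j)

omit [DecidableEq ι] in
theorem meas_wt {ω : ℝ} (hR : RampAt ω) (b : ι → Bool) :
    Measurable fun y : ι → ℝ => wt (py ω y) b := by
  simp only [wt]
  refine Finset.measurable_prod _ fun j _ => ?_
  have : Measurable fun y : ι → ℝ => pr ω (y j) := hR.pr_meas.comp (measurable_pi_apply j)
  simp only [wt1, py]
  split_ifs
  · exact this
  · exact this.const_sub 1

/-- The box which contains all samples. -/
noncomputable def box (ι : Type) [Fintype ι] [DecidableEq ι] (Cn : ℕ) : Finset (ι → ℤ) :=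
  Fintype.piFinset fun _ => Finset.Icc (-((Cn : ℤ) + 2)) ((Cn : ℤ) + 1)

theorem card_box (Cn : ℕ) : (box ι Cn).card ≤ (2 * Cn + 6) ^ Fintype.card ι := by
  rw [box, Fintype.card_piFinset, Finset.prod_const, Finset.card_univ]
  refine Nat.pow_le_pow_left ?_ _
  rw [Int.card_Icc]
  omega

theorem ae_box (s : ι → κ → ℤ) (c : ι → ℝ) (Cn : ℕ) (hc : ∀ j, |c j| ≤ 1)
    (hs : ∀ j, ∑ k, |(s j k : ℝ)| ≤ Cn) :
    ∀ᵐ β ∂cube κ, ∀ b, pt (c + lin s β) b ∈ box ι Cn := by
  have hm : MeasurableSet (Set.univ.pi fun _ : κ => Set.Ioc (0 : ℝ) 1) :=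
    MeasurableSet.univ_pi fun _ => measurableSet_Ioc
  refine (ae_restrict_mem hm).mono fun β hβ b => ?_
  rw [box, Fintype.mem_piFinset]
  intro j
  have h1 : |lin s β j| ≤ Cn := by
    refine le_trans ?_ (hs j)
    simp only [lin, ip]
    refine (Finset.abs_sum_le_sum_abs _ _).trans (Finset.sum_le_sum fun k _ => ?_)
    have hk := hβ k (Set.mem_univ k)
    rw [abs_mul, abs_of_pos hk.1]
    exact mul_le_of_le_one_right (abs_nonneg _) hk.2
  have h2 := abs_le.1 h1
  have h3 := abs_le.1 (hc j)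
  have h4 : -((Cn : ℤ) + 1) ≤ ⌊(c + lin s β) j⌋ := by
    rw [Int.le_floor]; push_cast; simp only [Pi.add_apply]; linarith [h2.1, h3.1]
  have h5 : ⌊(c + lin s β) j⌋ ≤ (Cn : ℤ) + 1 := by
    have : ((⌊(c + lin s β) j⌋ : ℤ) : ℝ) ≤ (((Cn : ℤ) + 1 : ℤ) : ℝ) := by
      refine (Int.floor_le _).trans ?_
      push_cast; simp only [Pi.add_apply]; linarith [h2.2, h3.2]
    exact_mod_cast this
  simp only [pt, Finset.mem_Icc]
  split_ifs <;> constructor <;> omega

end

end Model

open Model in
theorem model_proof (hR : RampStmt) (hB : BitStmt) (_hD : DerivStmt) (hRed : ReduceStmt) :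
    ModelStmt := by
  classical
  intro ι κ _ _ _ Γ s c dd Cn ω δ D1 D2 hω hω8 hδ hD1 hD2 hc hs hM hP N hN
  have hRa := hR.2 ω hω hω8
  have hwt : ∀ y : ι → ℝ, (∀ b, 0 ≤ wt (py ω y) b) ∧ ∑ b, wt (py ω y) b = 1 := fun y =>
    let h := hB ι (py ω y) fun i => ⟨hRa.pr_nonneg _, hRa.pr_le _⟩
    ⟨h.1, h.2.1⟩
  have hwt1 : ∀ (y : ι → ℝ) b, wt (py ω y) b ≤ 1 := fun y b => by
    rw [← (hwt y).2]
    exact Finset.single_le_sum (fun b _ => (hwt y).1 b) (Finset.mem_univ b)
  set X : Finset (ι → ℤ) := (box ι Cn).image (rep Γ s) with hX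
  have hrm : Measurable (rep Γ s) := measurable_of_countable _
  have hbox := ae_box s c Cn hc hs
  -- the vertex weights
  let ν : (ι → ℤ) → ℝ := fun z =>
    ∫ β, ∑ b, wt (py ω (c + lin s β)) b * ind (rep Γ s (pt (c + lin s β) b) = z) ∂cube κ
  have hν : ∀ G : (ι → ℤ) → ℝ, ∑ z : X, ν z * G z =
      tm fun β => Ey ω (fun x => G (rep Γ s x)) (c + lin s β) := by
    intro G
    rw [Finset.sum_coe_sort X fun z => ν z * G z]
    exact law (cube κ) (fun b β => wt (py ω (c + lin s β)) b)
      (fun b β => rep Γ s (pt (c + lin s β) b)) X 1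
      (fun b => (meas_wt hRa b).comp (meas_y s c))
      (fun b β => by rw [abs_of_nonneg ((hwt _).1 b)]; exact hwt1 _ b)
      (fun b => hrm.comp ((meas_pt b).comp (meas_y s c)))
      (hbox.mono fun β hβ b => Finset.mem_image_of_mem _ (hβ b)) G
  -- the edge weights
  let w : ι × (ι → Bool) → (κ → ℝ) → ℝ := fun t β =>
    dpr ω ((c + lin s β) t.1) * wt (py ω (c + lin s β)) t.2
  let a : ι × (ι → Bool) → (κ → ℝ) → (ι → ℤ) × (ι → ℤ) := fun t β =>
    (rep Γ s (pt (c + lin s β) (Function.update t.2 t.1 true)),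
      rep Γ s (pt (c + lin s β) (Function.update t.2 t.1 false)))
  have hw0 : ∀ t β, 0 ≤ w t β := fun t β => mul_nonneg (hRa.dpr_nonneg _) ((hwt _).1 _)
  let A : (ι → ℤ) → (ι → ℤ) → ℝ := fun z z' => ∫ β, ∑ t, w t β * ind (a t β = (z, z')) ∂cube κ
  have hA0 : ∀ z z', 0 ≤ A z z' := fun z z' =>
    integral_nonneg fun β => Finset.sum_nonneg fun t _ => mul_nonneg (hw0 t β) (ind_nonneg _)
  have hA : ∀ G : (ι → ℤ) → (ι → ℤ) → ℝ, ∑ z : X, ∑ z' : X, A z z' * G z z' =
      tm fun β => ∑ j, dpr ω ((c + lin s β) j) * Eb (py ω (c + lin s β)) fun b =>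
        G (rep Γ s (pt (c + lin s β) (Function.update b j true)))
          (rep Γ s (pt (c + lin s β) (Function.update b j false))) := by
    intro G
    have h1 := law (cube κ) w a (X ×ˢ X) (1 / ω)
      (fun t => (hRa.dpr_meas.comp ((measurable_pi_apply t.1).comp (meas_y s c))).mul
        ((meas_wt hRa t.2).comp (meas_y s c)))
      (fun t β => by
        rw [abs_of_nonneg (hw0 t β)]
        exact (mul_le_of_le_one_right (hRa.dpr_nonneg _) (hwt1 _ _)).trans (hRa.dpr_le _))
      (fun t => (hrm.comp ((meas_pt _).comp (meas_y s c))).prodMk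
        (hrm.comp ((meas_pt _).comp (meas_y s c))))
      (hbox.mono fun β hβ t => Finset.mk_mem_product (Finset.mem_image_of_mem _ (hβ _))
        (Finset.mem_image_of_mem _ (hβ _))) (fun p => G p.1 p.2)
    rw [Finset.sum_product] at h1
    rw [Finset.sum_coe_sort X fun z => ∑ z' : X, A z z' * G z z']
    simp_rw [fun z => Finset.sum_coe_sort X fun z' => A z z' * G z z']
    refine h1.trans ?_
    simp only [tm, Fintype.sum_prod_type, Eb, Finset.mul_sum, w, a, mul_assoc]
  have hsym : ∀ G : (ι → ℤ) → (ι → ℤ) → ℝ,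
      ∑ z : X, ∑ z' : X, (A z z' + A z' z) * G z z' =
        ∑ z : X, ∑ z' : X, A z z' * (G z z' + G z' z) := by
    intro G
    simp only [add_mul, mul_add, Finset.sum_add_distrib]
    rw [Finset.sum_comm (f := fun z z' : X => A z' z * G z z')]
  have hdd : ∀ x x', dd (rep Γ s x) (rep Γ s x') = dd x x' := fun x x' => by
    rw [inv_rep (hM.inv _) x, hM.cnd.2.1, inv_rep (hM.inv _) x', hM.cnd.2.1]
  have key := hRed X (fun z => ν z) (fun z z' => A z z' + A z' z) (fun z z' => dd z z') δ
    (2 * D1) D2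
    (fun z => integral_nonneg fun β =>
      Finset.sum_nonneg fun b _ => mul_nonneg ((hwt _).1 b) (ind_nonneg _))
    (by
      have := hν fun _ => 1
      simp only [mul_one, Ey, Eb, (hwt _).2, tm] at this
      simpa using this)
    (fun z z' => add_nonneg (hA0 _ _) (hA0 _ _)) (fun z z' => add_comm _ _)
    ⟨fun z => hM.cnd.1 _, fun z z' => hM.cnd.2.1 _ _,
      fun n x b hb => hM.cnd.2.2 n (fun i => x i) b hb⟩
    (fun x y z => hM.tri _ _ _) hδ (by positivity) hD2
    (by
      intro U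
      let g : (ι → ℤ) → ℝ := fun z => ind (∃ h : z ∈ X, (⟨z, h⟩ : X) ∈ U)
      have hg : ∀ z : X, g z = if z ∈ U then 1 else 0 := by
        intro z
        split_ifs with h
        · exact ind_pos ⟨z.2, h⟩
        · exact ind_neg fun ⟨_, h'⟩ => h h'
      have hg01 : ∀ z, g z = 0 ∨ g z = 1 := fun z => by
        by_cases h : ∃ h : z ∈ X, (⟨z, h⟩ : X) ∈ U
        · exact Or.inr (ind_pos h)
        · exact Or.inl (ind_neg h)
      have h1 : ∑ x ∈ U, ν x = tm fun β => Ey ω (fun x => g (rep Γ s x)) (c + lin s β) := by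
        rw [← hν g]
        simp only [hg, mul_ite, mul_one, mul_zero]
        rw [Finset.sum_ite_mem, Finset.univ_inter]
      have h2 : ∑ x ∈ U, ∑ x' ∈ Uᶜ, (A x x' + A x' x) =
          tm fun β => Inf ω univ (fun x => g (rep Γ s x)) (c + lin s β) := by
        have h3 : ∑ x ∈ U, ∑ x' ∈ Uᶜ, (A x x' + A x' x) =
            ∑ z : X, ∑ z' : X, (A z z' + A z' z) * (g z * (1 - g z')) := by
          rw [← Finset.sum_subset (Finset.subset_univ U)]
          · refine Finset.sum_congr rfl fun z hz => ?_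
            rw [← Finset.sum_subset (Finset.subset_univ Uᶜ)]
            · refine Finset.sum_congr rfl fun z' hz' => ?_
              rw [hg, hg, if_pos hz, if_neg (Finset.mem_compl.1 hz')]; ring
            · intro z' _ hz'
              rw [hg z', if_pos (by simpa using hz')]; ring
          · intro z _ hz
            refine Finset.sum_eq_zero fun z' _ => ?_
            rw [hg z, if_neg hz]; ring
        rw [h3, hsym fun z z' => g z * (1 - g z'),
          hA fun z z' => g z * (1 - g z') + g z' * (1 - g z)]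
        simp only [Inf, inf1, Dd]
        congr 1
        funext β
        refine Finset.sum_congr rfl fun j _ => ?_
        congr 2
        funext b
        rcases hg01 (rep Γ s (pt (c + lin s β) (Function.update b j true))) with h | h <;>
          rcases hg01 (rep Γ s (pt (c + lin s β) (Function.update b j false))) with h' | h' <;>
          rw [h, h'] <;> norm_num
      rw [h1, h2]
      exact hP _ (fun x => hg01 _) (rep_inv Γ s g))
    (by
      rw [hsym dd, hA fun z z' => dd z z' + dd z' z]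
      have he := hM.edge
      have h2 : ∀ x x', dd (rep Γ s x) (rep Γ s x') + dd (rep Γ s x') (rep Γ s x) =
          2 * dd x x' := fun x x' => by rw [hdd, hdd, hM.cnd.2.1 x' x]; ring
      simp only [h2]
      refine le_trans (le_of_eq ?_) (mul_le_mul_of_nonneg_left he (by norm_num : (0 : ℝ) ≤ 2))
      simp only [tm]
      rw [← integral_const_mul]
      congr 1
      funext β
      simp only [Eb, Finset.mul_sum]
      refine Finset.sum_congr rfl fun j _ => Finset.sum_congr rfl fun b _ => by ring)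
    (by
      intro x'
      rw [hν fun z => ind (dd z x' < D2)]
      simp only [fun x => inv_rep (hM.inv x') x]
      exact hM.spread x')
    N (by
      refine le_trans (Nat.mul_le_mul_left _ ?_) hN
      rw [Fintype.card_coe]
      exact Finset.card_image_le.trans (card_box Cn))
  rwa [show 100 * δ * (2 * D1) = 200 * δ * D1 by ring] at key

end Vale.Agent.P318.M
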