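import Vale.Agent.P318.M.Stmt
import Vale.Agent.P318.Red

/-!
From a weighted instance with expensive balanced cuts to uniform demands.
-/

namespace Vale.Agent.P318.M

open Finset

theorem Reduce.negKer {X : Type} [Fintype X] {d : X → X → ℝ} (hd : CND d) : NegKer d := by
  refine ⟨hd.2.1, hd.1, fun a ha => ?_⟩
  let e := (Fintype.equivFin X).symm
  have h := hd.2.2 (Fintype.card X) e (fun i => a (e i)) (by rw [Equiv.sum_comp e a]; exact ha)
  rw [← Equiv.sum_comp e fun x => ∑ y, a x * a y * d x y]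
  refine le_trans (le_of_eq ?_) h
  refine Finset.sum_congr rfl fun i _ => ?_
  rw [← Equiv.sum_comp e fun y => a (e i) * a y * d (e i) y]

theorem Reduce.main {X : Type} [Fintype X] [DecidableEq X] (μ : X → ℝ) (hμ0 : ∀ x, 0 ≤ μ x)
    (hμ1 : ∑ x, μ x = 1) {c d : X → X → ℝ} (hcs : ∀ x y, c x y = c y x) (hc0 : ∀ x y, 0 ≤ c x y)
    (hd : NegKer d) (htri : ∀ x y z, d x z ≤ d x y + d y z) {K A B : ℝ} (hK : 0 < K)
    (hB : 0 < B) (hA0 : 0 < A)
    (hcut : ∀ S : Finset X, 1 / 4 ≤ ∑ x ∈ S, μ x → ∑ x ∈ S, μ x ≤ 1 - 1 / 4 →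
      K ≤ ∑ x ∈ S, ∑ y ∈ Sᶜ, c x y)
    (hA : ∑ x, ∑ y, c x y * d x y ≤ A)
    (hspread : ∀ Y : Finset X, 1 - 1 / 4 ≤ ∑ x ∈ Y, μ x →
      B ≤ ∑ x ∈ Y, ∑ y ∈ Y, μ x * μ y * d x y)
    {n : ℕ} (hn : 101 * Fintype.card X ≤ n) : K * B / (2 * A) ≤ gap n := by
  classical
  have hX : 0 < Fintype.card X := by
    rw [Fintype.card_pos_iff]
    by_contra h
    rw [not_nonempty_iff] at h
    simp at hμ1
  set N : ℝ := (Fintype.card X : ℝ) with hN
  have hN0 : 0 < N := by rw [hN]; exact_mod_cast hX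
  have hnN : 101 * N ≤ n := by rw [hN]; exact_mod_cast hn
  have hn0 : (0 : ℝ) < n := by linarith
  set k : ℝ := 1 / (100 * N) with hk
  have hk0 : 0 < k := by positivity
  have hcard : ∀ S : Finset X, (S.card : ℝ) * k ≤ 1 / 100 := by
    intro S
    have h1 : (S.card : ℝ) ≤ N := by rw [hN]; exact_mod_cast Finset.card_le_univ S
    calc (S.card : ℝ) * k ≤ N * k := by gcongr
      _ = 1 / 100 := by rw [hk]; field_simp
  let a : X → ℝ := fun x => μ x + 2 * k
  let a1 : X → ℝ := fun x => μ x + k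
  have ha0 : ∀ x, 0 < a x := fun x => add_pos_of_nonneg_of_pos (hμ0 x) (by positivity)
  have ha10 : ∀ x, 0 < a1 x := fun x => add_pos_of_nonneg_of_pos (hμ0 x) hk0
  have haS : ∀ S : Finset X, ∑ x ∈ S, a x ≤ ∑ x ∈ S, μ x + 1 / 50 := by
    intro S
    simp only [a, Finset.sum_add_distrib, Finset.sum_const, nsmul_eq_mul]
    have := hcard S
    linarith
  obtain ⟨Y, hY1, hY2⟩ := exists_core μ a hc0 (K := K) (L := K) (β := 1 / 4) (by norm_num) le_rfl
    (fun S hS => by have := haS S; nlinarith) hcut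
  have hμY : 1 - 1 / 4 ≤ ∑ x ∈ Y, μ x := by
    have := Finset.sum_add_sum_compl Y μ
    linarith
  have hμY1 : ∑ x ∈ Y, μ x ≤ 1 :=
    hμ1 ▸ Finset.sum_le_sum_of_subset_of_nonneg (subset_univ _) fun x _ _ => hμ0 x
  set s := ∑ x ∈ Y, a1 x with hs
  have hs1 : 3 / 4 ≤ s := by
    have : ∑ x ∈ Y, μ x ≤ s := Finset.sum_le_sum fun x _ => by
      simp only [a1]; linarith
    linarith
  have hs2 : s ≤ 101 / 100 := by
    have := hcard Y
    simp only [hs, a1, Finset.sum_add_distrib, Finset.sum_const, nsmul_eq_mul]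
    linarith
  have hs0 : 0 < s := by linarith
  have hone : 1 ≤ n * k / s := by
    rw [le_div_iff₀ hs0]
    have h1 : 101 * N * k ≤ n * k := by gcongr
    have h2 : 101 * N * k = 101 / 100 := by rw [hk]; field_simp
    linarith
  let t : X → ℝ := fun x => if x ∈ Y then n * a1 x / s else 0
  have ht0 : ∀ x, 0 ≤ t x := fun x => by
    simp only [t]; split_ifs
    · exact div_nonneg (mul_nonneg hn0.le (ha10 x).le) hs0.le
    · exact le_rfl
  have hteq : ∀ x ∈ Y, t x = n / s * μ x + n * k / s := by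
    intro x hx
    simp only [t, hx, if_true, a1]
    field_simp
  have htn : ∑ x, t x = n := by
    simp only [t]
    rw [← Finset.sum_filter]
    simp only [Finset.filter_mem_eq_inter, Finset.univ_inter]
    rw [← Finset.sum_div, ← Finset.mul_sum, ← hs]
    field_simp
  obtain ⟨m, hmn, hm⟩ := exists_nat_round t ht0 htn
  have hm1 : ∀ x ∈ Y, n / s * μ x ≤ m x := by
    intro x hx
    have h1 : (⌊t x⌋₊ : ℝ) ≤ m x := by exact_mod_cast (hm x).1
    have h2 := Nat.lt_floor_add_one (t x)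
    have h3 := hteq x hx
    linarith
  have hm2 : ∀ x ∈ Y, (m x : ℝ) ≤ n / s * a x := by
    intro x hx
    have h1 : (m x : ℝ) ≤ ⌈t x⌉₊ := by exact_mod_cast (hm x).2
    have h2 := Nat.ceil_lt_add_one (ht0 x)
    have h3 := hteq x hx
    have h4 : n / s * a x = n / s * μ x + 2 * (n * k / s) := by
      simp only [a]; field_simp
    linarith
  have hYm : ∀ v, v ∈ Y ↔ m v ≠ 0 := by
    intro v
    refine ⟨fun hv h => ?_, fun h => ?_⟩
    · have h1 := (hm v).1
      rw [h] at h1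
      have h2 : 1 ≤ t v := by
        have := hteq v hv
        have : 0 ≤ n / s * μ v := mul_nonneg (by positivity) (hμ0 v)
        linarith
      have := (Nat.one_le_floor_iff _).mpr h2
      omega
    · by_contra hv
      have h1 := (hm v).2
      simp only [t, hv, if_false, Nat.ceil_zero] at h1
      omega
  have hmT : ∀ T : Finset X, T ⊆ Y → ∑ v ∈ T, (m v : ℝ) ≤ n / s * ∑ v ∈ T, a v := by
    intro T hT
    rw [Finset.mul_sum]
    exact Finset.sum_le_sum fun v hv => hm2 v (hT hv)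
  have hmn' : ∀ T : Finset X, ∑ v ∈ T, (m v : ℝ) ≤ n := by
    intro T
    rw [← hmn]; push_cast
    exact Finset.sum_le_sum_of_subset_of_nonneg (subset_univ _) fun x _ _ => by positivity
  have hsmall : ∀ T : Finset X, T ⊆ Y → T.Nonempty → ∑ x ∈ T, μ x ≤ 1 / 2 → ∀ r : ℝ, 0 ≤ r →
      r ≤ n → K * s / (n : ℝ) ^ 2 * ((∑ v ∈ T, (m v : ℝ)) * r)
        ≤ ∑ v ∈ T, ∑ w ∈ Y \ T, c v w := by
    intro T hT hTne hTμ r hr0 hr
    refine le_trans ?_ (hY2 T hT hTne hTμ)
    have h1 := hmT T hT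
    have h2 : 0 ≤ ∑ v ∈ T, a v := Finset.sum_nonneg fun v _ => (ha0 v).le
    calc K * s / (n : ℝ) ^ 2 * ((∑ v ∈ T, (m v : ℝ)) * r)
        ≤ K * s / (n : ℝ) ^ 2 * ((n / s * ∑ v ∈ T, a v) * n) := by gcongr
      _ = K * ∑ v ∈ T, a v := by field_simp
  have key := gap_ge_of_mult m hmn Y hYm hcs hc0 hd htri (φ := K * s / (n : ℝ) ^ 2)
    (D := (n / s) ^ 2 * B) (by positivity) (by positivity) ?_ hA ?_
  · refine le_trans ?_ key
    have : K * s / (n : ℝ) ^ 2 * ((n / s) ^ 2 * B) / A = K * B / (s * A) := by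
      field_simp
    rw [this]
    gcongr
    linarith
  · intro T hT hTne hTY
    by_cases h : ∑ x ∈ T, μ x ≤ 1 / 2
    · exact hsmall T hT hTne h _ (Finset.sum_nonneg fun v _ => by positivity) (hmn' _)
    · have h1 : ∑ x ∈ Y \ T, μ x ≤ 1 / 2 := by
        have := Finset.sum_sdiff (f := μ) hT
        linarith
      have h2 : (Y \ T).Nonempty := by
        rw [Finset.sdiff_nonempty]
        exact fun h => hTY (Finset.Subset.antisymm hT h)
      have h3 := hsmall (Y \ T) sdiff_subset h2 h1 (∑ v ∈ T, (m v : ℝ))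
        (Finset.sum_nonneg fun v _ => by positivity) (hmn' _)
      rw [Finset.sdiff_sdiff_eq_self hT, Finset.sum_comm] at h3
      rw [mul_comm (∑ v ∈ T, (m v : ℝ))]
      refine h3.trans (le_of_eq ?_)
      exact Finset.sum_congr rfl fun v _ => Finset.sum_congr rfl fun w _ => hcs _ _
  · calc (n / s) ^ 2 * B ≤ (n / s) ^ 2 * ∑ x ∈ Y, ∑ y ∈ Y, μ x * μ y * d x y :=
          mul_le_mul_of_nonneg_left (hspread Y hμY) (by positivity)
      _ = ∑ x ∈ Y, ∑ y ∈ Y, (n / s * μ x) * (n / s * μ y) * d x y := by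
          rw [Finset.mul_sum]
          refine Finset.sum_congr rfl fun x _ => ?_
          rw [Finset.mul_sum]
          exact Finset.sum_congr rfl fun y _ => by ring
      _ ≤ ∑ x ∈ Y, ∑ y ∈ Y, (m x : ℝ) * m y * d x y := by
          refine Finset.sum_le_sum fun x hx => Finset.sum_le_sum fun y hy => ?_
          refine mul_le_mul_of_nonneg_right ?_ (hd.nonneg x y)
          exact mul_le_mul (hm1 x hx) (hm1 y hy)
            (mul_nonneg (by positivity) (hμ0 y)) (by positivity)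
      _ ≤ ∑ x ∈ Y, ∑ y, (m x : ℝ) * m y * d x y :=
          Finset.sum_le_sum fun x _ => Finset.sum_le_sum_of_subset_of_nonneg (subset_univ _)
            fun y _ _ => mul_nonneg (by positivity) (hd.nonneg x y)
      _ ≤ ∑ x, ∑ y, (m x : ℝ) * m y * d x y :=
          Finset.sum_le_sum_of_subset_of_nonneg (subset_univ _)
            fun x _ _ => Finset.sum_nonneg fun y _ => mul_nonneg (by positivity) (hd.nonneg x y)

theorem reduce_proof' : ReduceStmt := by
  intro X _ _ ν C d δ D1 D2 hν0 hν1 hC0 hCs hd htri hδ hD1 hD2 hcut hA hfar N hN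
  have hk := Reduce.negKer hd
  have hfar' : ∑ x, ∑ y, (if d x y < D2 then ν x * ν y else 0) ≤ 1 / 10 := by
    rw [Finset.sum_comm]
    calc ∑ y, ∑ x, (if d x y < D2 then ν x * ν y else 0)
        = ∑ y, ν y * ∑ x, ν x * ind (d x y < D2) := by
          refine Finset.sum_congr rfl fun y _ => ?_
          rw [Finset.mul_sum]
          refine Finset.sum_congr rfl fun x _ => ?_
          unfold ind
          split_ifs <;> ring
      _ ≤ ∑ y, ν y * (1 / 10) :=
          Finset.sum_le_sum fun y _ => mul_le_mul_of_nonneg_left (hfar y) (hν0 y)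
      _ = 1 / 10 := by rw [← Finset.sum_mul, hν1, one_mul]
  have key := Reduce.main ν hν0 hν1 hCs hC0 hk htri (K := 1 / (10 * δ)) (A := D1)
    (B := D2 * ((1 - 1 / 4) ^ 2 - 1 / 10)) (by positivity) (by positivity) hD1
    (fun S h1 h2 => ?_) hA
    (fun Y hY => spread_of_far ν hν0 hk.nonneg hD2.le (by norm_num) hfar' Y hY) hN
  · refine le_trans ?_ key
    rw [div_le_div_iff₀ (by positivity) (by positivity)]
    have : 1 / (10 * δ) * (D2 * ((1 - 1 / 4) ^ 2 - 1 / 10)) * (100 * δ * D1)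
        = D2 * D1 * (37 / 8) := by field_simp; norm_num
    rw [this]
    have := mul_pos hD2 hD1
    nlinarith
  · have h := hcut S
    rw [div_le_iff₀ (by positivity)]
    nlinarith

theorem reduce_proof (_hN : NegStmt) (_hG : GapStmt) : ReduceStmt := reduce_proof'

end Vale.Agent.P318.M
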