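import Vale.Agent.P318.M.Stmt

/-!
Collapse of the bad vertices and snowflake.
-/

namespace Vale.Agent.P318.M

open Finset MeasureTheory ProbabilityTheory

namespace MetricAux

lemma ind_pos {P : Prop} (h : P) : ind P = 1 := by unfold ind; exact if_pos h

lemma ind_neg {P : Prop} (h : ¬ P) : ind P = 0 := by unfold ind; exact if_neg h

lemma ind_nonneg (P : Prop) : 0 ≤ ind P := by
  by_cases h : P
  · rw [ind_pos h]; exact zero_le_one
  · rw [ind_neg h]

lemma ind_le_one (P : Prop) : ind P ≤ 1 := by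
  by_cases h : P
  · rw [ind_pos h]
  · rw [ind_neg h]; exact zero_le_one

lemma rpow_le_add {x α : ℝ} (hx : 0 ≤ x) (h0 : 0 < α) (h1 : α ≤ 1) : x ^ α ≤ x + 1 := by
  rcases le_total x 1 with h | h
  · have := Real.rpow_le_one hx h h0.le
    linarith
  · have := Real.rpow_le_rpow_of_exponent_le h h1
    rw [Real.rpow_one] at this
    linarith

section

variable {ι : Type} [Fintype ι] [DecidableEq ι]

omit [Fintype ι] [DecidableEq ι] in
lemma zz_eq (y : ι → ℝ) (b : ι → Bool) (j : ι) :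
    zz y b j = Int.fract (y j) - if b j then 1 else 0 := by
  unfold zz pt
  have := Int.floor_add_fract (y j)
  cases b j <;> simp <;> linarith

omit [DecidableEq ι] in
lemma zz_le {ω : ℝ} (hR : RampAt ω) (hω : 0 < ω) (y : ι → ℝ) (b : ι → Bool)
    (h : wt (py ω y) b ≠ 0) (j : ι) : |zz y b j| ≤ 1 / 2 + ω := by
  have h1 : wt1 (py ω y j) (b j) ≠ 0 := (Finset.prod_ne_zero_iff.1 h) j (mem_univ j)
  rw [zz_eq]
  have f0 := Int.fract_nonneg (y j)
  have f1 := Int.fract_lt_one (y j)
  cases hb : b j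
  · rw [hb] at h1
    have h2 : pr ω (y j) ≠ 1 := by
      intro h3
      apply h1
      simp [wt1, py, h3]
    have := hR.pr_ne_one _ h2
    rw [abs_le]
    constructor <;> simp <;> linarith
  · rw [hb] at h1
    have h2 : pr ω (y j) ≠ 0 := by
      intro h3
      apply h1
      simp [wt1, py, h3]
    have := hR.pr_ne_zero _ h2
    rw [abs_le]
    constructor <;> simp <;> linarith

lemma zz_upd_le {ω : ℝ} (hR : RampAt ω) (hω : 0 < ω) (y : ι → ℝ) (b : ι → Bool)
    (h : wt (py ω y) b ≠ 0) (j : ι) (hj : dpr ω (y j) ≠ 0) (e : Bool) (i : ι) :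
    |zz y (Function.update b j e) i| ≤ 1 / 2 + ω := by
  by_cases hi : i = j
  · subst hi
    have h1 : 0 < ee ω (y i) := by
      rcases (hR.ee_nonneg (y i)).eq_or_lt with h2 | h2
      · exfalso
        apply hj
        unfold dpr
        rw [← h2]
        simp
      · exact h2
    have h2 := abs_lt.1 (hR.ee_supp _ h1)
    rw [zz_eq, Function.update_self]
    have f0 := Int.fract_nonneg (y i)
    have f1 := Int.fract_lt_one (y i)
    rw [abs_le]
    cases e <;> constructor <;> simp <;> linarith [h2.1, h2.2]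
  · have := zz_le hR hω y b h i
    rw [zz_eq] at this ⊢
    rwa [Function.update_of_ne hi]

lemma zz_upd_sum (y : ι → ℝ) (b : ι → Bool) (j : ι) (e : Bool) :
    ∑ i, |zz y (Function.update b j e) i - zz y b i| ≤ 1 := by
  rw [Finset.sum_eq_single j]
  · rw [zz_eq, zz_eq, Function.update_self]
    cases e <;> cases b j <;> simp
  · intro i _ hi
    rw [zz_eq, zz_eq, Function.update_of_ne hi]
    simp
  · intro h
    exact absurd (mem_univ j) h

omit [Fintype ι] in
lemma pt_upd (y : ι → ℝ) (b : ι → Bool) (j : ι) :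
    pt y (Function.update b j false) = pt y (Function.update b j true) + Pi.single j 1 := by
  funext i
  by_cases hi : i = j
  · subst hi
    simp [pt]
  · simp [pt, Function.update_of_ne hi, Pi.single_eq_of_ne hi]

lemma Eb_mono {p : ι → ℝ} (hp : ∀ b, 0 ≤ wt p b) {F G : (ι → Bool) → ℝ}
    (h : ∀ b, wt p b ≠ 0 → F b ≤ G b) : Eb p F ≤ Eb p G := by
  unfold Eb
  refine Finset.sum_le_sum fun b _ => ?_
  by_cases hb : wt p b = 0
  · simp [hb]
  · exact mul_le_mul_of_nonneg_left (h b hb) (hp b)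

lemma Eb_nonneg {p : ι → ℝ} (hp : ∀ b, 0 ≤ wt p b) {F : (ι → Bool) → ℝ}
    (h : ∀ b, 0 ≤ F b) : 0 ≤ Eb p F :=
  Finset.sum_nonneg fun b _ => mul_nonneg (hp b) (h b)

lemma Eb_aff {p : ι → ℝ} (h1 : ∑ b, wt p b = 1) (a k : ℝ) (F : (ι → Bool) → ℝ) :
    Eb p (fun b => a + k * F b) = a + k * Eb p F := by
  unfold Eb
  have : ∀ b, wt p b * (a + k * F b) = a * wt p b + k * (wt p b * F b) := fun b => by ring
  simp only [this, Finset.sum_add_distrib, ← Finset.mul_sum, h1, mul_one]

end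

section

variable {ι κ : Type} [Fintype κ]

lemma meas_aff (s : ι → κ → ℤ) (c : ι → ℝ) : Measurable fun β : κ → ℝ => c + lin s β := by
  refine measurable_pi_lambda _ fun j => ?_
  simp only [Pi.add_apply, lin, ip]
  fun_prop

lemma integrable_of_BM {F : (κ → ℝ) → ℝ} (h : BM F) : Integrable F (cube κ) := by
  obtain ⟨hm, C, hC⟩ := h
  exact Integrable.of_bound hm.aestronglyMeasurable C (Filter.Eventually.of_forall hC)

lemma tm_mono {F G : (κ → ℝ) → ℝ} (h0 : ∀ β, 0 ≤ F β) (hG : Integrable G (cube κ))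
    (h : ∀ β, F β ≤ G β) : tm F ≤ tm G :=
  integral_mono_of_nonneg (Filter.Eventually.of_forall h0) hG (Filter.Eventually.of_forall h)

end

/-- The indicator of a short arc. -/
noncomputable def arc (x : ℝ) : ℝ := ind (Int.fract x < 1 / 40)

lemma arc_BM : BM arc := by
  refine ⟨?_, 1, fun x => ?_⟩
  · unfold arc ind
    exact Measurable.ite (measurableSet_lt measurable_fract measurable_const) measurable_const
      measurable_const
  · unfold arc
    rw [abs_of_nonneg (ind_nonneg _)]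
    exact ind_le_one _

lemma arc_per (x : ℝ) (n : ℤ) : arc (x + n) = arc x := by
  unfold arc
  rw [Int.fract_add_intCast]

lemma arc_int : ∫ x in (0 : ℝ)..1, arc x ≤ 1 / 40 := by
  rw [intervalIntegral.integral_of_le zero_le_one, integral_Ioc_eq_integral_Ioo]
  have h1 : ∫ x in Set.Ioo (0 : ℝ) 1, arc x =
      ∫ x in Set.Ioo (0 : ℝ) 1, (Set.Iio (1 / 40 : ℝ)).indicator (fun _ => (1 : ℝ)) x := by
    refine setIntegral_congr_fun measurableSet_Ioo fun x hx => ?_
    have hf : Int.fract x = x := Int.fract_eq_self.2 ⟨hx.1.le, hx.2⟩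
    unfold arc
    rw [hf]
    by_cases h : x < 1 / 40
    · rw [ind_pos h, Set.indicator_of_mem (show x ∈ Set.Iio (1 / 40 : ℝ) from h)]
    · rw [ind_neg h, Set.indicator_of_notMem (show x ∉ Set.Iio (1 / 40 : ℝ) from h)]
  rw [h1, integral_indicator measurableSet_Iio, Measure.restrict_restrict measurableSet_Iio]
  have h2 : Set.Iio (1 / 40 : ℝ) ∩ Set.Ioo 0 1 = Set.Ioo 0 (1 / 40) := by
    ext x
    simp only [Set.mem_inter_iff, Set.mem_Iio, Set.mem_Ioo]
    constructor
    · rintro ⟨h1, h2, _⟩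
      exact ⟨h2, h1⟩
    · rintro ⟨h1, h2⟩
      exact ⟨h2, h1, by linarith⟩
  rw [h2]
  simp

lemma far_of_arc {w : ℝ} (h : ¬ Int.fract (w + 1 / 80) < 1 / 40) (m : ℤ) : 1 / 80 ≤ |w + m| := by
  have h1 := Int.floor_add_fract (w + 1 / 80)
  have h2 := Int.fract_lt_one (w + 1 / 80)
  push Not at h
  rcases le_or_gt 0 (⌊w + 1 / 80⌋ + m) with h3 | h3
  · have h4 : (0 : ℝ) ≤ (⌊w + 1 / 80⌋ : ℝ) + m := by exact_mod_cast h3
    exact le_abs.2 (Or.inl (by linarith))
  · have h4 : ⌊w + 1 / 80⌋ + m + 1 ≤ 0 := h3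
    have h5 : (⌊w + 1 / 80⌋ : ℝ) + m + 1 ≤ 0 := by exact_mod_cast h4
    exact le_abs.2 (Or.inr (by linarith))

/-- If two vectors are close then most coordinates fall in the short arc. -/
lemma count_arc {ι : Type} [Fintype ι] [Nonempty ι] (y v v' : ι → ℝ) (x : ι → ℤ)
    (hv : ∀ j, |v j - ((x j : ℝ) + y j)| ≤ 1 / 160)
    (hs : ∑ j, (v j - v' j) ^ 2 < (Fintype.card ι : ℝ) / 51200) :
    1 ≤ 2 / (Fintype.card ι : ℝ) * ∑ j, arc (y j - v' j + 1 / 80) := by
  have hn : (0 : ℝ) < Fintype.card ι := by exact_mod_cast Fintype.card_pos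
  have h1 : ∀ j, 1 - arc (y j - v' j + 1 / 80) ≤ 25600 * (v j - v' j) ^ 2 := by
    intro j
    unfold arc
    by_cases h : Int.fract (y j - v' j + 1 / 80) < 1 / 40
    · rw [ind_pos h]
      have := sq_nonneg (v j - v' j)
      linarith
    · rw [ind_neg h]
      have h2 := far_of_arc h (x j)
      have h3 : 1 / 160 ≤ |v j - v' j| := by
        have h4 : y j - v' j + x j = (v j - v' j) - (v j - ((x j : ℝ) + y j)) := by ring
        have h5 := abs_sub (v j - v' j) (v j - ((x j : ℝ) + y j))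
        rw [← h4] at h5
        linarith [hv j]
      have h6 : (1 / 160 : ℝ) ^ 2 ≤ |v j - v' j| ^ 2 := pow_le_pow_left₀ (by norm_num) h3 2
      rw [sq_abs] at h6
      linarith
  have h2 := Finset.sum_le_sum fun j (_ : j ∈ (univ : Finset ι)) => h1 j
  rw [Finset.sum_sub_distrib, ← Finset.mul_sum] at h2
  simp only [sum_const, card_univ, nsmul_eq_mul, mul_one] at h2
  rw [div_mul_eq_mul_div, le_div_iff₀ hn]
  linarith

end MetricAux

open MetricAux

theorem metric_proof (hR : RampStmt) (hT : TorusStmt) (hB : BitStmt) (_hD : DerivStmt)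
    (hTri : TriStmt) (hN : NegStmt) (hRho : RhoStmt) : MetricStmt := by
  classical
  intro ι κ Φ _ _ _ _ _ Γ s Sp lam Kp ω1 δn δ0 δ1 Cn L1 m A N E1 Q c ω ω5 E0 α pb hG hs hω0 hω1
    hω5 hC5 hw hE hα0 hα1 hαK hpb hBM htm
  have hRa : RampAt ω := hR.2 ω hω0 (by linarith)
  obtain ⟨N1, N2, -, -, -, -, N7, -, N9⟩ := hN
  obtain ⟨R1, R2, R3, R4, R5, R6⟩ := hRho ι κ Φ Γ s Sp lam Kp ω1 δn δ0 δ1 Cn L1 m A N E1 Q c hG
  have hTr := hTri ι κ Φ Γ s Sp lam Kp ω1 δn δ0 δ1 Cn L1 m A N E1 Q ω c hG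
  have hw0 : ∀ (y : ι → ℝ) b, 0 ≤ wt (py ω y) b := fun y =>
    (hB ι (py ω y) fun i => ⟨hRa.pr_nonneg _, hRa.pr_le _⟩).1
  have hw1 : ∀ y : ι → ℝ, ∑ b, wt (py ω y) b = 1 := fun y =>
    (hB ι (py ω y) fun i => ⟨hRa.pr_nonneg _, hRa.pr_le _⟩).2.1
  set Gd : (ι → ℤ) → Prop := fun x =>
    Good ω ω1 (Kp / 32) (1 / 2 + ω1 - δn) E1 s Q (vv s Sp c x) with hGd
  set ρ := rho s Sp c lam A N with hρ
  have hρ0 : ∀ x x', 0 ≤ ρ x x' := N1 _ _ R1
  have hn : (0 : ℝ) < Fintype.card ι := by exact_mod_cast Fintype.card_pos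
  -- good samples
  have hgood : ∀ (β : κ → ℝ) (b b' : ι → Bool),
      VG ω ω1 (Kp / 32) E0 s Q (zz (c + lin s β) b) →
      (∀ j, |zz (c + lin s β) b' j| ≤ 1 / 2 + ω) →
      ∑ j, |zz (c + lin s β) b' j - zz (c + lin s β) b j| ≤ 1 →
      Gd (pt (c + lin s β) b') ∧
        ∀ j, |vv s Sp c (pt (c + lin s β) b') j - zz (c + lin s β) b' j| ≤ ω5 := by
    intro β b b' h1 h2 h3
    have := R6 ω ω5 (Kp / 32) E0 _ _ h1 h2 h3 hC5 hw hE
    simp only [hGd]
    rw [R5 β b']
    exact this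
  obtain ⟨x0, hx0⟩ : ∃ x0, Gd x0 := by
    by_contra hcon
    push Not at hcon
    have h1 : ∀ β : κ → ℝ, (Eb (py ω (c + lin s β)) fun b =>
        ind (¬ VG ω ω1 (Kp / 32) E0 s Q (zz (c + lin s β) b))) = 1 := by
      intro β
      rw [← hw1 (c + lin s β)]
      unfold Eb
      refine Finset.sum_congr rfl fun b _ => ?_
      by_cases hb : wt (py ω (c + lin s β)) b = 0
      · simp [hb]
      · beta_reduce
        rw [ind_pos, mul_one]
        intro hv
        exact hcon _ (hgood β b b hv (zz_le hRa hω0 _ b hb) (by simp)).1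
    simp only [h1] at htm
    have h2 : tm (fun _ : κ → ℝ => (1 : ℝ)) = 1 := by simp [tm]
    linarith
  set φ : (ι → ℤ) → (ι → ℤ) := fun x => if Gd x then x else x0 with hφ
  have hφg : ∀ x, Gd (φ x) := by
    intro x
    by_cases h : Gd x
    · simp only [hφ, if_pos h]; exact h
    · simp only [hφ, if_neg h]; exact hx0
  have hφi : ∀ x, Gd x → φ x = x := fun x h => by simp only [hφ, if_pos h]
  have hτ : 1 / 2 + ω1 - δn ≤ 1 := by
    have h1 := hG.om_le
    have h2 : Kp ^ 3 ≤ 1 := pow_le_one₀ hG.Kp_pos.le hG.Kp_le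
    have h3 := hG.dn_pos
    linarith
  have hbd : ∀ x x', ρ (φ x) (φ x') ^ α ≤ 4 * Fintype.card ι + A + 1 := by
    intro x x'
    refine (rpow_le_add (hρ0 _ _) hα0 hα1).trans ?_
    have h1 := (R3 (φ x) (φ x')).2
    have h2 : ∑ j, (vv s Sp c (φ x) j - vv s Sp c (φ x') j) ^ 2 ≤ ∑ _j : ι, (4 : ℝ) := by
      refine Finset.sum_le_sum fun j _ => ?_
      have a1 := abs_le.1 (((hφg x).1 j).trans hτ)
      have a2 := abs_le.1 (((hφg x').1 j).trans hτ)
      nlinarith [a1.1, a1.2, a2.1, a2.2]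
    simp only [sum_const, card_univ, nsmul_eq_mul] at h2
    linarith
  have hint : Integrable (fun β : κ → ℝ => Eb (py ω (c + lin s β)) fun b =>
      ind (¬ VG ω ω1 (Kp / 32) E0 s Q (zz (c + lin s β) b))) (cube κ) := by
    obtain ⟨hm, C, hC⟩ := hBM
    exact integrable_of_BM ⟨hm.comp (meas_aff s c), C, fun β => hC _⟩
  have hA := hG.A_pos
  refine ⟨fun x x' => ρ (φ x) (φ x') ^ α, ?_, ?_, ?_, ⟨_, hbd⟩, ?_, ?_⟩
  · exact N7 _ _ α (N2 _ _ ρ φ R1) hα0 hα1
  · intro x y z
    refine N9 _ _ _ Kp α (hρ0 _ _) (hρ0 _ _) (hρ0 _ _) hG.Kp_pos.le hα0 hα1 hαK ?_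
    have t1 := hTr _ _ _ (hφg x) (hφg y) (hφg z)
    have t2 := hTr _ _ _ (hφg z) (hφg y) (hφg x)
    rw [R1.2.1 (φ z) (φ x), R1.2.1 (φ z) (φ y), R1.2.1 (φ y) (φ x)] at t2
    rcases le_total (ρ (φ x) (φ y)) (ρ (φ y) (φ z)) with h | h
    · rw [min_eq_left h]; exact t1
    · rw [min_eq_right h]; linarith
  · intro x' r0 hr0 r hr x
    obtain ⟨e1, e2⟩ := R4 r0 hr0 r hr x
    by_cases h : Gd x
    · have h' : Gd (x + r) := by simp only [hGd]; rw [e1]; exact h
      show ρ (φ (x + r)) (φ x') ^ α = ρ (φ x) (φ x') ^ α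
      rw [hφi _ h, hφi _ h', e2]
    · have h' : ¬ Gd (x + r) := by simp only [hGd]; rw [e1]; exact h
      show ρ (φ (x + r)) (φ x') ^ α = ρ (φ x) (φ x') ^ α
      simp only [hφ, if_neg h, if_neg h']
  · set K : ℝ := 4 * Fintype.card ι + A + 1 with hK
    have hK0 : 0 ≤ K := by rw [hK]; linarith
    have hc0 : 0 ≤ (Fintype.card ι : ℝ) / ω := div_nonneg hn.le hω0.le
    refine (tm_mono (G := fun β : κ → ℝ => Fintype.card ι / ω * (2 + K *
      Eb (py ω (c + lin s β)) fun b => ind (¬ VG ω ω1 (Kp / 32) E0 s Q (zz (c + lin s β) b))))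
      (fun β => ?_) ?_ fun β => ?_).trans ?_
    · exact Finset.sum_nonneg fun j _ => mul_nonneg (hRa.dpr_nonneg _)
        (Eb_nonneg (hw0 _) fun b => Real.rpow_nonneg (hρ0 _ _) _)
    · exact ((integrable_const _).add (hint.const_mul K)).const_mul _
    · rw [← Eb_aff (hw1 _)]
      set y := c + lin s β with hy
      set Z := Eb (py ω y) fun b => 2 + K * ind (¬ VG ω ω1 (Kp / 32) E0 s Q (zz y b)) with hZ
      have hZ0 : 0 ≤ Z := Eb_nonneg (hw0 _) fun b =>
        add_nonneg zero_le_two (mul_nonneg hK0 (ind_nonneg _))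
      have h1 : ∀ j, dpr ω (y j) * (Eb (py ω y) fun b =>
          ρ (φ (pt y (Function.update b j true))) (φ (pt y (Function.update b j false))) ^ α) ≤
          1 / ω * Z := by
        intro j
        by_cases hj : dpr ω (y j) = 0
        · rw [hj, zero_mul]
          positivity
        refine mul_le_mul (hRa.dpr_le _) (Eb_mono (hw0 _) fun b hb => ?_)
          (Eb_nonneg (hw0 _) fun b => Real.rpow_nonneg (hρ0 _ _) _) (by positivity)
        by_cases hv : VG ω ω1 (Kp / 32) E0 s Q (zz y b)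
        · have g1 := (hgood β b (Function.update b j true) hv
            (zz_upd_le hRa hω0 _ b hb j hj true) (zz_upd_sum _ b j true)).1
          have g2 := (hgood β b (Function.update b j false) hv
            (zz_upd_le hRa hω0 _ b hb j hj false) (zz_upd_sum _ b j false)).1
          rw [hφi _ g1, hφi _ g2, pt_upd, ind_neg (not_not.2 hv), mul_zero, add_zero]
          calc _ ≤ (2 : ℝ) ^ α := Real.rpow_le_rpow (hρ0 _ _) (R2 _ j) hα0.le
            _ ≤ (2 : ℝ) ^ (1 : ℝ) := Real.rpow_le_rpow_of_exponent_le one_le_two hα1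
            _ = 2 := Real.rpow_one 2
        · rw [ind_pos hv, mul_one]
          linarith [hbd (pt y (Function.update b j true)) (pt y (Function.update b j false))]
      refine (Finset.sum_le_sum fun j _ => h1 j).trans (le_of_eq ?_)
      simp only [sum_const, card_univ, nsmul_eq_mul]
      ring
    · unfold tm at htm ⊢
      rw [integral_const_mul, integral_add (integrable_const _) (hint.const_mul K),
        integral_const_mul]
      simp only [integral_const, probReal_univ, smul_eq_mul, one_mul]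
      refine mul_le_mul_of_nonneg_left ?_ hc0
      nlinarith [mul_le_mul_of_nonneg_left htm hK0]
  · intro x'
    set v' := vv s Sp c (φ x') with hv'
    have hai : ∀ j, Integrable (fun β : κ → ℝ => arc ((c + lin s β) j - v' j + 1 / 80))
        (cube κ) := by
      intro j
      obtain ⟨hm, C, hC⟩ := arc_BM
      refine integrable_of_BM ⟨hm.comp ?_, C, fun β => hC _⟩
      exact (((measurable_pi_apply j).comp (meas_aff s c)).sub_const _).add_const _
    have ham : ∀ j, ∫ β, arc ((c + lin s β) j - v' j + 1 / 80) ∂cube κ ≤ 1 / 40 := by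
      intro j
      obtain ⟨k, hk⟩ := hs j
      have h1 := (hT κ).2.2.2.2 arc (s j) k (c j - v' j + 1 / 80) arc_BM arc_per hk
      refine le_trans (le_of_eq ?_) arc_int
      rw [← h1]
      unfold tm
      congr 1
      funext β
      congr 1
      simp only [Pi.add_apply, lin]
      ring
    have hsi : Integrable (fun β : κ → ℝ => 2 / (Fintype.card ι : ℝ) *
        ∑ j, arc ((c + lin s β) j - v' j + 1 / 80)) (cube κ) :=
      (integrable_finsetSum _ fun j _ => hai j).const_mul _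
    refine (tm_mono (G := fun β : κ → ℝ => 2 / (Fintype.card ι : ℝ) *
        ∑ j, arc ((c + lin s β) j - v' j + 1 / 80) + 1 *
      Eb (py ω (c + lin s β)) fun b => ind (¬ VG ω ω1 (Kp / 32) E0 s Q (zz (c + lin s β) b)))
      (fun β => ?_) ?_ fun β => ?_).trans ?_
    · exact Eb_nonneg (hw0 _) fun b => ind_nonneg _
    · exact hsi.add (hint.const_mul 1)
    · rw [← Eb_aff (hw1 _)]
      refine Eb_mono (hw0 _) fun b hb => ?_
      beta_reduce
      have ha0 : 0 ≤ 2 / (Fintype.card ι : ℝ) * ∑ j, arc ((c + lin s β) j - v' j + 1 / 80) :=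
        mul_nonneg (by positivity) (Finset.sum_nonneg fun j _ => ind_nonneg _)
      by_cases hv : VG ω ω1 (Kp / 32) E0 s Q (zz (c + lin s β) b)
      · obtain ⟨g1, g2⟩ := hgood β b b hv (zz_le hRa hω0 _ b hb) (by simp)
        rw [ind_neg (not_not.2 hv), mul_zero, add_zero]
        by_cases hd : ρ (φ (pt (c + lin s β) b)) (φ x') ^ α < ((Fintype.card ι : ℝ) / 51200) ^ α
        · rw [ind_pos hd]
          rw [hφi _ g1] at hd
          have h2 : ρ (pt (c + lin s β) b) (φ x') < (Fintype.card ι : ℝ) / 51200 :=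
            lt_of_not_ge fun h3 => absurd (Real.rpow_le_rpow (by positivity) h3 hα0.le)
              (not_le.2 hd)
          refine count_arc (c + lin s β) (vv s Sp c (pt (c + lin s β) b)) v'
            (pt (c + lin s β) b) (fun j => ?_) (lt_of_le_of_lt (R3 _ _).1 h2)
          exact (g2 j).trans (by linarith)
        · rw [ind_neg hd]
          exact ha0
      · rw [ind_pos hv]
        linarith [ind_le_one (ρ (φ (pt (c + lin s β) b)) (φ x') ^ α <
          ((Fintype.card ι : ℝ) / 51200) ^ α)]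
    · unfold tm at htm ⊢
      rw [integral_add hsi (hint.const_mul 1), integral_const_mul, integral_const_mul,
        integral_finsetSum _ fun j _ => hai j]
      have h2 := Finset.sum_le_sum fun j (_ : j ∈ (univ : Finset ι)) => ham j
      simp only [sum_const, card_univ, nsmul_eq_mul] at h2
      have h3 : 2 / (Fintype.card ι : ℝ) *
          ∑ j, ∫ β, arc ((c + lin s β) j - v' j + 1 / 80) ∂cube κ ≤ 1 / 20 := by
        refine (mul_le_mul_of_nonneg_left h2 (by positivity)).trans (le_of_eq ?_)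
        field_simp
        norm_num
      linarith

end Vale.Agent.P318.M
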