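import Vale.Agent.P318.M.Stmt

/-! Kernels of negative type. -/

namespace Vale.Agent.P318.M

open Finset MeasureTheory

namespace Neg

theorem nonneg {X : Type} {ρ : X → X → ℝ} (h : CND ρ) (x y : X) : 0 ≤ ρ x y := by
  have h1 := h.2.2 2 ![x, y] ![1, -1] (by simp [Fin.sum_univ_two])
  simp only [Fin.sum_univ_two, Matrix.cons_val_zero, Matrix.cons_val_one, h.1] at h1
  rw [h.2.1 y x] at h1
  linarith

theorem comp {X Y : Type} {ρ : X → X → ℝ} (φ : Y → X) (h : CND ρ) :
    CND fun a b => ρ (φ a) (φ b) :=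
  ⟨fun _ => h.1 _, fun _ _ => h.2.1 _ _, fun n x a ha => h.2.2 n (fun i => φ (x i)) a ha⟩

theorem add {X : Type} {ρ ρ' : X → X → ℝ} {a : ℝ} (h : CND ρ) (h' : CND ρ') (ha : 0 ≤ a) :
    CND fun x y => ρ x y + a * ρ' x y := by
  refine ⟨fun x => by simp [h.1, h'.1], fun x y => by simp only [h.2.1 x y, h'.2.1 x y],
    fun n x b hb => ?_⟩
  have h1 := h.2.2 n x b hb
  have h2 := mul_nonpos_of_nonneg_of_nonpos ha (h'.2.2 n x b hb)
  have : ∑ i, ∑ j, b i * b j * (ρ (x i) (x j) + a * ρ' (x i) (x j)) =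
      ∑ i, ∑ j, b i * b j * ρ (x i) (x j) + a * ∑ i, ∑ j, b i * b j * ρ' (x i) (x j) := by
    rw [Finset.mul_sum, ← Finset.sum_add_distrib]
    refine Finset.sum_congr rfl fun i _ => ?_
    rw [Finset.mul_sum, ← Finset.sum_add_distrib]
    exact Finset.sum_congr rfl fun j _ => by ring
  rw [this]; linarith

/-- The quadratic form of a product kernel. -/
theorem quad_prod {n : ℕ} (a u v : Fin n → ℝ) :
    ∑ i, ∑ j, a i * a j * (u i * v j) = (∑ i, a i * u i) * ∑ j, a j * v j := by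
  rw [Finset.sum_mul_sum]
  exact Finset.sum_congr rfl fun i _ => Finset.sum_congr rfl fun j _ => by ring

theorem quad_sum {n : ℕ} {L : Type} [Fintype L] (a : Fin n → ℝ) (k : L → Fin n → Fin n → ℝ) :
    ∑ i, ∑ j, a i * a j * ∑ l, k l i j = ∑ l, ∑ i, ∑ j, a i * a j * k l i j := by
  simp_rw [Finset.mul_sum]
  rw [Finset.sum_comm (s := univ) (t := univ) (f := fun l i => ∑ j, a i * a j * k l i j)]
  exact Finset.sum_congr rfl fun i _ => Finset.sum_comm

theorem sq1 {n : ℕ} (a u : Fin n → ℝ) (ha : ∑ i, a i = 0) :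
    ∑ i, ∑ j, a i * a j * (u i - u j) ^ 2 ≤ 0 := by
  have e : ∀ i j, a i * a j * (u i - u j) ^ 2 =
      a i * a j * (u i ^ 2 * 1) + a i * a j * (1 * u j ^ 2) - 2 * (a i * a j * (u i * u j)) :=
    fun i j => by ring
  simp_rw [e, Finset.sum_sub_distrib, Finset.sum_add_distrib, ← Finset.mul_sum]
  have h1 := quad_prod a (fun i => u i ^ 2) (fun _ => 1)
  have h2 := quad_prod a (fun _ => 1) (fun i => u i ^ 2)
  have h3 := quad_prod a u u
  simp only [mul_one, ha, mul_zero, zero_mul] at h1 h2 ⊢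
  rw [h1, h2, h3]
  nlinarith [mul_self_nonneg (∑ i, a i * u i)]

theorem euclid {X ι : Type} [Fintype ι] (v : X → ι → ℝ) :
    CND fun x y => ∑ j, (v x j - v y j) ^ 2 := by
  refine ⟨fun x => by simp, fun x y => Finset.sum_congr rfl fun j _ => by ring,
    fun n x a ha => ?_⟩
  rw [quad_sum a fun l i j => (v (x i) l - v (x j) l) ^ 2]
  exact Finset.sum_nonpos fun l _ => sq1 a (fun i => v (x i) l) ha

theorem cosk {X Φ : Type} [Fintype Φ] (a : X → Φ → ℝ) :
    CND fun x y => ∑ l, (1 - Real.cos (a x l - a y l)) := by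
  have h := add (euclid fun x l => Real.cos (a x l) / Real.sqrt 2)
    (euclid fun x l => Real.sin (a x l) / Real.sqrt 2) zero_le_one
  have e : (fun x y => ∑ l, (1 - Real.cos (a x l - a y l))) = fun x y =>
      ∑ l, (Real.cos (a x l) / Real.sqrt 2 - Real.cos (a y l) / Real.sqrt 2) ^ 2 +
        1 * ∑ l, (Real.sin (a x l) / Real.sqrt 2 - Real.sin (a y l) / Real.sqrt 2) ^ 2 := by
    funext x y
    rw [one_mul, ← Finset.sum_add_distrib]
    refine Finset.sum_congr rfl fun l _ => ?_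
    rw [← sub_div, ← sub_div, div_pow, div_pow, Real.sq_sqrt (by norm_num), Real.cos_sub]
    nlinarith [Real.sin_sq_add_cos_sq (a x l), Real.sin_sq_add_cos_sq (a y l)]
  rw [e]; exact h

/-- The Gram matrix of a kernel of negative type. -/
theorem gram {n : ℕ} {d : Fin n → Fin n → ℝ} (h : CND d) :
    ∃ u : Fin n → Fin n → ℝ, ∀ i j, d i j = ∑ l, (u i l - u j l) ^ 2 := by
  classical
  rcases Nat.eq_zero_or_pos n with rfl | hn
  · exact ⟨fun _ _ => 0, fun i => i.elim0⟩
  let o : Fin n := ⟨0, hn⟩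
  let G : Matrix (Fin n) (Fin n) ℝ := fun i j => (d i o + d j o - d i j) / 2
  have hG : G.PosSemidef := by
    refine Matrix.PosSemidef.of_dotProduct_mulVec_nonneg ?_ fun a => ?_
    · ext i j
      rw [Matrix.conjTranspose_apply, star_trivial]
      change (d j o + d i o - d j i) / 2 = (d i o + d j o - d i j) / 2
      rw [h.2.1 j i]; ring
    · set S := ∑ i, a i with hS
      have h1 := h.2.2 n id (fun i => a i - if i = o then S else 0) (by
        rw [Finset.sum_sub_distrib]; simp [← hS])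
      have e1 : ∑ i, ∑ j, (a i - if i = o then S else 0) * (a j - if j = o then S else 0) *
          d (id i) (id j) = ∑ i, ∑ j, a i * a j * d i j - 2 * (S * ∑ i, a i * d i o) := by
        have e : ∀ i j, (a i - if i = o then S else 0) * (a j - if j = o then S else 0) *
            d (id i) (id j) = a i * a j * d i j - (if j = o then S * (a i * d i j) else 0) -
              (if i = o then S * (a j * d j i) else 0) +
              (if i = o then (if j = o then S * S * d i j else 0) else 0) := by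
          intro i j
          simp only [id]
          rw [h.2.1 j i]
          split_ifs <;> ring
        simp_rw [e, Finset.sum_add_distrib, Finset.sum_sub_distrib]
        rw [Finset.sum_comm (f := fun i j => if i = o then S * (a j * d j i) else 0),
          Finset.sum_comm (f := fun i j =>
            if i = o then (if j = o then S * S * d i j else 0) else 0)]
        simp [h.1, ← Finset.mul_sum]
        ring
      have e2 : dotProduct (star a) (G.mulVec a) =
          (2 * (S * ∑ i, a i * d i o) - ∑ i, ∑ j, a i * a j * d i j) / 2 := by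
        have e : ∀ i j, a i * (G i j * a j) = (a i * a j * (d i o * 1) + a i * a j * (1 * d j o) -
            a i * a j * d i j) / 2 := fun i j => by simp only [G]; ring
        simp only [dotProduct, Matrix.mulVec, star_trivial, Finset.mul_sum, Pi.star_apply]
        simp_rw [e, ← Finset.sum_div, Finset.sum_sub_distrib, Finset.sum_add_distrib]
        rw [quad_prod a (fun i => d i o) (fun _ => 1), quad_prod a (fun _ => 1) (fun i => d i o)]
        simp only [mul_one, ← hS, ← Finset.mul_sum]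
        ring
      rw [e2]; rw [e1] at h1; linarith
  open MatrixOrder in
  obtain ⟨B, hB⟩ := CStarAlgebra.nonneg_iff_eq_star_mul_self.mp hG.nonneg
  refine ⟨fun i l => B l i, fun i j => ?_⟩
  have hk : ∀ i j, G i j = ∑ l, B l i * B l j := fun i j => by
    rw [hB]; simp [Matrix.mul_apply]
  have e : ∑ l, (B l i - B l j) ^ 2 = G i i + G j j - 2 * G i j := by
    rw [hk, hk, hk, Finset.mul_sum, ← Finset.sum_add_distrib, ← Finset.sum_sub_distrib]
    exact Finset.sum_congr rfl fun l _ => by ring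
  rw [e]; simp only [G, h.1]; ring

theorem embed {n : ℕ} {d : Fin n → Fin n → ℝ} (h : CND d) :
    ∃ x : Fin n → EuclideanSpace ℝ (Fin n), ∀ i j, d i j = ‖x i - x j‖ ^ 2 := by
  obtain ⟨u, hu⟩ := gram h
  refine ⟨fun i => WithLp.toLp 2 (u i), fun i j => ?_⟩
  rw [hu, EuclideanSpace.norm_sq_eq]
  simp

theorem pow_pd {n : ℕ} (u : Fin n → Fin n → ℝ) (k : ℕ) (a : Fin n → ℝ) :
    0 ≤ ∑ i, ∑ j, a i * a j * (∑ l, u i l * u j l) ^ k := by
  induction k generalizing a with
  | zero =>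
    have := quad_prod a (fun _ => 1) (fun _ => 1)
    simp only [pow_zero, mul_one] at this ⊢
    rw [this]; exact mul_self_nonneg _
  | succ k ih =>
    have e : ∀ i j, (∑ l, u i l * u j l) ^ (k + 1) =
        ∑ l', u i l' * u j l' * (∑ l, u i l * u j l) ^ k := fun i j => by
      rw [pow_succ', Finset.sum_mul]
    simp_rw [e]
    rw [quad_sum a fun l' i j => u i l' * u j l' * (∑ l, u i l * u j l) ^ k]
    refine Finset.sum_nonneg fun l' _ => ?_
    have := ih fun i => a i * u i l'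
    refine this.trans_eq (Finset.sum_congr rfl fun i _ => Finset.sum_congr rfl fun j _ => ?_)
    ring

theorem exp_gram {n : ℕ} (u : Fin n → Fin n → ℝ) {t : ℝ} (ht : 0 ≤ t) (a : Fin n → ℝ) :
    0 ≤ ∑ i, ∑ j, a i * a j * Real.exp (t * ∑ l, u i l * u j l) := by
  have hs : HasSum (fun k : ℕ => ∑ i, ∑ j, a i * a j *
      ((t * ∑ l, u i l * u j l) ^ k / (k.factorial : ℝ)))
      (∑ i, ∑ j, a i * a j * Real.exp (t * ∑ l, u i l * u j l)) := by
    refine hasSum_sum fun i _ => hasSum_sum fun j _ => HasSum.mul_left _ ?_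
    rw [Real.exp_eq_exp_ℝ]
    exact NormedSpace.expSeries_div_hasSum_exp _
  refine hs.nonneg fun k => ?_
  have := mul_nonneg (div_nonneg (pow_nonneg ht k) (Nat.cast_nonneg k.factorial)) (pow_pd u k a)
  refine this.trans_eq ?_
  rw [Finset.mul_sum]
  refine Finset.sum_congr rfl fun i _ => ?_
  rw [Finset.mul_sum]
  refine Finset.sum_congr rfl fun j _ => ?_
  rw [mul_pow]; ring

/-- Schoenberg: `exp (-t ρ)` is positive definite. -/
theorem exp_pd {X : Type} {ρ : X → X → ℝ} (h : CND ρ) {t : ℝ} (ht : 0 ≤ t) (n : ℕ)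
    (x : Fin n → X) (a : Fin n → ℝ) :
    0 ≤ ∑ i, ∑ j, a i * a j * Real.exp (-(t * ρ (x i) (x j))) := by
  obtain ⟨u, hu⟩ := gram (comp x h)
  have := exp_gram u (t := 2 * t) (by linarith) fun i => a i * Real.exp (-(t * ∑ l, u i l ^ 2))
  refine this.trans_eq (Finset.sum_congr rfl fun i _ => Finset.sum_congr rfl fun j _ => ?_)
  have e : ∑ l, (u i l - u j l) ^ 2 = ∑ l, u i l ^ 2 + ∑ l, u j l ^ 2 - 2 * ∑ l, u i l * u j l := by
    rw [Finset.mul_sum, ← Finset.sum_add_distrib, ← Finset.sum_sub_distrib]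
    exact Finset.sum_congr rfl fun l _ => by ring
  have hij := hu i j
  rw [hij, e, show -(t * (∑ l, u i l ^ 2 + ∑ l, u j l ^ 2 - 2 * ∑ l, u i l * u j l)) =
    -(t * ∑ l, u i l ^ 2) + -(t * ∑ l, u j l ^ 2) + 2 * t * ∑ l, u i l * u j l by ring,
    Real.exp_add, Real.exp_add]
  ring

theorem quad_const {n : ℕ} (a : Fin n → ℝ) (ha : ∑ i, a i = 0) (c : ℝ) (k : Fin n → Fin n → ℝ) :
    ∑ i, ∑ j, a i * a j * (c - k i j) = -∑ i, ∑ j, a i * a j * k i j := by
  have h1 := quad_prod a (fun _ => c) (fun _ => 1)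
  simp only [mul_one, ha, mul_zero] at h1
  simp_rw [mul_sub, Finset.sum_sub_distrib]
  rw [h1, zero_sub]

theorem expk {X : Type} {ρ : X → X → ℝ} {t : ℝ} (h : CND ρ) (ht : 0 ≤ t) :
    CND fun x y => 1 - Real.exp (-(t * ρ x y)) := by
  refine ⟨fun x => by simp [h.1], fun x y => by simp only [h.2.1 x y], fun n x a ha => ?_⟩
  rw [quad_const a ha 1 fun i j => Real.exp (-(t * ρ (x i) (x j)))]
  exact neg_nonpos.2 (exp_pd h ht n x a)

theorem inv_pd {X : Type} {ρ : X → X → ℝ} (h : CND ρ) {t : ℝ} (ht : 0 < t) (n : ℕ)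
    (x : Fin n → X) (a : Fin n → ℝ) :
    0 ≤ ∑ i, ∑ j, a i * a j * (t + ρ (x i) (x j))⁻¹ := by
  have hneg : ∀ i j, -(t + ρ (x i) (x j)) < 0 := fun i j => by
    have := nonneg h (x i) (x j); linarith
  have e : ∀ i j, (t + ρ (x i) (x j))⁻¹ =
      ∫ s in Set.Ioi (0 : ℝ), Real.exp (-(t + ρ (x i) (x j)) * s) := fun i j => by
    rw [integral_exp_mul_Ioi (hneg i j)]
    simp only [mul_zero, Real.exp_zero]
    rw [neg_div_neg_eq, one_div]
  have hI : ∀ i j, Integrable (fun s => a i * a j * Real.exp (-(t + ρ (x i) (x j)) * s))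
      (volume.restrict (Set.Ioi (0 : ℝ))) := fun i j =>
    (integrableOn_exp_mul_Ioi (hneg i j) 0).const_mul _
  simp_rw [e, ← integral_const_mul]
  simp_rw [← integral_finsetSum _ fun j _ => hI _ j]
  rw [← integral_finsetSum _ fun i _ => integrable_finsetSum _ fun j _ => hI i j]
  refine setIntegral_nonneg measurableSet_Ioi fun s hs => ?_
  have := mul_nonneg (Real.exp_pos (-(t * s))).le (exp_pd h (le_of_lt hs) n x a)
  refine this.trans_eq ?_
  rw [Finset.mul_sum]
  refine Finset.sum_congr rfl fun i _ => ?_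
  rw [Finset.mul_sum]
  refine Finset.sum_congr rfl fun j _ => ?_
  rw [show -(t + ρ (x i) (x j)) * s = -(t * s) + -(s * ρ (x i) (x j)) by ring, Real.exp_add]
  ring

theorem rpowk {X : Type} {ρ : X → X → ℝ} {α : ℝ} (h : CND ρ) (h0 : 0 < α) (h1 : α ≤ 1) :
    CND fun x y => ρ x y ^ α := by
  rcases eq_or_lt_of_le h1 with rfl | h1
  · simpa using h
  refine ⟨fun x => by simp [h.1, h0.ne'], fun x y => by simp only [h.2.1 x y], fun n x a ha => ?_⟩
  obtain ⟨μ, hμ⟩ := Real.exists_measure_rpow_eq_integral_rpowIntegrand₀₁ (p := α) ⟨h0, h1⟩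
  have hI : ∀ i j, Integrable (fun s => a i * a j * Real.rpowIntegrand₀₁ α s (ρ (x i) (x j)))
      (μ.restrict (Set.Ioi (0 : ℝ))) := fun i j =>
    (hμ _ (nonneg h (x i) (x j))).1.const_mul _
  have e : ∀ i j, ρ (x i) (x j) ^ α =
      ∫ s in Set.Ioi (0 : ℝ), Real.rpowIntegrand₀₁ α s (ρ (x i) (x j)) ∂μ := fun i j =>
    (hμ _ (nonneg h (x i) (x j))).2
  simp_rw [e, ← integral_const_mul]
  simp_rw [← integral_finsetSum _ fun j _ => hI _ j]
  rw [← integral_finsetSum _ fun i _ => integrable_finsetSum _ fun j _ => hI i j]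
  refine setIntegral_nonpos measurableSet_Ioi fun s hs => ?_
  have h2 := quad_const a ha s⁻¹ fun i j => (s + ρ (x i) (x j))⁻¹
  have h3 := mul_nonneg (Real.rpow_nonneg (le_of_lt hs) α) (inv_pd h hs n x a)
  have h4 : ∑ i, ∑ j, a i * a j * Real.rpowIntegrand₀₁ α s (ρ (x i) (x j)) =
      s ^ α * ∑ i, ∑ j, a i * a j * (s⁻¹ - (s + ρ (x i) (x j))⁻¹) := by
    rw [Finset.mul_sum]
    refine Finset.sum_congr rfl fun i _ => ?_
    rw [Finset.mul_sum]
    refine Finset.sum_congr rfl fun j _ => ?_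
    rw [Real.rpowIntegrand₀₁]; ring
  rw [h4, h2]; linarith

theorem conc {α a b h : ℝ} (h0 : 0 < α) (h1 : α ≤ 1) (ha : 0 ≤ a) (hab : a ≤ b) (hh : 0 ≤ h) :
    (b + h) ^ α + a ^ α ≤ (a + h) ^ α + b ^ α := by
  rcases eq_or_lt_of_le hh with rfl | hh
  · simp [add_comm]
  have hT : 0 < b + h - a := by linarith
  have hc := Real.concaveOn_rpow h0.le h1
  set l := h / (b + h - a) with hl
  have hl0 : 0 ≤ l := div_nonneg hh.le hT.le
  have hl1 : 0 ≤ 1 - l := by rw [hl, sub_nonneg, div_le_one hT]; linarith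
  have hlT : l * (b + h - a) = h := div_mul_cancel₀ _ hT.ne'
  have m1 : a ∈ Set.Ici (0 : ℝ) := ha
  have m2 : b + h ∈ Set.Ici (0 : ℝ) := by simp only [Set.mem_Ici]; linarith
  have c1 := hc.2 m1 m2 hl0 hl1 (by ring)
  have c2 := hc.2 m1 m2 hl1 hl0 (by ring)
  simp only [smul_eq_mul] at c1 c2
  rw [show l * a + (1 - l) * (b + h) = b by linarith] at c1
  rw [show (1 - l) * a + l * (b + h) = a + h by linarith] at c2
  linarith

theorem snow1 {a b c Kp α : ℝ} (ha : 0 ≤ a) (hab : a ≤ b) (hc : 0 ≤ c) (hK : 0 ≤ Kp)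
    (h0 : 0 < α) (h1 : α ≤ 1) (h2 : (2 + Kp) ^ α ≤ 2) (h : c ≤ a + b + Kp * a) :
    c ^ α ≤ a ^ α + b ^ α := by
  have e1 : c ^ α ≤ (b + (1 + Kp) * a) ^ α := Real.rpow_le_rpow hc (by linarith) h0.le
  have e2 := conc h0 h1 ha hab (h := (1 + Kp) * a) (by positivity)
  have e3 : (a + (1 + Kp) * a) ^ α = (2 + Kp) ^ α * a ^ α := by
    rw [← Real.mul_rpow (by linarith) ha]; congr 1; ring
  have e4 : (2 + Kp) ^ α * a ^ α ≤ 2 * a ^ α :=
    mul_le_mul_of_nonneg_right h2 (Real.rpow_nonneg ha α)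
  linarith

end Neg

theorem neg_proof : NegStmt := by
  refine ⟨fun _ _ h => Neg.nonneg h, fun _ _ _ φ h => Neg.comp φ h,
    fun _ _ _ _ h h' ha => Neg.add h h' ha, fun _ _ _ v => Neg.euclid v,
    fun _ _ _ a => Neg.cosk a, fun _ _ _ h ht => Neg.expk h ht,
    fun _ _ _ h h0 h1 => Neg.rpowk h h0 h1, fun _ _ h => Neg.embed h,
    fun a b c Kp α ha hb hc hK h0 h1 h2 h => ?_⟩
  rcases le_total a b with hab | hab
  · rw [min_eq_left hab] at h
    exact Neg.snow1 ha hab hc hK h0 h1 h2 h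
  · rw [min_eq_right hab] at h
    rw [add_comm]
    exact Neg.snow1 hb hab hc hK h0 h1 h2 (by linarith)

end Vale.Agent.P318.M
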