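import Vale.Agent.P318.M.Chernoff

/-!
One-sided weighted tail bounds (Hoeffding and Bernstein form) for sums of functions of the
positions when the offsets are uniform.
-/

namespace Vale.Agent.P318.M

open Finset MeasureTheory

namespace Chernoff

variable {ι : Type} [Fintype ι] [DecidableEq ι]

/-- Product formula: the positions are independent when the offsets are uniform. -/
lemma tm_Eb_prod {ω : ℝ} (hR : RampAt ω) (φ : ι → ℝ → ℝ) (t : ι → ℝ) :
    tm (fun c : ι → ℝ => Eb (py ω (c + t)) fun b => ∏ j, φ j (zz (c + t) b j)) =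
      ∏ j, zmean ω (φ j) := by
  simp only [Eb_prod_zz, zmean_eq]
  exact tm_prod (fun j => mix ω (φ j)) (fun j => mix_per hR _) t

/-- Markov bound from one-dimensional exponential moments. -/
lemma tail_of_mgf {ω : ℝ} (hR : RampAt ω) (ψ : ι → ℝ → ℝ) (a v : ι → ℝ) (t : ι → ℝ) (E θ : ℝ)
    (hθ : 0 ≤ θ) (hψ : ∀ j, Measurable (ψ j)) (hb : ∀ j z, |z| ≤ 1 → |ψ j z| ≤ a j)
    (hv : ∀ j, zmean ω (fun z => Real.exp (θ * ψ j z)) ≤ Real.exp (v j)) :
    tm (fun c : ι → ℝ => Eb (py ω (c + t)) fun b => ind (E ≤ ∑ j, ψ j (zz (c + t) b j))) ≤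
      Real.exp (∑ j, v j - θ * E) := by
  let G : ι → ℝ → ℝ := fun j => mix ω fun z => Real.exp (θ * ψ j z)
  have hGm : ∀ j, Measurable (G j) := fun j => mix_meas hR (by have := hψ j; fun_prop)
  have hGb : ∀ j y, |G j y| ≤ Real.exp (θ * a j) := by
    intro j y
    refine abs_mix_le hR (fun z hz => ?_) y
    rw [abs_of_pos (Real.exp_pos _)]
    exact Real.exp_le_exp.2 (mul_le_mul_of_nonneg_left ((le_abs_self _).trans (hb j z hz)) hθ)
  have hG0 : ∀ j y, 0 ≤ G j y := by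
    intro j y
    have := mix_le hR (φ := fun _ => 0)
      (ψ := fun z => Real.exp (θ * ψ j z)) (fun _ _ => (Real.exp_pos _).le) y
    rwa [mix_const] at this
  have hint : Integrable (fun c : ι → ℝ => ∏ j, G j ((c + t) j)) (cube ι) := by
    refine Integrable.of_bound (Measurable.aestronglyMeasurable ?_)
      (∏ j : ι, Real.exp (θ * a j)) (Filter.Eventually.of_forall fun c => ?_)
    · exact Finset.measurable_prod _ fun j _ => (hGm j).comp (by fun_prop)
    · rw [Real.norm_eq_abs, abs_prod]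
      exact prod_le_prod (fun _ _ => abs_nonneg _) fun j _ => hGb j _
  have htm : tm (fun c : ι → ℝ => ∏ j, G j ((c + t) j)) ≤ Real.exp (∑ j, v j) := by
    rw [tm_prod G (fun j => mix_per hR _) t, Real.exp_sum]
    exact prod_le_prod (fun j _ => intervalIntegral.integral_nonneg zero_le_one
      fun y _ => hG0 j y) fun j _ => hv j
  have hpt : ∀ c : ι → ℝ, (Eb (py ω (c + t)) fun b => ind (E ≤ ∑ j, ψ j (zz (c + t) b j))) ≤
      Real.exp (-(θ * E)) * ∏ j, G j ((c + t) j) := by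
    intro c
    simp only [G]
    rw [← Eb_prod_zz, ← Eb_const_mul]
    refine Eb_mono (py_mem hR _) fun b => ?_
    simp only [← Real.exp_sum, ← mul_sum]
    set S := ∑ j, ψ j (zz (c + t) b j)
    by_cases h : E ≤ S
    · rw [ind_pos h, ← Real.exp_add]
      exact Real.one_le_exp (by nlinarith)
    · rw [ind_neg h]
      positivity
  have h1 : tm (fun c : ι → ℝ => Eb (py ω (c + t)) fun b =>
      ind (E ≤ ∑ j, ψ j (zz (c + t) b j))) ≤
      tm fun c : ι → ℝ => Real.exp (-(θ * E)) * ∏ j, G j ((c + t) j) :=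
    integral_mono_of_nonneg
      (Filter.Eventually.of_forall fun c => Eb_nonneg (py_mem hR _) fun b => ind_nonneg _)
      (hint.const_mul _) (Filter.Eventually.of_forall hpt)
  refine h1.trans ?_
  unfold tm at htm ⊢
  rw [integral_const_mul]
  refine (mul_le_mul_of_nonneg_left htm (Real.exp_pos _).le).trans (le_of_eq ?_)
  rw [← Real.exp_add]
  congr 1
  ring

/-- Weighted one-sided Hoeffding bound. -/
theorem tail_hoeffding {ω : ℝ} (hR : RampAt ω) (φ : ι → ℝ → ℝ) (a : ι → ℝ) (t : ι → ℝ)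
    (E θ : ℝ) (hθ : 0 ≤ θ) (hφ : ∀ j, Measurable (φ j))
    (hb : ∀ j z, |z| ≤ 1 → |φ j z| ≤ a j) :
    tm (fun c : ι → ℝ => Eb (py ω (c + t)) fun b =>
        ind (E ≤ ∑ j, (φ j (zz (c + t) b j) - zmean ω (φ j)))) ≤
      Real.exp (2 * θ ^ 2 * ∑ j, a j ^ 2 - θ * E) := by
  have ha : ∀ j, 0 ≤ a j := fun j => (abs_nonneg _).trans (hb j 0 (by simp))
  have := tail_of_mgf hR (fun j z => φ j z - zmean ω (φ j)) (fun j => 2 * a j)
    (fun j => θ ^ 2 * (2 * a j ^ 2)) t E θ hθ (fun j => (hφ j).sub_const _)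
    (fun j z hz => (abs_sub _ _).trans (by linarith [hb j z hz, abs_zmean_le hR (hb j)]))
    (fun j => by
      rcases (ha j).eq_or_lt with h0 | h0
      · have h1 : ∀ z, |z| ≤ 1 → |φ j z - zmean ω (φ j)| ≤ 0 := fun z hz =>
          (abs_sub _ _).trans (by linarith [hb j z hz, abs_zmean_le hR (hb j)])
        have h2 : |zmean ω fun z => Real.exp (θ * (φ j z - zmean ω (φ j)))| ≤ 1 :=
          abs_zmean_le hR fun z hz => by rw [abs_nonpos_iff.1 (h1 z hz)]; simp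
        refine ((le_abs_self _).trans h2).trans (Real.one_le_exp (by positivity))
      · exact int_mix_exp_le hR (hφ j) h0 (hb j) θ)
  refine this.trans (le_of_eq ?_)
  congr 2
  rw [mul_sum]
  exact sum_congr rfl fun _ _ => by ring

lemma zmean_mono {ω : ℝ} (hR : RampAt ω) {φ ψ : ℝ → ℝ} (hφ : Measurable φ) (hψ : Measurable ψ)
    {a b : ℝ} (ha : ∀ z, |z| ≤ 1 → |φ z| ≤ a) (hb : ∀ z, |z| ≤ 1 → |ψ z| ≤ b)
    (h : ∀ z, |z| ≤ 1 → φ z ≤ ψ z) : zmean ω φ ≤ zmean ω ψ :=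
  intervalIntegral.integral_mono zero_le_one (ii_of_bound (mix_meas hR hφ) (abs_mix_le hR ha))
    (ii_of_bound (mix_meas hR hψ) (abs_mix_le hR hb)) (mix_le hR h)

lemma zmean_const (ω c : ℝ) : zmean ω (fun _ => c) = c := by
  rw [zmean_eq]
  simp [mix_const]

lemma zmean_add {ω : ℝ} (hR : RampAt ω) {φ ψ : ℝ → ℝ} (hφ : Measurable φ) (hψ : Measurable ψ)
    {a b : ℝ} (ha : ∀ z, |z| ≤ 1 → |φ z| ≤ a) (hb : ∀ z, |z| ≤ 1 → |ψ z| ≤ b) :
    zmean ω (fun z => φ z + ψ z) = zmean ω φ + zmean ω ψ := by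
  simp only [zmean_eq]
  rw [← intervalIntegral.integral_add (ii_of_bound (mix_meas hR hφ) (abs_mix_le hR ha))
    (ii_of_bound (mix_meas hR hψ) (abs_mix_le hR hb))]
  congr 1
  funext t
  unfold mix
  ring

lemma zmean_const_mul (ω c : ℝ) (φ : ℝ → ℝ) : zmean ω (fun z => c * φ z) = c * zmean ω φ := by
  simp only [zmean_eq]
  rw [← intervalIntegral.integral_const_mul]
  congr 1
  funext t
  unfold mix
  ring

/-- One-dimensional Bernstein moment bound: `|φ| ≤ a`, `|θ| a ≤ 1` give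
`E exp(θ φ) ≤ exp(θ E φ + θ² E φ²)`. -/
lemma zmean_exp_le {ω : ℝ} (hR : RampAt ω) {φ : ℝ → ℝ} (hφ : Measurable φ) {a θ : ℝ}
    (hb : ∀ z, |z| ≤ 1 → |φ z| ≤ a) (hθ : |θ| * a ≤ 1) :
    zmean ω (fun z => Real.exp (θ * φ z)) ≤
      Real.exp (θ * zmean ω φ + θ ^ 2 * zmean ω fun z => φ z ^ 2) := by
  have hx : ∀ z, |z| ≤ 1 → |θ * φ z| ≤ 1 := fun z hz => by
    rw [abs_mul]
    exact (mul_le_mul_of_nonneg_left (hb z hz) (abs_nonneg _)).trans hθ
  have hsq : ∀ z, |z| ≤ 1 → |φ z ^ 2| ≤ a ^ 2 := fun z hz => by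
    rw [abs_pow]
    exact pow_le_pow_left₀ (abs_nonneg _) (hb z hz) 2
  have hsq' : ∀ z, |z| ≤ 1 → |θ ^ 2 * φ z ^ 2| ≤ 1 := fun z hz => by
    rw [← mul_pow, abs_pow]
    exact pow_le_one₀ (abs_nonneg _) (hx z hz)
  have h12 : ∀ z, |z| ≤ 1 → |θ * φ z + θ ^ 2 * φ z ^ 2| ≤ 1 + 1 := fun z hz =>
    (abs_add_le _ _).trans (add_le_add (hx z hz) (hsq' z hz))
  have h1 : zmean ω (fun z => Real.exp (θ * φ z)) ≤
      zmean ω (fun z => 1 + (θ * φ z + θ ^ 2 * φ z ^ 2)) := by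
    refine zmean_mono hR (by fun_prop) (by fun_prop) (a := Real.exp 1) (b := 1 + (1 + 1))
      (fun z hz => ?_) (fun z hz => ?_) fun z hz => ?_
    · rw [abs_of_pos (Real.exp_pos _)]
      exact Real.exp_le_exp.2 ((le_abs_self _).trans (hx z hz))
    · exact (abs_add_le _ _).trans (add_le_add (by simp) (h12 z hz))
    · have := abs_le.1 (Real.abs_exp_sub_one_sub_id_le (hx z hz))
      rw [mul_pow] at this
      linarith [this.2]
  refine h1.trans ?_
  rw [zmean_add hR (by fun_prop) (by fun_prop) (a := 1) (fun _ _ => by simp) h12,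
    zmean_add hR (by fun_prop) (by fun_prop) hx hsq', zmean_const, zmean_const_mul,
    zmean_const_mul, add_comm]
  exact Real.add_one_le_exp _

/-- One-sided Bernstein bound: `|φ j| ≤ a`, `θ a ≤ 1`. -/
theorem tail_bernstein {ω : ℝ} (hR : RampAt ω) (φ : ι → ℝ → ℝ) (a : ℝ) (t : ι → ℝ)
    (E θ : ℝ) (hθ : 0 ≤ θ) (hθa : θ * a ≤ 1) (hφ : ∀ j, Measurable (φ j))
    (hb : ∀ j z, |z| ≤ 1 → |φ j z| ≤ a) :
    tm (fun c : ι → ℝ => Eb (py ω (c + t)) fun b =>
        ind (E ≤ ∑ j, (φ j (zz (c + t) b j) - zmean ω (φ j)))) ≤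
      Real.exp (θ ^ 2 * ∑ j, zmean ω (fun z => φ j z ^ 2) - θ * E) := by
  have := tail_of_mgf hR φ (fun _ => a)
    (fun j => θ * zmean ω (φ j) + θ ^ 2 * zmean ω fun z => φ j z ^ 2) t
    (E + ∑ j, zmean ω (φ j)) θ hθ hφ hb
    (fun j => zmean_exp_le hR (hφ j) (hb j) (by rwa [abs_of_nonneg hθ]))
  simp only [sum_sub_distrib, le_sub_iff_add_le]
  refine this.trans (le_of_eq ?_)
  congr 1
  rw [sum_add_distrib, ← mul_sum, ← mul_sum]
  ring

end Chernoff

end Vale.Agent.P318.M
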