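import Vale.Agent.P318.M.Chernoff

/-!
There is an offset for which almost all samples are very good.
-/

namespace Vale.Agent.P318.M

open Finset MeasureTheory

namespace GoodAux

open Chernoff

variable {ι : Type} [Fintype ι] [DecidableEq ι]

omit [Fintype ι] [DecidableEq ι] in
lemma zz_meas (b : ι → Bool) (j : ι) : Measurable fun y : ι → ℝ => zz y b j := by
  simp only [zz_eq]
  exact (measurable_fract.comp (measurable_pi_apply j)).sub_const _

lemma ind_meas {α : Type*} [MeasurableSpace α] {P : α → Prop} (h : MeasurableSet {x | P x}) :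
    Measurable fun x => ind (P x) := by
  unfold ind
  exact @Measurable.ite _ _ _ _ _ _ P (fun x => Classical.propDecidable (P x)) h
    measurable_const measurable_const

lemma Eb_meas {ω : ℝ} (hR : RampAt ω) {F : (ι → ℝ) → (ι → Bool) → ℝ}
    (hF : ∀ b, Measurable fun y => F y b) : Measurable fun y => Eb (py ω y) (F y) := by
  unfold Eb wt
  refine Finset.measurable_sum _ fun b _ => Measurable.mul ?_ (hF b)
  refine Finset.measurable_prod _ fun j _ => ?_
  have h1 : Measurable fun y : ι → ℝ => pr ω (y j) := hR.pr_meas.comp (measurable_pi_apply j)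
  unfold wt1 py
  split_ifs
  · exact h1
  · exact measurable_const.sub h1

lemma Eb_ind_bm {ω : ℝ} (hR : RampAt ω) {P : (ι → ℝ) → (ι → Bool) → Prop}
    (hP : ∀ b, MeasurableSet {y | P y b}) :
    Measurable (fun y => Eb (py ω y) fun b => ind (P y b)) ∧
      ∀ y, |Eb (py ω y) fun b => ind (P y b)| ≤ 1 := by
  refine ⟨Eb_meas hR fun b => ind_meas (hP b), fun y => ?_⟩
  rw [abs_of_nonneg (Eb_nonneg (py_mem hR y) fun b => ind_nonneg _), ← Eb_one (py ω y)]
  exact Eb_mono (py_mem hR y) fun b => ind_le_one _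

lemma gth_meas (ω1 θ0 θ : ℝ) : Measurable (gth ω1 θ0 θ) := by
  unfold gth
  split_ifs <;> fun_prop

lemma abs_gth_le {ω1 θ0 θ z : ℝ} (h0 : 0 ≤ ω1) (h1 : ω1 ≤ 1 / 8) (hθ : |θ| ≤ 1 / 2)
    (hz : |z| ≤ 1) : |gth ω1 θ0 θ z| ≤ 2 := by
  have h2 : |θ * z| ≤ 1 / 2 := by
    rw [abs_mul]
    nlinarith [abs_nonneg θ, abs_nonneg z]
  have h3 := abs_le.1 h2
  have h4 := abs_le.1 hθ
  have h5 := abs_le.1 hz
  unfold gth
  rw [abs_le]
  split_ifs
  · rcases le_total (z - (1 / 2 - ω1 - θ)) 0 with h | h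
    · rw [max_eq_right h]; constructor <;> linarith
    · rw [max_eq_left h]; constructor <;> linarith
  · rcases le_total (-z - (1 / 2 - ω1 + θ)) 0 with h | h
    · rw [max_eq_right h]; constructor <;> linarith
    · rw [max_eq_left h]; constructor <;> linarith
  · constructor <;> linarith

lemma zmean_mul {ω : ℝ} (hR : RampAt ω) (a : ℝ) : zmean ω (fun z => a * z) = 0 := by
  have h := hR.zmean_id
  unfold zmean at h ⊢
  have e : ∀ t : ℝ, (1 - pr ω t) * (a * Int.fract t) + pr ω t * (a * (Int.fract t - 1)) =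
      a * ((1 - pr ω t) * Int.fract t + pr ω t * (Int.fract t - 1)) := fun t => by ring
  simp only [e]
  rw [intervalIntegral.integral_const_mul, h, mul_zero]

omit [DecidableEq ι] in
lemma meas_tail (φ : ι → ℝ → ℝ) (hφ : ∀ j, Measurable (φ j)) (m : ι → ℝ) (E : ℝ)
    (b : ι → Bool) : MeasurableSet {y : ι → ℝ | E ≤ |∑ j, (φ j (zz y b j) - m j)|} := by
  refine measurableSet_le measurable_const (Measurable.abs ?_)
  exact Finset.measurable_sum _ fun j _ => ((hφ j).comp (zz_meas b j)).sub_const _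

end GoodAux

open Chernoff GoodAux in
theorem good_proof (hR : RampStmt) (hC : ChernoffStmt) : GoodStmt := by
  intro ι κ _ _ _ _ _ s ω ω1 θ0 E0 Q hω hω' h10 h11 _ hE0 hE1 hs
  have hR' := hR.2 ω hω hω'
  have hn : (0 : ℝ) < Fintype.card ι := Nat.cast_pos.2 Fintype.card_pos
  -- the test functions
  let φ : κ ⊕ (κ → Fin Q) → ι → ℝ → ℝ := fun a j =>
    Sum.elim (fun k z => (s j k : ℝ) * z) (fun g => gth ω1 θ0 (th s Q g j)) a
  have hφm : ∀ a j, Measurable (φ a j) := by
    rintro (k | g) j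
    · simp only [φ, Sum.elim_inl]; fun_prop
    · exact gth_meas _ _ _
  have hφb : ∀ a j z, |z| ≤ 1 → |φ a j z| ≤ 2 := by
    rintro (k | g) j z hz
    · simp only [φ, Sum.elim_inl]
      rw [abs_mul]
      nlinarith [hs j k, abs_nonneg (s j k : ℝ), abs_nonneg z]
    · exact abs_gth_le h10 h11 (abs_sub_round _) hz
  have hVG : ∀ z : ι → ℝ, VG ω ω1 θ0 E0 s Q z ↔
      ∀ a, |∑ j, (φ a j (z j) - zmean ω (φ a j))| ≤ E0 := by
    intro z
    unfold VG Mg
    rw [Sum.forall]
    simp only [φ, Sum.elim_inl, Sum.elim_inr, zmean_mul hR', sub_zero, sum_sub_distrib]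
  have hms : ∀ b : ι → Bool, MeasurableSet {y : ι → ℝ | ¬ VG ω ω1 θ0 E0 s Q (zz y b)} := by
    intro b
    simp only [hVG]
    refine MeasurableSet.compl (s := {y : ι → ℝ |
      ∀ a, |∑ j, (φ a j (zz y b j) - zmean ω (φ a j))| ≤ E0}) ?_
    rw [Set.ofPred_forall]
    refine MeasurableSet.iInter fun a => measurableSet_le (Measurable.abs ?_) measurable_const
    exact Finset.measurable_sum _ fun j _ => ((hφm a j).comp (zz_meas b j)).sub_const _
  obtain ⟨hΨm, hΨb⟩ := Eb_ind_bm hR' hms
  set Ψ : (ι → ℝ) → ℝ := fun y => Eb (py ω y) fun b => ind (¬ VG ω ω1 θ0 E0 s Q (zz y b))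
    with hΨ
  refine ⟨⟨hΨm, 1, hΨb⟩, ?_⟩
  set δ : ℝ := 2 * (Fintype.card κ + (Q : ℝ) ^ Fintype.card κ) *
    Real.exp (-(E0 ^ 2 / (64 * Fintype.card ι))) with hδ
  have hc : ∀ t : ι → ℝ, ∫ c, Ψ (c + t) ∂cube ι ≤ δ := by
    intro t
    let T : κ ⊕ (κ → Fin Q) → (ι → ℝ) → ℝ := fun a y => Eb (py ω y) fun b =>
      ind (E0 ≤ |∑ j, (φ a j (zz y b j) - zmean ω (φ a j))|)
    have hT : ∀ a, Integrable (fun c => T a (c + t)) (cube ι) := by
      intro a
      obtain ⟨h1, h2⟩ := Eb_ind_bm hR' (meas_tail (φ a) (hφm a) (fun j => zmean ω (φ a j)) E0)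
      exact Integrable.of_bound (h1.comp (measurable_add_const t)).aestronglyMeasurable 1
        (Filter.Eventually.of_forall fun c => h2 _)
    have hle : ∀ y, Ψ y ≤ ∑ a, T a y := by
      intro y
      simp only [hΨ, T]
      rw [← Eb_sum]
      refine Eb_mono (py_mem hR' y) fun b => ?_
      by_cases h : VG ω ω1 θ0 E0 s Q (zz y b)
      · rw [ind_neg (not_not.2 h)]
        exact sum_nonneg fun a _ => ind_nonneg _
      · rw [ind_pos h]
        rw [hVG] at h
        push Not at h
        obtain ⟨a, ha⟩ := h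
        refine le_trans (le_of_eq (ind_pos ha.le).symm) (single_le_sum
          (f := fun a => ind (E0 ≤ |∑ j, (φ a j (zz y b j) - zmean ω (φ a j))|))
          (fun a _ => ind_nonneg _) (mem_univ a))
    have h1 : ∫ c, Ψ (c + t) ∂cube ι ≤ ∫ c, ∑ a, T a (c + t) ∂cube ι :=
      integral_mono_of_nonneg
        (Filter.Eventually.of_forall fun c => Eb_nonneg (py_mem hR' _) fun b => ind_nonneg _)
        (integrable_finsetSum _ fun a _ => hT a)
        (Filter.Eventually.of_forall fun c => hle _)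
    refine h1.trans ?_
    rw [integral_finsetSum _ fun a _ => hT a]
    have h2 : ∀ a, ∫ c, T a (c + t) ∂cube ι ≤
        2 * Real.exp (-(E0 ^ 2 / (64 * Fintype.card ι))) := by
      intro a
      have := hC ι ω 2 E0 (φ a) t hω hω' (by norm_num) hE0 (by linarith) (hφm a) (hφb a)
      refine this.trans (le_of_eq ?_)
      congr 4
      ring
    refine (sum_le_sum fun a _ => h2 a).trans (le_of_eq ?_)
    rw [sum_const, card_univ, Fintype.card_sum, Fintype.card_fun, Fintype.card_fin, nsmul_eq_mul,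
      hδ]
    push_cast
    ring
  have hlin : Measurable (lin s : (κ → ℝ) → ι → ℝ) := by
    refine measurable_pi_lambda _ fun j => ?_
    unfold lin ip
    fun_prop
  have hF : Integrable (Function.uncurry fun (c : ι → ℝ) (β : κ → ℝ) => Ψ (c + lin s β))
      ((cube ι).prod (cube κ)) :=
    Integrable.of_bound
      (hΨm.comp (measurable_fst.add (hlin.comp measurable_snd))).aestronglyMeasurable 1
      (Filter.Eventually.of_forall fun c => hΨb _)
  have hN : cube ι (Set.univ.pi fun _ : ι => Set.Ioc (0 : ℝ) 1)ᶜ = 0 := by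
    unfold cube
    rw [Measure.restrict_apply (MeasurableSet.univ_pi fun _ => measurableSet_Ioc).compl]
    simp
  obtain ⟨c, hc1, hc2⟩ := exists_notMem_null_le_integral hF.integral_prod_left hN
  refine ⟨c, fun j => ?_, ?_⟩
  · have := (not_not.1 hc1) j (Set.mem_univ j)
    rw [abs_le]
    exact ⟨by linarith [this.1], this.2⟩
  · refine hc2.trans ?_
    simp only [Function.uncurry_apply_pair]
    rw [integral_integral_swap hF]
    have h3 : ∫ β, ∫ c, Ψ (c + lin s β) ∂cube ι ∂cube κ ≤ ∫ _β, δ ∂cube κ :=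
      integral_mono hF.integral_prod_right (integrable_const _) fun β => hc _
    simpa using h3

end Vale.Agent.P318.M
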