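import Vale.Agent.P318.M.Stmt

/-!
Gaussian moves: characteristic function, Bessel inequality, the multiplier `kap`, lattice sums.
-/

namespace Vale.Agent.P318.M

open Finset MeasureTheory ProbabilityTheory
open scoped NNReal

namespace Gauss

lemma ch_add (x y : ℝ) : ch (x + y) = ch x * ch y := by
  rw [ch, ch, ch, ← Complex.exp_add]
  congr 1
  push_cast
  ring

lemma ch_sum {κ : Type} [Fintype κ] (x : κ → ℝ) : ch (∑ k, x k) = ∏ k, ch (x k) := by
  simp only [ch, ← Complex.exp_sum, ← Finset.mul_sum, Complex.ofReal_sum]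

lemma norm_ch (x : ℝ) : ‖ch x‖ = 1 := by
  rw [ch, show 2 * Real.pi * Complex.I * x = ((2 * Real.pi * x : ℝ) : ℂ) * Complex.I by
    push_cast; ring, Complex.norm_exp_ofReal_mul_I]

lemma cont_ch : Continuous ch := by
  unfold ch
  fun_prop

lemma one_dim (v : ℝ≥0) (t : ℝ) : ∫ ξ, ch (t * ξ) ∂gaussianReal 0 v =
    (Real.exp (-(2 * Real.pi ^ 2 * v * t ^ 2)) : ℝ) := by
  have h := charFun_gaussianReal (μ := 0) (v := v) (2 * Real.pi * t)
  rw [charFun_apply_real] at h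
  refine (integral_congr_ae (.of_forall fun ξ => ?_)).trans (h.trans ?_)
  · simp only [ch]
    congr 1
    push_cast
    ring
  · rw [Complex.ofReal_exp]
    congr 1
    push_cast
    ring

variable {κ : Type} [Fintype κ] (σ : ℝ)

lemma char (x : κ → ℝ) : ∫ ξ, ch (∑ k, x k * ξ k) ∂gm κ σ =
    (Real.exp (-(2 * Real.pi ^ 2 * σ ^ 2 * nsq x)) : ℝ) := by
  simp only [ch_sum, gm]
  rw [integral_fintype_prod_eq_prod fun k ξ => ch (x k * ξ)]
  simp only [one_dim, ← Complex.ofReal_prod, ← Real.exp_sum, Real.coe_toNNReal _ (sq_nonneg σ),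
    nsq, Finset.mul_sum, Finset.sum_neg_distrib]

lemma mem2 (k : κ) : MemLp (fun ξ : κ → ℝ => ξ k) 2 (gm κ σ) :=
  (memLp_id_gaussianReal' 2 (by simp)).comp_measurePreserving (measurePreserving_eval _ k)

lemma bessel (a : (κ → ℝ) → ℝ) (ha : BM a) :
    ∑ k, (∫ ξ, ξ k * a ξ ∂gm κ σ) ^ 2 ≤ σ ^ 2 * ∫ ξ, a ξ ^ 2 ∂gm κ σ := by
  obtain ⟨C, hC⟩ := ha.2
  have a2 : MemLp a 2 (gm κ σ) :=
    .of_bound ha.1.aestronglyMeasurable C (.of_forall hC)
  set v : κ → ℝ := fun k => ∫ ξ, ξ k * a ξ ∂gm κ σ with hv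
  set Y : (κ → ℝ) → ℝ := fun ξ => ∑ k, v k * ξ k with hY
  have Y2 : MemLp Y 2 (gm κ σ) := memLp_finsetSum _ fun k _ => (mem2 σ k).const_mul _
  have e0 : ∫ ξ, Y ξ ∂gm κ σ = 0 := by
    rw [integral_finsetSum _ fun k _ => ((mem2 σ k).integrable (by simp)).const_mul _]
    refine Finset.sum_eq_zero fun k _ => ?_
    rw [integral_const_mul, gm, integral_eval, integral_id_gaussianReal, mul_zero]
  have e1 : ∫ ξ, Y ξ ^ 2 ∂gm κ σ = σ ^ 2 * ∑ k, v k ^ 2 := by
    rw [← variance_of_integral_eq_zero Y2.1.aemeasurable e0, show Y = ∑ k, fun ξ => v k * ξ k from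
      funext fun ξ => by simp [hY], gm, variance_sum_pi (X := fun k x => v k * x)
      fun k => (memLp_id_gaussianReal' 2 (by simp)).const_mul _]
    rw [Finset.mul_sum]
    refine Finset.sum_congr rfl fun k _ => (variance_const_mul (v k) (fun x => x) _).trans ?_
    rw [variance_fun_id_gaussianReal, Real.coe_toNNReal _ (sq_nonneg σ), mul_comm]
  have e2 : ∫ ξ, Y ξ * a ξ ∂gm κ σ = ∑ k, v k ^ 2 := by
    simp only [hY, Finset.sum_mul, mul_assoc]
    rw [integral_finsetSum (f := fun k ξ => v k * (ξ k * a ξ)) _ fun k _ =>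
      ((mem2 σ k).integrable_mul a2).const_mul _]
    simp only [integral_const_mul, sq, hv]
  have hd := discrim_le_zero (a := ∫ ξ, a ξ ^ 2 ∂gm κ σ) (b := -2 * ∑ k, v k ^ 2)
    (c := σ ^ 2 * ∑ k, v k ^ 2) fun t => by
      have i1 := a2.integrable_sq.mul_const (t * t)
      have i2 : Integrable (fun ξ => -2 * (Y ξ * a ξ) * t) (gm κ σ) :=
        ((Y2.integrable_mul a2).const_mul _).mul_const _
      rw [← e1, ← e2, ← integral_mul_const, ← integral_const_mul, ← integral_mul_const,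
        ← integral_add i1 i2, ← integral_add (f := fun ξ => a ξ ^ 2 * (t * t) +
          -2 * (Y ξ * a ξ) * t) (i1.add i2) Y2.integrable_sq]
      refine integral_nonneg fun ξ => ?_
      simp only [Pi.zero_apply]
      nlinarith [sq_nonneg (t * a ξ - Y ξ)]
  rw [discrim] at hd
  have p1 : 0 ≤ ∑ k, v k ^ 2 := Finset.sum_nonneg fun _ _ => sq_nonneg _
  have p2 : 0 ≤ σ ^ 2 * ∫ ξ, a ξ ^ 2 ∂gm κ σ :=
    mul_nonneg (sq_nonneg _) (integral_nonneg fun _ => sq_nonneg _)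
  by_contra! h
  nlinarith

/-- the variance of the dual variable -/
noncomputable def tau (ε : ℝ) : ℝ≥0 := Real.toNNReal (1 / (4 * Real.pi ^ 2 * ε ^ 2))

lemma tau_coe (ε : ℝ) : (tau ε : ℝ) = 1 / (4 * Real.pi ^ 2 * ε ^ 2) :=
  Real.coe_toNNReal _ (by positivity)

lemma kap_eq {ε : ℝ} (hε : 0 < ε) (s m : κ → ℤ) : kap σ ε s m = ∫ η,
    ((Real.exp (-(2 * Real.pi ^ 2 * σ ^ 2 * ∑ k, ((m k : ℝ) + -η * s k) ^ 2)) : ℝ) : ℂ)
      ∂gaussianReal 0 (tau ε) := by
  have e : ∀ ξ, (chi ε (ip s ξ) : ℂ) * ch (-ip m ξ) =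
      ∫ η, ch (∑ k, (η * s k - m k) * ξ k) ∂gaussianReal 0 (tau ε) := fun ξ => by
    have : (chi ε (ip s ξ) : ℂ) = ∫ η, ch (ip s ξ * η) ∂gaussianReal 0 (tau ε) := by
      rw [one_dim, tau_coe, chi]
      congr 2
      have := Real.pi_pos
      field_simp
      norm_num
    rw [this, ← integral_mul_const]
    refine integral_congr_ae (.of_forall fun η => ?_)
    simp only [← ch_add, ip, sub_mul, Finset.sum_sub_distrib, Finset.sum_mul, ← sub_eq_add_neg]
    congr 2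
    exact Finset.sum_congr rfl fun _ _ => by ring
  simp only [kap, e]
  rw [integral_integral_swap]
  · refine integral_congr_ae (.of_forall fun η => (char σ _).trans ?_)
    simp only [nsq]
    congr 4
    exact Finset.sum_congr rfl fun _ _ => by ring
  · refine Integrable.of_bound (Continuous.aestronglyMeasurable ?_) 1
      (.of_forall fun z => (norm_ch _).le)
    exact cont_ch.comp (by fun_prop)

lemma kap_le {ε δ : ℝ} (s m : κ → ℤ) (hε : 0 < ε)
    (h : ∀ η : ℝ, δ ≤ ∑ k, ((m k : ℝ) + η * s k) ^ 2) :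
    ‖kap σ ε s m‖ ≤ Real.exp (-(2 * Real.pi ^ 2 * σ ^ 2 * δ)) := by
  rw [kap_eq σ hε]
  refine (norm_integral_le_of_norm_le_const (.of_forall fun η => ?_)).trans (by simp; rfl)
  rw [Complex.norm_real, Real.norm_of_nonneg (Real.exp_pos _).le, Real.exp_le_exp, neg_le_neg_iff]
  exact mul_le_mul_of_nonneg_left (h _) (by positivity)

lemma kap_mul {ε W : ℝ} (s : κ → ℤ) (i : ℤ) (hε : 0 < ε) (hW : 0 < W)
    (h : W ^ 2 = σ ^ 2 * ∑ k, (s k : ℝ) ^ 2) :
    kap σ ε s (i • s) = (k0 W ε * Real.exp (-(bb W ε * (i : ℝ) ^ 2)) : ℝ) := by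
  have hp := Real.pi_pos
  have t0 : tau ε ≠ 0 := fun e => by
    have := tau_coe ε
    rw [e] at this
    exact (show (0 : ℝ) < 1 / (4 * Real.pi ^ 2 * ε ^ 2) by positivity).ne this
  rw [kap_eq σ hε, integral_complex_ofReal, integral_gaussianReal_eq_integral_smul t0]
  congr 1
  have e : ∀ η : ℝ, gaussianPDFReal 0 (tau ε) η • Real.exp (-(2 * Real.pi ^ 2 * σ ^ 2 *
      ∑ k, ((((i • s) k : ℤ) : ℝ) + -η * s k) ^ 2)) =
      (√(2 * Real.pi * tau ε))⁻¹ * Real.exp (-(bb W ε * (i : ℝ) ^ 2)) *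
        Real.exp (-(2 * Real.pi ^ 2 * (W ^ 2 + ε ^ 2)) *
          (η - W ^ 2 * i / (W ^ 2 + ε ^ 2)) ^ 2) := fun η => by
    have : σ ^ 2 * ∑ k, ((((i • s) k : ℤ) : ℝ) + -η * s k) ^ 2 = W ^ 2 * (i - η) ^ 2 := by
      rw [h, mul_assoc, Finset.sum_mul]
      congr 1
      exact Finset.sum_congr rfl fun _ _ => by simp; ring
    rw [mul_assoc _ (σ ^ 2), this, gaussianPDFReal, smul_eq_mul, mul_assoc _ (Real.exp _),
      mul_assoc _ (Real.exp _), ← Real.exp_add, ← Real.exp_add, tau_coe, bb]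
    congr 2
    field_simp
    ring
  simp only [e]
  rw [integral_const_mul, integral_sub_right_eq_self
    (fun η : ℝ => Real.exp (-(2 * Real.pi ^ 2 * (W ^ 2 + ε ^ 2)) * η ^ 2)), integral_gaussian,
    mul_right_comm, k0, one_div, ← Real.sqrt_inv, ← Real.sqrt_inv,
    ← Real.sqrt_mul (by positivity), tau_coe]
  congr 2
  field_simp
  ring

lemma sums {b : ℝ} (h0 : 0 < b) (h1 : b ≤ 1) :
    Summable (fun i : ℤ => Real.exp (-(b * (i : ℝ) ^ 2))) ∧
    Summable (fun i : ℤ => |(i : ℝ)| * Real.exp (-(b * (i : ℝ) ^ 2))) ∧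
    ∑' i : ℤ, |(i : ℝ)| * Real.exp (-(b * (i : ℝ) ^ 2)) ≤ 8 / b ^ 2 := by
  set x := Real.exp (-b) with hx
  have x0 : 0 < x := Real.exp_pos _
  have x1 : x ≤ 1 - b / 2 := by
    have := Real.add_one_le_exp b
    have h2 : x * Real.exp b = 1 := by rw [hx, ← Real.exp_add, neg_add_cancel, Real.exp_zero]
    nlinarith
  have xn : ‖x‖ < 1 := by rw [Real.norm_of_nonneg x0.le]; linarith
  have le : ∀ i : ℤ, Real.exp (-(b * (i : ℝ) ^ 2)) ≤ x ^ i.natAbs := fun i => by
    rw [hx, ← Real.exp_nat_mul, Real.exp_le_exp, ← sq_abs, ← Int.cast_abs, ← Nat.cast_natAbs]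
    have : (i.natAbs : ℝ) ≤ (i.natAbs : ℝ) ^ 2 := by exact_mod_cast Nat.le_self_pow two_ne_zero _
    nlinarith
  have s1 : Summable fun i : ℤ => x ^ i.natAbs :=
    .of_nat_of_neg (by simpa using summable_geometric_of_norm_lt_one xn)
      (by simpa using summable_geometric_of_norm_lt_one xn)
  have g := hasSum_coe_mul_geometric_of_norm_lt_one xn
  have s2 := HasSum.of_nat_of_neg (f := fun i : ℤ => |(i : ℝ)| * x ^ i.natAbs)
    (by simpa using g) (by simpa using g)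
  have s3 : Summable fun i : ℤ => |(i : ℝ)| * Real.exp (-(b * (i : ℝ) ^ 2)) :=
    .of_nonneg_of_le (fun _ => by positivity)
      (fun i => mul_le_mul_of_nonneg_left (le i) (abs_nonneg _)) s2.summable
  refine ⟨.of_nonneg_of_le (fun _ => by positivity) le s1, s3,
    (hasSum_le (fun i => mul_le_mul_of_nonneg_left (le i) (abs_nonneg _)) s3.hasSum s2).trans ?_⟩
  have : x / (1 - x) ^ 2 ≤ 1 / (b / 2) ^ 2 := by
    gcongr <;> linarith
  have e : 1 / (b / 2) ^ 2 = 4 / b ^ 2 := by field_simp; norm_num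
  have e' : 8 / b ^ 2 = 4 / b ^ 2 + 4 / b ^ 2 := by ring
  simp only [Int.cast_zero, abs_zero, zero_mul, sub_zero]
  linarith

end Gauss

open Gauss in
theorem gauss_proof : GaussStmt := by
  refine ⟨fun κ _ σ => ⟨char σ, fun k => (mem2 σ k).integrable (by simp), bessel σ,
    fun ε δ s m => kap_le σ s m, fun ε W s i => kap_mul σ s i⟩, fun W ε hW hε h => ?_⟩
  have hp := Real.pi_pos
  have b0 : 0 < bb W ε := by unfold bb; positivity
  have k : 0 < k0 W ε := by unfold k0; positivity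
  obtain ⟨s1, s2, s3⟩ := sums b0 h
  refine ⟨s1.mul_left _, by simpa only [mul_left_comm] using s2.mul_left (k0 W ε), k, ?_,
    tsum_nonneg fun _ => by positivity, ?_⟩
  · simpa [A0] using (s1.mul_left (k0 W ε)).le_tsum 0 fun _ _ => by positivity
  · simp only [A1, mul_left_comm _ (k0 W ε), tsum_mul_left]
    rw [mul_comm 8, mul_div_assoc]
    exact mul_le_mul_of_nonneg_left s3 k.le

end Vale.Agent.P318.M
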