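import Vale.Agent.P318.M.Stmt

/-!
Tail bound for sums of functions of the positions when the offsets are uniform.
-/

namespace Vale.Agent.P318.M

open Finset MeasureTheory

namespace Chernoff

variable {ι : Type} [Fintype ι] [DecidableEq ι]

omit [Fintype ι] [DecidableEq ι] in
lemma zz_eq (y : ι → ℝ) (b : ι → Bool) (j : ι) : zz y b j = Int.fract (y j) - bit (b j) := by
  unfold zz pt bit
  rw [← Int.self_sub_floor]
  cases b j
  · simp only [Bool.false_eq_true, if_false]; push_cast; ring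
  · simp only [if_true]; push_cast; ring

lemma abs_fract_sub_bit (y : ℝ) (b : Bool) : |Int.fract y - bit b| ≤ 1 := by
  have h1 := Int.fract_nonneg y
  have h2 := Int.fract_lt_one y
  rw [abs_le]
  unfold bit
  split_ifs <;> constructor <;> linarith

lemma Eb_prod (p : ι → ℝ) (g : ι → Bool → ℝ) :
    Eb p (fun b => ∏ j, g j (b j)) = ∏ j, ((1 - p j) * g j false + p j * g j true) := by
  unfold Eb wt
  simp only [← prod_mul_distrib]
  rw [← Fintype.piFinset_univ, ← prod_univ_sum (fun _ : ι => (univ : Finset Bool))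
    (fun j b => wt1 (p j) b * g j b)]
  refine prod_congr rfl fun j _ => ?_
  simp [wt1, add_comm]

omit [DecidableEq ι] in
lemma wt_nonneg {p : ι → ℝ} (hp : ∀ i, 0 ≤ p i ∧ p i ≤ 1) (b : ι → Bool) : 0 ≤ wt p b := by
  refine prod_nonneg fun i _ => ?_
  unfold wt1
  split_ifs
  · exact (hp i).1
  · linarith [(hp i).2]

lemma Eb_one (p : ι → ℝ) : Eb p (fun _ => 1) = 1 := by
  have := Eb_prod p (fun _ _ => 1)
  simpa using this

lemma Eb_mono {p : ι → ℝ} (hp : ∀ i, 0 ≤ p i ∧ p i ≤ 1) {F G : (ι → Bool) → ℝ}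
    (h : ∀ b, F b ≤ G b) : Eb p F ≤ Eb p G :=
  sum_le_sum fun b _ => mul_le_mul_of_nonneg_left (h b) (wt_nonneg hp b)

lemma Eb_nonneg {p : ι → ℝ} (hp : ∀ i, 0 ≤ p i ∧ p i ≤ 1) {F : (ι → Bool) → ℝ}
    (h : ∀ b, 0 ≤ F b) : 0 ≤ Eb p F :=
  sum_nonneg fun b _ => mul_nonneg (wt_nonneg hp b) (h b)

lemma Eb_add (p : ι → ℝ) (F G : (ι → Bool) → ℝ) :
    Eb p (fun b => F b + G b) = Eb p F + Eb p G := by
  simp [Eb, mul_add, sum_add_distrib]

lemma Eb_const_mul (p : ι → ℝ) (c : ℝ) (F : (ι → Bool) → ℝ) :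
    Eb p (fun b => c * F b) = c * Eb p F := by
  simp only [Eb, mul_sum]
  exact sum_congr rfl fun _ _ => by ring

lemma Eb_sum {α : Type*} (s : Finset α) (p : ι → ℝ) (F : α → (ι → Bool) → ℝ) :
    Eb p (fun b => ∑ a ∈ s, F a b) = ∑ a ∈ s, Eb p (F a) := by
  simp only [Eb, mul_sum]
  exact sum_comm

lemma ind_nonneg (P : Prop) : 0 ≤ ind P := by
  unfold ind; split_ifs <;> norm_num

lemma ind_le_one (P : Prop) : ind P ≤ 1 := by
  unfold ind; split_ifs <;> norm_num

lemma ind_pos {P : Prop} (h : P) : ind P = 1 := by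
  unfold ind; exact if_pos h

lemma ind_neg {P : Prop} (h : ¬ P) : ind P = 0 := by
  unfold ind; exact if_neg h

omit [DecidableEq ι] in
lemma tm_prod (G : ι → ℝ → ℝ) (hper : ∀ j, Function.Periodic (G j) 1) (t : ι → ℝ) :
    tm (fun c : ι → ℝ => ∏ j, G j ((c + t) j)) = ∏ j, ∫ x in (0 : ℝ)..1, G j x := by
  unfold tm cube
  rw [volume_pi, Measure.restrict_pi_pi]
  simp only [Pi.add_apply]
  rw [integral_fintype_prod_eq_prod (fun j x => G j (x + t j))]
  refine prod_congr rfl fun j _ => ?_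
  rw [← intervalIntegral.integral_of_le zero_le_one, intervalIntegral.integral_comp_add_right,
    zero_add, add_comm (1 : ℝ), (hper j).intervalIntegral_add_eq (t j) 0, zero_add]

lemma exp_le_cosh_add {c x : ℝ} (hc : 0 < c) (hx : |x| ≤ c) (t : ℝ) :
    Real.exp (t * x) ≤ Real.cosh (t * c) + x / c * Real.sinh (t * c) := by
  have h1 := abs_le.1 hx
  have ha : 0 ≤ (c + x) / (2 * c) := div_nonneg (by linarith) (by positivity)
  have hb : 0 ≤ (c - x) / (2 * c) := div_nonneg (by linarith) (by positivity)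
  have hab : (c + x) / (2 * c) + (c - x) / (2 * c) = 1 := by field_simp; ring
  have := convexOn_exp.2 (Set.mem_univ (t * c)) (Set.mem_univ (-(t * c))) ha hb hab
  simp only [smul_eq_mul] at this
  have e : (c + x) / (2 * c) * (t * c) + (c - x) / (2 * c) * -(t * c) = t * x := by
    field_simp; ring
  rw [e] at this
  refine this.trans (le_of_eq ?_)
  rw [Real.cosh_eq, Real.sinh_eq]
  field_simp
  ring

lemma ii_of_bound {f : ℝ → ℝ} (hf : Measurable f) {C : ℝ} (h : ∀ x, |f x| ≤ C) :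
    IntervalIntegrable f volume 0 1 := by
  rw [intervalIntegrable_iff_integrableOn_Ioc_of_le zero_le_one]
  exact IntegrableOn.of_bound (by simp) hf.aestronglyMeasurable C
    (Filter.Eventually.of_forall h)

/-- The mixture of the two values at offset `y`. -/
noncomputable def mix (ω : ℝ) (φ : ℝ → ℝ) (y : ℝ) : ℝ :=
  (1 - pr ω y) * φ (Int.fract y) + pr ω y * φ (Int.fract y - 1)

lemma zmean_eq (ω : ℝ) (φ : ℝ → ℝ) : zmean ω φ = ∫ t in (0 : ℝ)..1, mix ω φ t := rfl

lemma mix_meas {ω : ℝ} (hR : RampAt ω) {φ : ℝ → ℝ} (hφ : Measurable φ) :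
    Measurable (mix ω φ) := by
  have h1 := hR.pr_meas
  unfold mix
  exact ((measurable_const.sub h1).mul (hφ.comp measurable_fract)).add
    (h1.mul (hφ.comp (measurable_fract.sub_const 1)))

lemma mix_le {ω : ℝ} (hR : RampAt ω) {φ ψ : ℝ → ℝ} (h : ∀ z, |z| ≤ 1 → φ z ≤ ψ z) (y : ℝ) :
    mix ω φ y ≤ mix ω ψ y := by
  have h1 := h _ (by simpa [bit] using abs_fract_sub_bit y false)
  have h2 := h _ (by simpa [bit] using abs_fract_sub_bit y true)
  have h3 := hR.pr_nonneg y
  have h4 := hR.pr_le y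
  unfold mix
  exact add_le_add (mul_le_mul_of_nonneg_left h1 (by linarith)) (mul_le_mul_of_nonneg_left h2 h3)

lemma mix_const (ω c y : ℝ) : mix ω (fun _ => c) y = c := by
  unfold mix; ring

lemma abs_mix_le {ω : ℝ} (hR : RampAt ω) {φ : ℝ → ℝ} {a : ℝ} (h : ∀ z, |z| ≤ 1 → |φ z| ≤ a)
    (y : ℝ) : |mix ω φ y| ≤ a := by
  rw [abs_le]
  constructor
  · have := mix_le hR (φ := fun _ => -a) (ψ := φ) (fun z hz => (abs_le.1 (h z hz)).1) y
    rwa [mix_const] at this
  · have := mix_le hR (φ := φ) (ψ := fun _ => a) (fun z hz => (abs_le.1 (h z hz)).2) y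
    rwa [mix_const] at this

lemma mix_per {ω : ℝ} (hR : RampAt ω) (φ : ℝ → ℝ) : Function.Periodic (mix ω φ) 1 := by
  intro y
  have := hR.pr_per y 1
  simp only [Int.cast_one] at this
  unfold mix
  rw [this, Int.fract_add_one]

lemma abs_zmean_le {ω : ℝ} (hR : RampAt ω) {φ : ℝ → ℝ} {a : ℝ}
    (h : ∀ z, |z| ≤ 1 → |φ z| ≤ a) : |zmean ω φ| ≤ a := by
  rw [zmean_eq]
  have := intervalIntegral.norm_integral_le_of_norm_le_const (a := 0) (b := 1) (C := a)
    (f := mix ω φ) fun x _ => abs_mix_le hR h x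
  simpa using this

lemma int_mix_exp_le {ω : ℝ} (hR : RampAt ω) {φ : ℝ → ℝ} (hφ : Measurable φ) {a : ℝ}
    (ha : 0 < a) (h : ∀ z, |z| ≤ 1 → |φ z| ≤ a) (θ : ℝ) :
    ∫ t in (0 : ℝ)..1, mix ω (fun z => Real.exp (θ * (φ z - zmean ω φ))) t ≤
      Real.exp (θ ^ 2 * (2 * a ^ 2)) := by
  have hz := abs_zmean_le hR h
  have hX : ∀ z, |z| ≤ 1 → |φ z - zmean ω φ| ≤ 2 * a := fun z hz' =>
    (abs_sub _ _).trans (by linarith [h z hz'])
  have hi := ii_of_bound (mix_meas hR hφ) (abs_mix_le hR h)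
  have h1 : ∀ t, mix ω (fun z => Real.exp (θ * (φ z - zmean ω φ))) t ≤
      Real.cosh (θ * (2 * a)) + (mix ω φ t - zmean ω φ) / (2 * a) * Real.sinh (θ * (2 * a)) := by
    intro t
    refine (mix_le hR (fun z hz' => exp_le_cosh_add (by positivity) (hX z hz') θ) t).trans
      (le_of_eq ?_)
    unfold mix
    ring
  have hm : Measurable fun z => Real.exp (θ * (φ z - zmean ω φ)) := by fun_prop
  have hb : ∀ z, |z| ≤ 1 → |Real.exp (θ * (φ z - zmean ω φ))| ≤ Real.exp (|θ| * (2 * a)) := by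
    intro z hz'
    rw [abs_of_pos (Real.exp_pos _)]
    refine Real.exp_le_exp.2 ((le_abs_self _).trans ?_)
    rw [abs_mul]
    exact mul_le_mul_of_nonneg_left (hX z hz') (abs_nonneg _)
  have hi2 : IntervalIntegrable (fun t => Real.cosh (θ * (2 * a)) +
      (mix ω φ t - zmean ω φ) / (2 * a) * Real.sinh (θ * (2 * a))) volume 0 1 :=
    intervalIntegrable_const.add (((hi.sub intervalIntegrable_const).div_const _).mul_const _)
  refine (intervalIntegral.integral_mono zero_le_one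
    (ii_of_bound (mix_meas hR hm) (abs_mix_le hR hb)) hi2 h1).trans ?_
  rw [intervalIntegral.integral_add intervalIntegrable_const
    (((hi.sub intervalIntegrable_const).div_const _).mul_const _),
    intervalIntegral.integral_mul_const, intervalIntegral.integral_div,
    intervalIntegral.integral_sub hi intervalIntegrable_const, ← zmean_eq]
  simp only [intervalIntegral.integral_const, sub_zero, smul_eq_mul, one_mul, sub_self, zero_div,
    zero_mul, add_zero]
  refine (Real.cosh_le_exp_half_sq _).trans (le_of_eq ?_)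
  congr 1
  ring

omit [Fintype ι] [DecidableEq ι] in
lemma py_mem {ω : ℝ} (hR : RampAt ω) (y : ι → ℝ) (i : ι) : 0 ≤ py ω y i ∧ py ω y i ≤ 1 :=
  ⟨hR.pr_nonneg _, hR.pr_le _⟩

lemma Eb_prod_zz (ω : ℝ) (y : ι → ℝ) (φ : ι → ℝ → ℝ) :
    Eb (py ω y) (fun b => ∏ j, φ j (zz y b j)) = ∏ j, mix ω (φ j) (y j) := by
  simp only [zz_eq]
  rw [Eb_prod (py ω y) (fun j b => φ j (Int.fract (y j) - bit b))]
  simp [mix, bit, py]

end Chernoff

open Chernoff in
theorem chernoff_proof' (hR : RampStmt) : ChernoffStmt := by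
  intro ι _ _ _ ω a E φ t hω hω' ha hE _ hφ hb
  have hR' := hR.2 ω hω hω'
  have hn : (0 : ℝ) < Fintype.card ι := Nat.cast_pos.2 Fintype.card_pos
  set θ : ℝ := E / (4 * Fintype.card ι * a ^ 2) with hθ
  have hθ0 : 0 ≤ θ := by positivity
  let G : ℝ → ι → ℝ → ℝ := fun η j => mix ω fun z => Real.exp (η * (φ j z - zmean ω (φ j)))
  have hGm : ∀ η j, Measurable (G η j) := fun η j => mix_meas hR' (by have := hφ j; fun_prop)
  have hGb : ∀ η j y, |G η j y| ≤ Real.exp (|η| * (2 * a)) := by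
    intro η j y
    refine abs_mix_le hR' (fun z hz => ?_) y
    rw [abs_of_pos (Real.exp_pos _)]
    refine Real.exp_le_exp.2 ((le_abs_self _).trans ?_)
    rw [abs_mul]
    refine mul_le_mul_of_nonneg_left ((abs_sub _ _).trans ?_) (abs_nonneg _)
    linarith [hb j z hz, abs_zmean_le hR' (hb j)]
  have hG0 : ∀ η j y, 0 ≤ G η j y := by
    intro η j y
    have := mix_le hR' (φ := fun _ => 0)
      (ψ := fun z => Real.exp (η * (φ j z - zmean ω (φ j)))) (fun _ _ => (Real.exp_pos _).le) y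
    rwa [mix_const] at this
  have hint : ∀ η, Integrable (fun c : ι → ℝ => ∏ j, G η j ((c + t) j)) (cube ι) := by
    intro η
    refine Integrable.of_bound (Measurable.aestronglyMeasurable ?_)
      (∏ _j : ι, Real.exp (|η| * (2 * a))) (Filter.Eventually.of_forall fun c => ?_)
    · exact Finset.measurable_prod _ fun j _ => (hGm η j).comp (by fun_prop)
    · rw [Real.norm_eq_abs, abs_prod]
      exact prod_le_prod (fun _ _ => abs_nonneg _) fun j _ => hGb η j _
  have htm : ∀ η, tm (fun c : ι → ℝ => ∏ j, G η j ((c + t) j)) ≤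
      Real.exp (Fintype.card ι * (η ^ 2 * (2 * a ^ 2))) := by
    intro η
    rw [tm_prod (G η) (fun j => mix_per hR' _) t, Real.exp_nat_mul, ← card_univ, ← prod_const]
    exact prod_le_prod (fun j _ => intervalIntegral.integral_nonneg zero_le_one
      fun y _ => hG0 η j y) fun j _ => int_mix_exp_le hR' (hφ j) ha (hb j) η
  have hpt : ∀ c : ι → ℝ, (Eb (py ω (c + t)) fun b =>
      ind (E ≤ |∑ j, (φ j (zz (c + t) b j) - zmean ω (φ j))|)) ≤
      Real.exp (-(θ * E)) * (∏ j, G θ j ((c + t) j) + ∏ j, G (-θ) j ((c + t) j)) := by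
    intro c
    simp only [G]
    rw [← Eb_prod_zz, ← Eb_prod_zz, ← Eb_add, ← Eb_const_mul]
    refine Eb_mono (py_mem hR' _) fun b => ?_
    simp only [← Real.exp_sum, ← mul_sum]
    set S := ∑ j, (φ j (zz (c + t) b j) - zmean ω (φ j))
    by_cases h : E ≤ |S|
    · rw [ind_pos h, mul_add, ← Real.exp_add, ← Real.exp_add]
      rcases le_abs.1 h with h | h
      · have := Real.one_le_exp (x := -(θ * E) + θ * S) (by nlinarith)
        linarith [Real.exp_pos (-(θ * E) + -θ * S)]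
      · have := Real.one_le_exp (x := -(θ * E) + -θ * S) (by nlinarith)
        linarith [Real.exp_pos (-(θ * E) + θ * S)]
    · rw [ind_neg h]
      positivity
  have h1 : tm (fun c : ι → ℝ => Eb (py ω (c + t)) fun b =>
      ind (E ≤ |∑ j, (φ j (zz (c + t) b j) - zmean ω (φ j))|)) ≤
      tm fun c : ι → ℝ => Real.exp (-(θ * E)) *
        (∏ j, G θ j ((c + t) j) + ∏ j, G (-θ) j ((c + t) j)) :=
    integral_mono_of_nonneg
      (Filter.Eventually.of_forall fun c => Eb_nonneg (py_mem hR' _) fun b => ind_nonneg _)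
      (((hint θ).add (hint (-θ))).const_mul _) (Filter.Eventually.of_forall hpt)
  refine h1.trans ?_
  have h2 := htm θ
  have h3 := htm (-θ)
  rw [neg_sq] at h3
  unfold tm at h2 h3 ⊢
  rw [integral_const_mul, integral_add (hint θ) (hint (-θ))]
  refine (mul_le_mul_of_nonneg_left (add_le_add h2 h3) (Real.exp_pos _).le).trans ?_
  rw [← two_mul, mul_left_comm, ← Real.exp_add]
  refine mul_le_mul_of_nonneg_left (Real.exp_le_exp.2 ?_) (by norm_num)
  have e : -(θ * E) + Fintype.card ι * (θ ^ 2 * (2 * a ^ 2)) =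
      -(2 * (E ^ 2 / (16 * Fintype.card ι * a ^ 2))) := by
    rw [hθ]; field_simp; ring
  rw [e]
  have : 0 ≤ E ^ 2 / (16 * Fintype.card ι * a ^ 2) := by positivity
  linarith

theorem chernoff_proof (hR : RampStmt) (_hT : TorusStmt) (_hB : BitStmt) : ChernoffStmt :=
  chernoff_proof' hR

end Vale.Agent.P318.M
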