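import Vale.Agent.P318.M.Stmt

/-!
The weighted Gaussian move acts as the mean on functions supported in the window.
-/

namespace Vale.Agent.P318.M

open Finset MeasureTheory ProbabilityTheory

namespace Line

lemma norm_ch (x : ℝ) : ‖ch x‖ = 1 := by
  unfold ch
  have : (2 * Real.pi * Complex.I * x : ℂ) = ((2 * Real.pi * x : ℝ) : ℂ) * Complex.I := by
    push_cast; ring
  rw [this, Complex.norm_exp_ofReal_mul_I]

lemma ch_add (x y : ℝ) : ch (x + y) = ch x * ch y := by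
  unfold ch
  rw [← Complex.exp_add]
  congr 1
  push_cast; ring

lemma ch_int (n : ℤ) : ch n = 1 := by
  unfold ch
  have : (2 * Real.pi * Complex.I * ((n : ℝ) : ℂ) : ℂ) = (n : ℂ) * (2 * Real.pi * Complex.I) := by
    push_cast; ring
  rw [this, Complex.exp_int_mul_two_pi_mul_I]

lemma norm_ch_sub_one (x : ℝ) : ‖ch x - 1‖ ≤ 2 * Real.pi * |x| := by
  unfold ch
  have : (2 * Real.pi * Complex.I * x : ℂ) = Complex.I * ((2 * Real.pi * x : ℝ) : ℂ) := by
    push_cast; ring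
  rw [this]
  refine (Real.norm_exp_I_mul_ofReal_sub_one_le).trans ?_
  rw [Real.norm_eq_abs, abs_mul, abs_of_pos Real.two_pi_pos]

lemma continuous_ch : Continuous ch := by
  unfold ch
  fun_prop

variable {κ : Type} [Fintype κ]

lemma continuous_ip (m : κ → ℤ) : Continuous (ip m) := by
  unfold ip
  fun_prop

lemma ip_smul (i : ℤ) (s : κ → ℤ) (β : κ → ℝ) : ip (i • s) β = i * ip s β := by
  unfold ip
  rw [Finset.mul_sum]
  refine Finset.sum_congr rfl fun k _ => ?_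
  simp only [Pi.smul_apply, smul_eq_mul]
  push_cast; ring

lemma chi_nonneg (ε u : ℝ) : 0 ≤ chi ε u := (Real.exp_pos _).le

lemma chi_le (ε u : ℝ) : chi ε u ≤ 1 := by
  unfold chi
  rw [Real.exp_le_one_iff, neg_div]
  have : 0 ≤ u ^ 2 / (2 * ε ^ 2) := by positivity
  linarith

lemma continuous_chi (ε : ℝ) : Continuous (chi ε) := by
  unfold chi
  fun_prop

lemma BM_int {F : (κ → ℝ) → ℝ} (hF : BM F) : Integrable F (cube κ) := by
  obtain ⟨hm, C, hC⟩ := hF
  exact Integrable.of_bound hm.aestronglyMeasurable C (Filter.Eventually.of_forall fun x => hC x)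

lemma int_ch_mul {F : (κ → ℝ) → ℝ} (hF : BM F) (m : κ → ℤ) :
    Integrable (fun β => ch (-ip m β) * (F β : ℂ)) (cube κ) := by
  have h1 : Integrable (fun β => (F β : ℂ)) (cube κ) := (BM_int hF).ofReal
  refine h1.bdd_mul (c := 1) ?_ (Filter.Eventually.of_forall fun x => (norm_ch _).le)
  exact (continuous_ch.comp (continuous_ip m).neg).aestronglyMeasurable

lemma norm_fc_le {F : (κ → ℝ) → ℝ} (m : κ → ℤ) : ‖fc F m‖ ≤ tm fun β => |F β| := by
  unfold fc tm
  refine (norm_integral_le_integral_norm _).trans (le_of_eq ?_)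
  congr 1
  ext β
  rw [norm_mul, norm_ch, one_mul, Complex.norm_real, Real.norm_eq_abs]

lemma abs_tm_le {F : (κ → ℝ) → ℝ} : |tm F| ≤ tm fun β => |F β| := by
  unfold tm
  exact abs_integral_le_integral_abs

lemma tm_abs_nonneg {F : (κ → ℝ) → ℝ} : 0 ≤ tm fun β => |F β| :=
  integral_nonneg fun _ => abs_nonneg _

/-- Fourier coefficients on the line of a function supported in the window. -/
lemma fc_line {F : (κ → ℝ) → ℝ} (hF : BM F) (s : κ → ℤ) (t ω : ℝ) (hω : 0 ≤ ω)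
    (hs : ∀ β, F β ≠ 0 → |Int.fract (t + ip s β) - 1 / 2| ≤ ω) (i : ℤ) :
    ‖fc F (i • s) - ch (-(i * (1 / 2 - t))) * (tm F : ℂ)‖ ≤
      2 * Real.pi * |(i : ℝ)| * ω * tm fun β => |F β| := by
  have h1 : Integrable (fun β => (F β : ℂ)) (cube κ) := (BM_int hF).ofReal
  have e1 : fc F (i • s) - ch (-(i * (1 / 2 - t))) * (tm F : ℂ) =
      ∫ β, (ch (-ip (i • s) β) - ch (-(i * (1 / 2 - t)))) * (F β : ℂ) ∂cube κ := by
    unfold fc tm
    rw [← integral_complex_ofReal, ← integral_const_mul,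
      ← integral_sub (int_ch_mul hF _) (h1.const_mul _)]
    congr 1
    ext β
    ring
  rw [e1]
  unfold tm
  rw [← integral_const_mul]
  refine norm_integral_le_of_norm_le ((BM_int hF).abs.const_mul _)
    (Filter.Eventually.of_forall fun β => ?_)
  rw [norm_mul, Complex.norm_real, Real.norm_eq_abs]
  by_cases h0 : F β = 0
  · simp [h0]
  refine mul_le_mul_of_nonneg_right ?_ (abs_nonneg _)
  have hd := hs β h0
  set d := Int.fract (t + ip s β) - 1 / 2 with hdd
  have e2 : -ip (i • s) β = -(i * (1 / 2 - t)) + (-(i * d) + ((-(i * ⌊t + ip s β⌋) : ℤ) : ℝ)) := by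
    rw [ip_smul, hdd, Int.fract]
    push_cast; ring
  rw [e2, ch_add, ch_add, ch_int, mul_one, ← mul_sub_one, norm_mul, norm_ch, one_mul]
  refine (norm_ch_sub_one _).trans ?_
  rw [abs_neg, abs_mul, mul_assoc (2 * Real.pi) |(i : ℝ)| ω]
  exact mul_le_mul_of_nonneg_left (mul_le_mul_of_nonneg_left hd (abs_nonneg _))
    Real.two_pi_pos.le

lemma prod_line {F G : (κ → ℝ) → ℝ} (hF : BM F) (hG : BM G) (s : κ → ℤ) (t ω : ℝ) (hω : 0 ≤ ω)
    (hs : ∀ β, F β ≠ 0 → |Int.fract (t + ip s β) - 1 / 2| ≤ ω)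
    (hs' : ∀ β, G β ≠ 0 → |Int.fract (t + ip s β) - 1 / 2| ≤ ω) (i : ℤ) :
    ‖fc F (i • s) * (starRingEnd ℂ) (fc G (i • s)) - (tm F : ℂ) * (tm G : ℂ)‖ ≤
      4 * Real.pi * ω * |(i : ℝ)| * (tm fun β => |F β|) * tm fun β => |G β| := by
  have h1 := fc_line hF s t ω hω hs i
  have h2 := fc_line hG s t ω hω hs' i
  set E := ch (-(i * (1 / 2 - t))) with hE
  have hE1 : ‖E‖ = 1 := norm_ch _
  have hE2 : E * (starRingEnd ℂ) E = 1 := by
    rw [Complex.mul_conj, Complex.normSq_eq_norm_sq, hE1]; simp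
  have e1 : fc F (i • s) * (starRingEnd ℂ) (fc G (i • s)) - (tm F : ℂ) * (tm G : ℂ) =
      fc F (i • s) * (starRingEnd ℂ) (fc G (i • s) - E * (tm G : ℂ)) +
        (fc F (i • s) - E * (tm F : ℂ)) * (starRingEnd ℂ) E * (tm G : ℂ) := by
    simp only [map_sub, map_mul, Complex.conj_ofReal]
    linear_combination (-(tm F : ℂ) * (tm G : ℂ)) * hE2 + 2 * (tm F : ℂ) * (tm G : ℂ) * hE2
  rw [e1]
  refine (norm_add_le _ _).trans ?_
  rw [norm_mul, norm_mul, norm_mul, Complex.norm_conj, Complex.norm_conj, hE1, mul_one,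
    Complex.norm_real, Real.norm_eq_abs]
  have h3 : ‖fc F (i • s)‖ ≤ tm fun β => |F β| := norm_fc_le _
  have h4 : |tm G| ≤ tm fun β => |G β| := abs_tm_le
  have h5 : 0 ≤ tm fun β => |F β| := tm_abs_nonneg
  have h6 : 0 ≤ tm fun β => |G β| := tm_abs_nonneg
  have a1 := mul_le_mul h3 h2 (norm_nonneg _) h5
  have a2 := mul_le_mul h1 h4 (abs_nonneg _) ((norm_nonneg _).trans h1)
  nlinarith

/-- Cauchy-Schwarz for infinite sums. -/
lemma cs {α : Type} {f g : α → ℝ} {A B : ℝ} (hf0 : ∀ a, 0 ≤ f a) (hg0 : ∀ a, 0 ≤ g a)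
    (hf : HasSum (fun a => f a ^ 2) A) (hg : HasSum (fun a => g a ^ 2) B) :
    Summable (fun a => f a * g a) ∧ ∑' a, f a * g a ≤ Real.sqrt A * Real.sqrt B := by
  have key : ∀ u : Finset α, ∑ a ∈ u, f a * g a ≤ Real.sqrt A * Real.sqrt B := by
    intro u
    refine (Real.sum_mul_le_sqrt_mul_sqrt u f g).trans ?_
    have h1 : ∑ a ∈ u, f a ^ 2 ≤ A := sum_le_hasSum u (fun a _ => sq_nonneg _) hf
    have h2 : ∑ a ∈ u, g a ^ 2 ≤ B := sum_le_hasSum u (fun a _ => sq_nonneg _) hg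
    exact mul_le_mul (Real.sqrt_le_sqrt h1) (Real.sqrt_le_sqrt h2) (Real.sqrt_nonneg _)
      (Real.sqrt_nonneg _)
  have hs : Summable fun a => f a * g a :=
    summable_of_sum_le (fun a => mul_nonneg (hf0 a) (hg0 a)) key
  exact ⟨hs, hs.tsum_le_of_sum_le key⟩

end Line

open Line in
theorem line_proof (hT : TorusStmt) (hG : GaussStmt) : LineStmt := by
  intro κ _ _ σ ε W ω t e s F G hε hW hWσ hbb hPM hω he pF bF pG bG sF sG hk
  classical
  obtain ⟨-, hP, hP2, -, -⟩ := hT κ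
  obtain ⟨hG1, hG2⟩ := hG
  obtain ⟨-, -, -, -, hline⟩ := hG1 κ σ
  obtain ⟨hs0, hs1, hk0, -, -, -⟩ := hG2 W ε hW hε hbb
  have hsq : ∑ k, (s k : ℝ) ^ 2 = Fintype.card κ := by
    rw [Fintype.card, Finset.card_eq_sum_ones, Nat.cast_sum]
    refine Finset.sum_congr rfl fun k _ => ?_
    rcases hPM k with h | h <;> simp [h]
  have hkl : ∀ i : ℤ, kap σ ε s (i • s) =
      ((k0 W ε * Real.exp (-(bb W ε * (i : ℝ) ^ 2)) : ℝ) : ℂ) :=
    fun i => hline ε W s i hε hW (by rw [hsq]; exact hWσ)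
  set w : ℤ → ℝ := fun i => k0 W ε * Real.exp (-(bb W ε * (i : ℝ) ^ 2)) with hw
  have hw0 : ∀ i, 0 ≤ w i := fun i => mul_nonneg hk0.le (Real.exp_pos _).le
  set a : (κ → ℤ) → ℂ := fun m => fc F m * (starRingEnd ℂ) (fc G m) with ha
  obtain ⟨hcs, hcs'⟩ := cs (f := fun m => ‖fc F m‖) (g := fun m => ‖fc G m‖)
    (fun _ => norm_nonneg _) (fun _ => norm_nonneg _) (hP2 F pF bF) (hP2 G pG bG)
  have hna : ∀ m, ‖a m‖ = ‖fc F m‖ * ‖fc G m‖ := fun m => by
    simp only [ha, norm_mul, Complex.norm_conj]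
  set φ : (κ → ℤ) → (κ → ℝ) → ℂ :=
    fun m ξ => a m * ((chi ε (ip s ξ) : ℂ) * ch (-ip m ξ)) with hφ
  have hφc : ∀ m, Continuous (φ m) := fun m => by
    refine continuous_const.mul (Continuous.mul ?_ ?_)
    · exact Complex.continuous_ofReal.comp ((continuous_chi ε).comp (continuous_ip s))
    · exact continuous_ch.comp (continuous_ip m).neg
  have hφb : ∀ m ξ, ‖φ m ξ‖ ≤ ‖fc F m‖ * ‖fc G m‖ := fun m ξ => by
    simp only [hφ, norm_mul, norm_ch, mul_one, Complex.norm_real, Real.norm_eq_abs, hna,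
      abs_of_nonneg (chi_nonneg ε _)]
    exact mul_le_of_le_one_right (by positivity) (chi_le _ _)
  have hφi : ∀ m, Integrable (φ m) (gm κ σ) := fun m =>
    Integrable.of_bound (hφc m).aestronglyMeasurable _ (Filter.Eventually.of_forall (hφb m))
  have hφs : Summable fun m => ∫ ξ, ‖φ m ξ‖ ∂gm κ σ := by
    refine Summable.of_nonneg_of_le (fun m => integral_nonneg fun _ => norm_nonneg _)
      (fun m => ?_) hcs
    have := integral_mono (hφi m).norm (integrable_const (‖fc F m‖ * ‖fc G m‖)) (hφb m)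
    simpa using this
  have hsum := hasSum_integral_of_summable_integral_norm hφi hφs
  have e1 : ∀ m, ∫ ξ, φ m ξ ∂gm κ σ = a m * kap σ ε s m := fun m => by
    simp only [hφ, kap]
    rw [integral_const_mul]
  have e2 : ∀ ξ, ∑' m, φ m ξ =
      ((chi ε (ip s ξ) * tm (fun β => F β * G (β + ξ)) : ℝ) : ℂ) := fun ξ => by
    have := ((hP F G pF bF pG bG ξ).mul_left (chi ε (ip s ξ) : ℂ)).tsum_eq
    rw [Complex.ofReal_mul, ← this]
    refine tsum_congr fun m => ?_
    simp only [hφ, ha]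
    ring
  simp only [e1, e2] at hsum
  rw [integral_complex_ofReal] at hsum
  set I0 := ∫ ξ, chi ε (ip s ξ) * tm (fun β => F β * G (β + ξ)) ∂gm κ σ with hI0
  have hinj : Function.Injective fun i : ℤ => i • s := by
    intro i j hij
    obtain ⟨k⟩ := ‹Nonempty κ›
    have := congrFun hij k
    simp only [Pi.smul_apply, smul_eq_mul] at this
    rcases hPM k with h | h <;> rw [h] at this <;> omega
  set u1 : (κ → ℤ) → ℂ := fun m => if ∃ i : ℤ, m = i • s then a m * kap σ ε s m else 0 with hu1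
  set u2 : (κ → ℤ) → ℂ := fun m => if ∃ i : ℤ, m = i • s then 0 else a m * kap σ ε s m with hu2
  have hu2b : ∀ m, ‖u2 m‖ ≤ e * (‖fc F m‖ * ‖fc G m‖) := fun m => by
    simp only [hu2]
    split_ifs with h
    · rw [norm_zero]; positivity
    · rw [norm_mul, hna]
      by_cases h1 : fc F m = 0
      · simp [h1]
      by_cases h2 : fc G m = 0
      · simp [h2]
      rw [mul_comm e]
      exact mul_le_mul_of_nonneg_left (hk m h h1 h2) (by positivity)
  have hu2s : Summable u2 := Summable.of_norm_bounded (hcs.mul_left e) hu2b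
  have hu2n : ‖∑' m, u2 m‖ ≤
      e * Real.sqrt (tm fun β => F β ^ 2) * Real.sqrt (tm fun β => G β ^ 2) := by
    refine (tsum_of_norm_bounded (hcs.mul_left e).hasSum hu2b).trans ?_
    rw [tsum_mul_left, mul_assoc]
    exact mul_le_mul_of_nonneg_left hcs' he
  have hu1s : HasSum u1 ((I0 : ℂ) - ∑' m, u2 m) := by
    have e4 : u1 = fun m => a m * kap σ ε s m - u2 m := by
      funext m
      simp only [hu1, hu2]
      split_ifs <;> simp
    rw [e4]
    exact hsum.sub hu2s.hasSum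
  have hl : HasSum (fun i : ℤ => a (i • s) * (w i : ℂ)) ((I0 : ℂ) - ∑' m, u2 m) := by
    have := (hinj.hasSum_iff (f := u1) (a := (I0 : ℂ) - ∑' m, u2 m) (fun m hm => by
      simp only [hu1]
      rw [if_neg]
      rintro ⟨i, rfl⟩
      exact hm ⟨i, rfl⟩)).2 hu1s
    have e5 : (fun i : ℤ => a (i • s) * (w i : ℂ)) = u1 ∘ fun i : ℤ => i • s := by
      funext i
      simp only [hu1, Function.comp]
      rw [if_pos ⟨i, rfl⟩, hkl]
    rw [e5]
    exact this
  have hA0 : HasSum (fun i : ℤ => (tm F : ℂ) * (tm G : ℂ) * (w i : ℂ))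
      ((tm F : ℂ) * (tm G : ℂ) * (A0 W ε : ℂ)) :=
    (Complex.hasSum_ofReal.2 hs0.hasSum).mul_left _
  have hd := hl.sub hA0
  have hb : HasSum (fun i : ℤ => 4 * Real.pi * ω * (tm fun β => |F β|) * (tm fun β => |G β|) *
      (|(i : ℝ)| * w i))
      (4 * Real.pi * ω * (tm fun β => |F β|) * (tm fun β => |G β|) * A1 W ε) :=
    hs1.hasSum.mul_left _
  have hn := hd.norm_le_of_bounded hb fun i => by
    rw [← sub_mul, norm_mul, Complex.norm_real, Real.norm_eq_abs, abs_of_nonneg (hw0 i)]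
    have := mul_le_mul_of_nonneg_right (prod_line bF bG s t ω hω sF sG i) (hw0 i)
    refine this.trans (le_of_eq ?_)
    ring
  have e3 : ((I0 - A0 W ε * tm F * tm G : ℝ) : ℂ) =
      ((I0 : ℂ) - ∑' m, u2 m - (tm F : ℂ) * (tm G : ℂ) * (A0 W ε : ℂ)) + ∑' m, u2 m := by
    push_cast; ring
  rw [← Real.norm_eq_abs, ← Complex.norm_real, e3]
  refine (norm_add_le _ _).trans ?_
  have := add_le_add hn hu2n
  refine this.trans (le_of_eq ?_)
  ring

end Vale.Agent.P318.M
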