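import Vale.Agent.P318.M.Stmt

/-! The variance on the torus of the fibre mean. -/

namespace Vale.Agent.P318.M

open Finset MeasureTheory ProbabilityTheory

namespace TV

theorem bm_int {X : Type} [MeasurableSpace X] {F : X → ℝ} (h : BM F) (μ : Measure X)
    [IsFiniteMeasure μ] : Integrable F μ := by
  obtain ⟨h1, C, h2⟩ := h
  exact (integrable_const C).mono' h1.aestronglyMeasurable (ae_of_all _ h2)

theorem int_dom {X Y : Type} [MeasurableSpace X] [MeasurableSpace Y] {μ : Measure X}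
    (ν : Measure Y) [SFinite μ] [IsFiniteMeasure ν] {B : X → ℝ} (hB : Integrable B μ)
    {g : X → Y → ℝ} (hg : Measurable (Function.uncurry g)) (hb : ∀ x y, |g x y| ≤ B x) :
    Integrable (Function.uncurry g) (μ.prod ν) :=
  (hB.comp_fst ν).mono' hg.aestronglyMeasurable (ae_of_all _ fun p => hb p.1 p.2)

/-- the uniform measure on the unit interval -/
noncomputable def un : Measure ℝ := volume.restrict (Set.Ioc 0 1)

instance un_prob : IsProbabilityMeasure un := ⟨by simp [un]⟩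

variable {ι κ : Type} [Fintype ι] [Fintype κ]

theorem meas_ip (m : κ → ℤ) : Measurable (ip m) := by
  unfold ip
  fun_prop

theorem ip_add (m : κ → ℤ) (β ξ : κ → ℝ) : ip m (β + ξ) = ip m β + ip m ξ := by
  simp [ip, mul_add, sum_add_distrib]

theorem ip_smul (m : κ → ℤ) (r : ℝ) (ξ : κ → ℝ) : ip m (r • ξ) = r * ip m ξ := by
  simp [ip, mul_sum, mul_left_comm]

/-- the Gaussian move decreases the correlation by a controlled amount -/
theorem core (hT : TorusStmt) (hG : GaussStmt) (σ M : ℝ) (s : ι → κ → ℤ) {G a : (κ → ℝ) → ℝ}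
    {H : ι → (κ → ℝ) → ℝ} (Gp : Per G) (Gm : Measurable G) (Gb : ∀ β, |G β| ≤ 1)
    (Hp : ∀ j, Per (H j)) (Hm : ∀ j, Measurable (H j)) (Hb : ∀ j β, |H j β| ≤ M) (ha : BM a)
    (hd : ∀ β ξ, G (β + ξ) - G β = ∫ r in (0 : ℝ)..1, ∑ j, ip (s j) ξ * H j (β + r • ξ))
    (hp : ∀ β V b, 0 ≤ b → b ≤ 1 → nsq V ≤ σ ^ 2 * b → |∑ j, H j β * ip (s j) V| ≤ a β + b / 4) :
    tm (fun β => G β ^ 2) - ∫ ξ, tm (fun β => G β * G (β + ξ)) ∂gm κ σ ≤
      tm a + tm (fun β => G β ^ 2) / 4 := by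
  obtain ⟨hsh, -⟩ := hT κ
  obtain ⟨-, hint, hbes, -⟩ := hG.1 κ σ
  let P : Measure (ℝ × (κ → ℝ)) := un.prod (cube κ)
  let Φ : (κ → ℝ) → ℝ × (κ → ℝ) → ℝ := fun ξ p =>
    G (p.2 - p.1 • ξ) * ∑ j, ip (s j) ξ * H j p.2
  let B : (κ → ℝ) → ℝ := fun ξ => ∑ j, |ip (s j) ξ| * M
  have hB : Integrable B (gm κ σ) := integrable_finsetSum _ fun j _ =>
    (integrable_finsetSum _ fun k _ => (hint k).const_mul _).abs.mul_const _
  have hb : ∀ ξ β β', |G β' * ∑ j, ip (s j) ξ * H j β| ≤ B ξ := fun ξ β β' => by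
    rw [abs_mul]
    refine (mul_le_of_le_one_left (abs_nonneg _) (Gb _)).trans
      ((abs_sum_le_sum_abs _ _).trans (sum_le_sum fun j _ => ?_))
    rw [abs_mul]
    exact mul_le_mul_of_nonneg_left (Hb _ _) (abs_nonneg _)
  have hΦm : Measurable (Function.uncurry Φ) :=
    (Gm.comp (by fun_prop)).mul (Finset.measurable_sum _ fun j _ =>
      ((meas_ip _).comp measurable_fst).mul ((Hm j).comp (by fun_prop)))
  have hΦ : Integrable (Function.uncurry Φ) ((gm κ σ).prod P) :=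
    int_dom P hB hΦm fun ξ p => hb ξ _ _
  have hsq : ∀ β, |G β ^ 2| ≤ 1 := fun β => by
    rw [abs_pow]
    exact pow_le_one₀ (abs_nonneg _) (Gb β)
  have hper : ∀ (v β : κ → ℝ) (n : κ → ℤ), G (β + (fun k => (n k : ℝ)) - v) = G (β - v) :=
    fun v β n => by rw [← Gp (β - v) n, add_sub_right_comm]
  have key1 : ∀ ξ, tm (fun β => G β * G (β + ξ)) = tm (fun β => G β ^ 2) + ∫ p, Φ ξ p ∂P := by
    intro ξ
    have hm : Measurable (Φ ξ) := hΦm.of_uncurry_left
    have e1 : ∀ r, ∫ β, Φ ξ (r, β) ∂cube κ =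
        ∫ β, G β * ∑ j, ip (s j) ξ * H j (β + r • ξ) ∂cube κ := fun r => by
      have h1 := hsh (fun β => Φ ξ (r, β)) (fun β n => by simp only [Φ, hper, Hp _ β n])
        ⟨hm.comp measurable_prodMk_left, B ξ, fun β => hb ξ _ _⟩ (r • ξ)
      simp only [Φ, add_sub_cancel_right] at h1
      exact h1.symm
    rw [integral_prod _ (bm_int ⟨hm, B ξ, fun p => hb ξ _ _⟩ P)]
    simp only [e1]
    have hm0 : Measurable fun p : ℝ × (κ → ℝ) => G p.2 * ∑ j, ip (s j) ξ * H j (p.2 + p.1 • ξ) :=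
      (Gm.comp measurable_snd).mul (Finset.measurable_sum _ fun j _ =>
        ((Hm j).comp (by fun_prop)).const_mul _)
    rw [integral_integral_swap (f := fun (r : ℝ) β => G β * ∑ j, ip (s j) ξ * H j (β + r • ξ))
      (bm_int ⟨hm0, B ξ, fun p => hb ξ _ _⟩ _)]
    have e2 : ∀ β, ∫ r, G β * ∑ j, ip (s j) ξ * H j (β + r • ξ) ∂un =
        G β * G (β + ξ) - G β ^ 2 := fun β => by
      rw [integral_const_mul, un, ← intervalIntegral.integral_of_le zero_le_one, ← hd]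
      ring
    simp only [e2]
    have hm1 : Measurable fun β => G β * G (β + ξ) := Gm.mul (Gm.comp (by fun_prop))
    rw [integral_sub (bm_int ⟨hm1, 1, fun β => by
      rw [abs_mul]
      exact mul_le_one₀ (Gb _) (abs_nonneg _) (Gb _)⟩ _) (bm_int ⟨Gm.pow_const 2, 1, hsq⟩ _)]
    simp only [tm]
    ring
  let b : ℝ × (κ → ℝ) → ℝ := fun p => ∫ ξ, G (p.2 - p.1 • ξ) ^ 2 ∂gm κ σ
  have key2 : ∀ p, |∫ ξ, Φ ξ p ∂gm κ σ| ≤ a p.2 + b p / 4 := by
    intro p
    have gm' : Measurable fun ξ : κ → ℝ => G (p.2 - p.1 • ξ) := Gm.comp (by fun_prop)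
    have hi : ∀ k, Integrable (fun ξ : κ → ℝ => ξ k * G (p.2 - p.1 • ξ)) (gm κ σ) := fun k =>
      (hint k).mul_bdd gm'.aestronglyMeasurable (ae_of_all _ fun ξ => Gb _)
    have e : ∫ ξ, Φ ξ p ∂gm κ σ =
        ∑ j, H j p.2 * ip (s j) fun k => ∫ ξ, ξ k * G (p.2 - p.1 • ξ) ∂gm κ σ := by
      have e1 : ∀ ξ, Φ ξ p = ∑ j, H j p.2 * ∑ k, (s j k : ℝ) * (ξ k * G (p.2 - p.1 • ξ)) :=
        fun ξ => by
          simp only [Φ, ip, mul_sum, sum_mul]
          exact sum_congr rfl fun j _ => sum_congr rfl fun k _ => by ring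
      simp only [e1]
      rw [integral_finsetSum _ fun j _ =>
        (integrable_finsetSum _ fun k _ => (hi k).const_mul _).const_mul _]
      refine sum_congr rfl fun j _ => ?_
      rw [integral_const_mul, integral_finsetSum _ fun k _ => (hi k).const_mul _]
      simp only [integral_const_mul, ip]
    rw [e]
    refine hp _ _ _ (integral_nonneg fun ξ => sq_nonneg _) ?_ (hbes _ ⟨gm', 1, fun ξ => Gb _⟩)
    simpa using integral_mono (bm_int ⟨gm'.pow_const 2, 1, fun ξ => hsq _⟩ (gm κ σ))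
      (integrable_const 1) fun ξ => (le_abs_self _).trans (hsq _)
  have hQm : Measurable (Function.uncurry fun (ξ : κ → ℝ) (p : ℝ × (κ → ℝ)) =>
      G (p.2 - p.1 • ξ) ^ 2) := (Gm.comp (by fun_prop)).pow_const 2
  have hQ := bm_int ⟨hQm, 1, fun q => hsq _⟩ ((gm κ σ).prod P)
  have key3 : ∫ p, b p ∂P = tm fun β => G β ^ 2 := by
    rw [← integral_integral_swap hQ]
    have e1 : ∀ ξ : κ → ℝ, ∫ p, G (p.2 - p.1 • ξ) ^ 2 ∂P = tm fun β => G β ^ 2 := fun ξ => by
      rw [integral_prod _ (bm_int ⟨hQm.of_uncurry_left, 1, fun p => hsq _⟩ P)]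
      have e2 : ∀ r : ℝ, ∫ β, G (β - r • ξ) ^ 2 ∂cube κ = tm fun β => G β ^ 2 := fun r => by
        simpa only [tm, sub_eq_add_neg] using hsh (fun β => G β ^ 2)
          (fun β n => by simp only [Gp β n]) ⟨Gm.pow_const 2, 1, hsq⟩ (-(r • ξ))
      simp [e2]
    simp [e1]
  have hai : Integrable (fun p : ℝ × (κ → ℝ) => a p.2) P := (bm_int ha _).comp_snd _
  have hbi : Integrable b P := hQ.integral_prod_right
  have h1 : -∫ p, ∫ ξ, Φ ξ p ∂gm κ σ ∂P ≤ ∫ p, (a p.2 + b p / 4) ∂P := by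
    rw [← integral_neg]
    exact integral_mono hΦ.integral_prod_right.neg (hai.add (hbi.div_const 4)) fun p =>
      (neg_le_abs _).trans (key2 p)
  rw [integral_add hai (hbi.div_const 4), integral_div, key3, ← integral_integral_swap hΦ,
    integral_prod _ hai] at h1
  simp only [key1]
  rw [integral_add (g := fun ξ => ∫ p, Φ ξ p ∂P) (integrable_const _) hΦ.integral_prod_left]
  simp only [integral_const, probReal_univ, one_smul] at h1 ⊢
  simp only [tm] at h1 ⊢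
  linarith

theorem norm_ch (x : ℝ) : ‖ch x‖ = 1 := by
  have : 2 * (Real.pi : ℂ) * Complex.I * x = ((2 * Real.pi * x : ℝ) : ℂ) * Complex.I := by
    push_cast
    ring
  rw [ch, this, Complex.norm_exp_ofReal_mul_I]

/-- the spectral gap of the Gaussian move -/
theorem spec_gap (hT : TorusStmt) (hG : GaussStmt) {Γ : AddSubgroup (κ → ℝ)} {sh σ : ℝ}
    (hσ : σ ^ 2 * sh = 1) (hL : Lat Γ sh) {G : (κ → ℝ) → ℝ} (Gb : BM G)
    (Gi : ∀ ρ ∈ Γ, ∀ β, G (β + ρ) = G β) (G0 : tm G = 0) :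
    ∫ ξ, tm (fun β => G β * G (β + ξ)) ∂gm κ σ ≤ tm (fun β => G β ^ 2) / 2 := by
  obtain ⟨-, hpar, hsq, hsup, -⟩ := hT κ
  obtain ⟨hch, -⟩ := hG.1 κ σ
  have Gp : Per G := fun β n => Gi _ (hL.1 n) β
  have hn : ∀ (m : κ → ℤ) (ξ : κ → ℝ),
      ‖fc G m * (starRingEnd ℂ) (fc G m) * ch (-ip m ξ)‖ = ‖fc G m‖ ^ 2 := fun m ξ => by
    rw [norm_mul, norm_mul, norm_ch, Complex.norm_conj, mul_one, sq]
  have h1 := hasSum_integral_of_summable_integral_norm (μ := gm κ σ)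
    (F := fun (m : κ → ℤ) (ξ : κ → ℝ) => fc G m * (starRingEnd ℂ) (fc G m) * ch (-ip m ξ))
    (fun m => (integrable_const (‖fc G m‖ ^ 2)).mono' (Measurable.aestronglyMeasurable (by
      have := meas_ip m
      unfold ch
      fun_prop)) (ae_of_all _ fun ξ => (hn m ξ).le))
    (by simpa only [hn, integral_const, probReal_univ, one_smul] using (hsq G Gp Gb).summable)
  have e1 : ∀ m : κ → ℤ, ∫ ξ, fc G m * (starRingEnd ℂ) (fc G m) * ch (-ip m ξ) ∂gm κ σ =
      ((‖fc G m‖ ^ 2 * Real.exp (-(2 * Real.pi ^ 2 * σ ^ 2 * ∑ k, (m k : ℝ) ^ 2)) : ℝ) : ℂ) :=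
    fun m => by
      have h2 := hch fun k => -(m k : ℝ)
      simp only [neg_mul, sum_neg_distrib, nsq, even_two, Even.neg_pow] at h2
      rw [integral_const_mul, Complex.mul_conj, Complex.normSq_eq_norm_sq]
      simp only [ip]
      rw [h2]
      push_cast
      rfl
  simp only [e1, fun ξ => (hpar G G Gp Gb Gp Gb ξ).tsum_eq, integral_complex_ofReal] at h1
  refine hasSum_le (fun m => ?_) (Complex.hasSum_ofReal.1 h1) ((hsq G Gp Gb).div_const 2)
  by_cases hd : Dual Γ m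
  · rcases hL.2 m hd with rfl | h2
    · have h3 : fc G 0 = 0 := by
        simp only [fc, ip, ch, Pi.zero_apply, Int.cast_zero, zero_mul, sum_const_zero, neg_zero,
          Complex.ofReal_zero, mul_zero, Complex.exp_zero, one_mul, integral_complex_ofReal]
        exact Complex.ofReal_eq_zero.2 G0
      simp [h3]
    · rw [div_eq_mul_inv]
      refine mul_le_mul_of_nonneg_left ?_ (sq_nonneg _)
      rw [Real.exp_neg]
      refine inv_anti₀ two_pos (le_trans ?_ (Real.add_one_le_exp _))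
      have h3 := mul_le_mul_of_nonneg_left h2 (sq_nonneg σ)
      have h4 : 1 ≤ Real.pi ^ 2 := one_le_pow₀ (by linarith [Real.two_le_pi])
      nlinarith
  · simp only [Dual, not_forall] at hd
    obtain ⟨ρ, h2, h3⟩ := hd
    simp [hsup G Gp Gb ρ m (Gi ρ h2) h3]

/-- the pointwise pairing -/
theorem pair [DecidableEq ι] {s : ι → κ → ℤ} {C1 C2 σ2 b ω : ℝ} (hS : Split univ s C1 C2)
    (h1 : 0 ≤ C1) (h2 : 0 ≤ C2) (hb0 : 0 ≤ b) (hb1 : b ≤ 1) (hσ : 0 ≤ σ2) {V : κ → ℝ}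
    (hV : nsq V ≤ σ2 * b) {d q c i : ι → ℝ} (hd : ∀ j, 0 ≤ d j)
    (hq : ∀ j, d j ^ 2 ≤ 4 / ω ^ 2 * q j) (hc : ∀ j, |c j| ≤ i j) :
    |∑ j, d j * c j * ip (s j) V| ≤
      4 / ω ^ 2 * (C1 * σ2) * ∑ j, q j * c j ^ 2 + √(C2 * σ2) * ∑ j, d j * i j + b / 4 := by
  obtain ⟨M1, M2, e, b1, b2⟩ := hS V
  have e1 : ∑ j, d j * c j * ip (s j) V = ∑ j, d j * c j * M1 j + ∑ j, d j * c j * M2 j := by
    rw [← sum_add_distrib]
    exact sum_congr rfl fun j hj => by rw [e j hj, mul_add]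
  have a2 : |∑ j, d j * c j * M2 j| ≤ √(C2 * σ2) * ∑ j, d j * i j := by
    rw [mul_sum]
    refine (abs_sum_le_sum_abs _ _).trans (sum_le_sum fun j _ => ?_)
    rw [abs_mul, abs_mul, abs_of_nonneg (hd j), mul_comm]
    refine mul_le_mul (Real.abs_le_sqrt ((b2 j).trans (mul_le_mul_of_nonneg_left
      (hV.trans (mul_le_of_le_one_right hσ hb1)) h2)))
      (mul_le_mul_of_nonneg_left (hc j) (hd j)) (mul_nonneg (hd j) (abs_nonneg _))
      (Real.sqrt_nonneg _)
  have a3 : ∑ j, (d j * c j) ^ 2 ≤ 4 / ω ^ 2 * ∑ j, q j * c j ^ 2 := by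
    rw [mul_sum]
    exact sum_le_sum fun j _ => by
      rw [mul_pow, ← mul_assoc]
      exact mul_le_mul_of_nonneg_right (hq j) (sq_nonneg _)
  have a0 : 0 ≤ ∑ j, (d j * c j) ^ 2 := sum_nonneg fun j _ => sq_nonneg _
  have a5 := (sum_mul_sq_le_sq_mul_sq univ (fun j => d j * c j) M1).trans
    (mul_le_mul a3 (b1.trans (mul_le_mul_of_nonneg_left hV h1))
      (sum_nonneg fun j _ => sq_nonneg _) (a0.trans a3))
  have a6 : |∑ j, d j * c j * M1 j| ≤ 4 / ω ^ 2 * (C1 * σ2) * ∑ j, q j * c j ^ 2 + b / 4 := by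
    have a7 := mul_nonneg (mul_nonneg h1 hσ) (a0.trans a3)
    refine abs_le_of_sq_le_sq (a5.trans ?_) (by linarith)
    nlinarith [sq_nonneg (4 / ω ^ 2 * (C1 * σ2) * ∑ j, q j * c j ^ 2 - b / 4)]
  rw [e1]
  linarith [abs_add_le (∑ j, d j * c j * M1 j) (∑ j, d j * c j * M2 j)]

end TV

open TV in
theorem tv_proof (hR : RampStmt) (hT : TorusStmt) (hG : GaussStmt) (hD : DerivStmt) : TVStmt := by
  intro ι κ _ _ _ Γ s t f ω sh C1 C2 hω hω' hsh h1 h2 hL hdual hS hf hI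
  have R := hR.2 ω hω hω'
  obtain ⟨⟨Em, E01⟩, hc1, -, hW, hinv, hder, -⟩ := hD ι ω f hω hω' hf
  have ym : Measurable fun β => t + lin s β :=
    measurable_const.add (measurable_pi_lambda _ fun j => meas_ip _)
  have yadd : ∀ β ξ, t + lin s (β + ξ) = t + lin s β + lin s ξ := fun β ξ => by
    funext j
    simp [lin, ip_add, add_assoc]
  have ysm : ∀ (r : ℝ) ξ, lin s (r • ξ) = r • lin s ξ := fun r ξ => funext fun j => ip_smul _ _ _
  have hρ : ∀ ρ ∈ Γ, ∃ r : ι → ℤ, (lin s ρ = fun i => (r i : ℝ)) ∧ ∀ x, f (x + r) = f x :=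
    fun ρ h => by
      choose r hr using fun j => hdual j ρ h
      exact ⟨r, funext hr, hI ρ h r fun j => (hr j).symm⟩
  set μ := tm fun β => Ey ω f (t + lin s β) with hμ
  have Ei : Integrable (fun β => Ey ω f (t + lin s β)) (cube κ) :=
    bm_int ⟨Em.comp ym, 1, fun β => (abs_of_nonneg (E01 _).1).trans_le (E01 _).2⟩ _
  have μ0 : 0 ≤ μ := integral_nonneg fun β => (E01 _).1
  have μ1 : μ ≤ 1 := (integral_mono Ei (integrable_const 1) fun β => (E01 _).2).trans (by simp)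
  let G : (κ → ℝ) → ℝ := fun β => Ey ω f (t + lin s β) - μ
  have Gm : Measurable G := (Em.comp ym).sub_const _
  have Gb : ∀ β, |G β| ≤ 1 := fun β => abs_le.2 ⟨by
    simp only [G]
    linarith [(E01 (t + lin s β)).1], by
    simp only [G]
    linarith [(E01 (t + lin s β)).2]⟩
  have Gi : ∀ ρ ∈ Γ, ∀ β, G (β + ρ) = G β := fun ρ h β => by
    obtain ⟨r, e, hr⟩ := hρ ρ h
    simp only [G, yadd, e, (hinv r hr _).1]
  have G0 : tm G = 0 := by
    simp only [G, tm] at hμ ⊢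
    rw [integral_sub Ei (integrable_const _)]
    simp [hμ]
  have hσ : √(1 / sh) ^ 2 = 1 / sh := Real.sq_sqrt (by positivity)
  have g1 := spec_gap hT hG (σ := √(1 / sh)) (by rw [hσ, one_div_mul_cancel hsh.ne']) hL ⟨Gm, 1, Gb⟩
    Gi G0
  obtain ⟨⟨Wm, CW, Wb⟩, -, ⟨Im, CI, Ib⟩, hpos⟩ := hW univ
  have Wi : Integrable (fun β => W1 ω univ f (t + lin s β)) (cube κ) :=
    bm_int ⟨Wm.comp ym, CW, fun β => Wb _⟩ _
  have Ii : Integrable (fun β => Inf ω univ f (t + lin s β)) (cube κ) :=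
    bm_int ⟨Im.comp ym, CI, fun β => Ib _⟩ _
  have g2 := core hT hG √(1 / sh) (1 / ω) s (G := G)
    (a := fun β => 4 / ω ^ 2 * (C1 * (1 / sh)) * W1 ω univ f (t + lin s β) +
      √(C2 * (1 / sh)) * Inf ω univ f (t + lin s β))
    (H := fun j β => dpr ω ((t + lin s β) j) * c1 ω f j (t + lin s β))
    (fun β n => Gi _ (hL.1 n) β) Gm Gb
    (fun j β n => by
      obtain ⟨r, e, hr⟩ := hρ _ (hL.1 n)
      simp only [yadd, e, ((hinv r hr _).2.1 j).1]
      rw [Pi.add_apply _ fun i => (r i : ℝ), R.dpr_per])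
    (fun j => (R.dpr_meas.comp ((measurable_pi_apply j).comp ym)).mul ((hc1 j).1.comp ym))
    (fun j β => by
      rw [abs_mul, abs_of_nonneg (R.dpr_nonneg _)]
      exact (mul_le_of_le_one_right (R.dpr_nonneg _)
        (((hc1 j).2.2 _).1.trans ((hc1 j).2.2 _).2)).trans (R.dpr_le _))
    ⟨((Wm.comp ym).const_mul _).add ((Im.comp ym).const_mul _),
      |4 / ω ^ 2 * (C1 * (1 / sh))| * CW + |√(C2 * (1 / sh))| * CI, fun β =>
      (abs_add_le _ _).trans (by
        rw [abs_mul _ (W1 _ _ _ _), abs_mul _ (Inf _ _ _ _)]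
        exact add_le_add (mul_le_mul_of_nonneg_left (Wb _) (abs_nonneg _))
          (mul_le_mul_of_nonneg_left (Ib _) (abs_nonneg _)))⟩
    (fun β ξ => by
      simp only [G, yadd, ysm, sub_sub_sub_cancel_right, hder, mul_assoc]
      rfl)
    (fun β V b b0 b1 hV => pair hS h1 h2 b0 b1 (by positivity) (hσ ▸ hV)
      (fun j => R.dpr_nonneg _) (fun j => R.dpr_sq_le _) fun j => ((hc1 j).2.2 _).1)
  have e1 : tm (fun β => G β ^ 2) = tm (fun β => Ey ω f (t + lin s β) ^ 2) - μ ^ 2 := by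
    have e2 : ∀ β, G β ^ 2 = Ey ω f (t + lin s β) ^ 2 - 2 * μ * Ey ω f (t + lin s β) + μ ^ 2 :=
      fun β => by
        simp only [G]
        ring
    have Ei2 : Integrable (fun β => Ey ω f (t + lin s β) ^ 2) (cube κ) :=
      bm_int ⟨(Em.comp ym).pow_const 2, 1, fun β => by
        rw [abs_of_nonneg (sq_nonneg _)]
        exact pow_le_one₀ (E01 _).1 (E01 _).2⟩ _
    simp only [e2, tm] at hμ ⊢
    rw [integral_add (f := fun β => Ey ω f (t + lin s β) ^ 2 - 2 * μ * Ey ω f (t + lin s β))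
      (Ei2.sub (Ei.const_mul _)) (integrable_const _),
      integral_sub Ei2 (Ei.const_mul _), integral_const_mul, ← hμ]
    simp only [integral_const, probReal_univ, one_smul]
    ring
  rw [← e1]
  simp only [tm] at g1 g2 ⊢
  rw [integral_add (Wi.const_mul _) (Ii.const_mul _), integral_const_mul,
    integral_const_mul, mul_one_div, mul_one_div] at g2
  have i0 : 0 ≤ √(C2 / sh) * ∫ β, Inf ω univ f (t + lin s β) ∂cube κ :=
    mul_nonneg (Real.sqrt_nonneg _) (integral_nonneg fun β => (hpos _).2.2.2)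
  have i1 : 4 ≤ 16 / ω ^ 2 := by
    rw [le_div_iff₀ (by positivity)]
    nlinarith
  have i2 := mul_le_mul_of_nonneg_right i1 i0
  have i3 : 16 / ω ^ 2 = 4 * (4 / ω ^ 2) := by ring
  rw [mul_add]
  nth_rewrite 1 [i3]
  linarith

end Vale.Agent.P318.M
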