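import Vale.Agent.P318.M.Block0

/-! The block lemma. -/

namespace Vale.Agent.P318.M

open Finset MeasureTheory ProbabilityTheory

namespace Block

section Kashin

variable {ι κ : Type} [Fintype ι] [DecidableEq ι] [Fintype κ] {ω : ℝ} {Γ : AddSubgroup (κ → ℝ)}
  {s : ι → κ → ℤ} {h : (ι → ℤ) → ℝ}

omit [Fintype ι] [DecidableEq ι] in
theorem exists_shift (hd : ∀ j, Dual Γ (s j)) (hi : Inv Γ s h) {ρ : κ → ℝ} (hρ : ρ ∈ Γ) :
    ∃ r : ι → ℤ, (∀ x, h (x + r) = h x) ∧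
      ∀ t β, t + lin s (β + ρ) = t + lin s β + fun i => (r i : ℝ) := by
  choose r hr using fun j => hd j ρ hρ
  refine ⟨r, hi ρ hρ r fun j => (hr j).symm, fun t β => funext fun j => ?_⟩
  simp only [Pi.add_apply, lin, ip_add, hr, add_assoc]

omit [DecidableEq ι] [Fintype ι] in
theorem meas_lin (s : ι → κ → ℤ) (t : ι → ℝ) : Measurable fun η => t + lin s η :=
  measurable_pi_lambda _ fun j => (meas_ip (s j)).const_add (t j)

theorem bm_c1 (hD : DerivStmt) (h0 : 0 < ω) (h1 : ω ≤ 1 / 8) (hU : U01 h) (s : ι → κ → ℤ)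
    (t : ι → ℝ) (j : ι) : BM fun η => c1 ω h j (t + lin s η) := by
  obtain ⟨a, -, b⟩ := (hD ι ω h h0 h1 hU).2.1 j
  exact bm_comp ⟨a, 1, fun y => (b y).1.trans (b y).2⟩ (meas_lin s t)

theorem inv_c1 (hD : DerivStmt) (h0 : 0 < ω) (h1 : ω ≤ 1 / 8) (hU : U01 h)
    (hd : ∀ j, Dual Γ (s j)) (hi : Inv Γ s h) (t : ι → ℝ) (j : ι) {ρ : κ → ℝ} (hρ : ρ ∈ Γ)
    (β : κ → ℝ) : c1 ω h j (t + lin s (β + ρ)) = c1 ω h j (t + lin s β) := by
  obtain ⟨r, a, b⟩ := exists_shift hd hi hρ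
  rw [b]
  exact (((hD ι ω h h0 h1 hU).2.2.2.2.1 r a _).2.1 j).1

/-- The mean first derivatives lie in the kernel of the matrix. -/
theorem kernel (R : RampAt ω) (hT : TorusStmt) (hD : DerivStmt) (h0 : 0 < ω) (h1 : ω ≤ 1 / 8)
    (hU : U01 h) (hn : ∀ n : κ → ℤ, (fun k => (n k : ℝ)) ∈ Γ) (hd : ∀ j, Dual Γ (s j))
    (hi : Inv Γ s h) (t : ι → ℝ) (k : κ) :
    ∑ j, tm (fun η => dpr ω (t j + ip (s j) η) * c1 ω h j (t + lin s η)) * (s j k : ℝ) = 0 := by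
  classical
  obtain ⟨⟨mE, uE⟩, -, -, -, iv, d1, -⟩ := hD ι ω h h0 h1 hU
  have bE : BM fun η => Ey ω h (t + lin s η) :=
    bm_comp (bm_of_mem mE (fun y => (uE y).1) fun y => (uE y).2) (meas_lin s t)
  have pE : Per fun η => Ey ω h (t + lin s η) := fun β n => by
    obtain ⟨r, a, b⟩ := exists_shift hd hi (hn n)
    simp only [b]
    exact (iv r a _).1
  have bj : ∀ j, BM fun η => (s j k : ℝ) *
      (dpr ω (t j + ip (s j) η) * c1 ω h j (t + lin s η)) := fun j =>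
    bm_mul (bm_const _) (bm_mul (bm_line (bm_dpr R) _ _) (bm_c1 hD h0 h1 hU s t j))
  obtain ⟨Φ, hΦ⟩ : ∃ Φ : (κ → ℝ) → ℝ, Φ = fun η => ∑ j, (s j k : ℝ) *
    (dpr ω (t j + ip (s j) η) * c1 ω h j (t + lin s η)) := ⟨_, rfl⟩
  have bΦ : BM Φ := hΦ ▸ bm_sum _ fun j _ => bj j
  have pΦ : Per Φ := fun β n => by
    rw [hΦ]
    refine sum_congr rfl fun j _ => ?_
    obtain ⟨m, hm⟩ := hd j _ (hn n)
    rw [inv_c1 hD h0 h1 hU hd hi t j (hn n), ip_add, hm, ← add_assoc, R.dpr_per]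
  have e : ∀ η, Ey ω h (t + lin s (η + Pi.single k 1)) - Ey ω h (t + lin s η) =
      ∫ r in (0 : ℝ)..1, Φ (η + r • Pi.single k 1) := fun η => by
    have a : t + lin s (η + Pi.single k 1) = t + lin s η + fun j => (s j k : ℝ) :=
      funext fun j => by simp only [Pi.add_apply, lin, ip_add, ip_single, mul_one, add_assoc]
    rw [a, d1, hΦ]
    refine intervalIntegral.integral_congr fun r _ => sum_congr rfl fun j _ => ?_
    have b : t + lin s (η + r • Pi.single k 1) = t + lin s η + r • fun j => (s j k : ℝ) :=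
      funext fun j => by
        simp only [Pi.add_apply, lin, ip_add, ip_smul, ip_single, mul_one, add_assoc,
          Pi.smul_apply, smul_eq_mul]
    rw [b]
    simp only [Pi.add_apply, lin, ip_add, ip_smul, ip_single, mul_one, add_assoc, mul_assoc]
  have z : tm (fun η => ∫ r in (0 : ℝ)..1, Φ (η + r • Pi.single k 1)) = 0 := by
    simp only [← e]
    have m : Measurable fun η : κ → ℝ => η + Pi.single k 1 := measurable_id.add_const _
    rw [tm_sub (bm_comp bE m) bE, (hT κ).1 _ pE bE, sub_self]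
  have fin : IsFiniteMeasure (volume.restrict (Set.uIoc (0 : ℝ) 1)) := by
    rw [Set.uIoc_of_le zero_le_one]; infer_instance
  have sw := intervalIntegral_integral_swap (μ := cube κ) (a := 0) (b := 1)
    (f := fun r η => Φ (η + r • Pi.single k 1))
    (bm_int (bm_comp bΦ (g := fun p : ℝ × (κ → ℝ) => p.2 + p.1 • Pi.single k 1) (by fun_prop)) _)
  have z2 : ∫ r in (0 : ℝ)..1, tm (fun η => Φ (η + r • Pi.single k 1)) = 0 := sw.trans z
  simp only [(hT κ).1 _ pΦ bΦ, intervalIntegral.integral_const, sub_zero, one_smul] at z2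
  rw [hΦ, tm_sum _ fun j _ => bj j] at z2
  rw [← z2]
  exact sum_congr rfl fun j _ => by rw [tm_cmul, mul_comm]

/-- The mean first derivatives are small. -/
theorem kashin (R : RampAt ω) (hT : TorusStmt) (hD : DerivStmt) (h0 : 0 < ω) (h1 : ω ≤ 1 / 8)
    (hU : U01 h) (hn : ∀ n : κ → ℤ, (fun k => (n k : ℝ)) ∈ Γ) (hd : ∀ j, Dual Γ (s j))
    (hi : Inv Γ s h) (t : ι → ℝ) {J : Finset ι} (hJ : ∀ j, j ∉ J → s j = 0) {ε : ℝ} (hε : 0 ≤ ε)
    (hK : Ksh J s (ε ^ 2)) :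
    ∑ j ∈ J, tm (fun η => dpr ω (t j + ip (s j) η) * c1 ω h j (t + lin s η)) ^ 2 ≤
      2 / ω * (ε * tm fun η => Inf ω J h (t + lin s η)) := by
  obtain ⟨-, cb, -, wb, -⟩ := hD ι ω h h0 h1 hU
  have bc := bm_c1 hD h0 h1 hU s t
  have bd : ∀ j, BM fun η => dpr ω (t j + ip (s j) η) := fun j => bm_line (bm_dpr R) _ _
  have bi : ∀ j, BM fun η => inf1 ω h j (t + lin s η) := fun j =>
    bm_comp (bm_of_mem (cb j).2.1 (fun y => (abs_nonneg _).trans ((cb j).2.2 y).1)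
      fun y => ((cb j).2.2 y).2) (meas_lin s t)
  have a1 := hK (fun j => tm fun η => dpr ω (t j + ip (s j) η) * c1 ω h j (t + lin s η))
    fun k => by
      rw [← kernel R hT hD h0 h1 hU hn hd hi t k]
      exact sum_subset (subset_univ J) fun j _ hj => by simp [hJ j hj]
  have a2 : ∑ j ∈ J, |tm fun η => dpr ω (t j + ip (s j) η) * c1 ω h j (t + lin s η)| ≤
      tm fun η => Inf ω J h (t + lin s η) := by
    refine le_trans (sum_le_sum fun j _ => (abs_tm_le _).trans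
      (tm_mono (bm_abs (bm_mul (bd j) (bc j))) (bm_mul (bd j) (bi j)) fun η => ?_))
      (tm_sum J fun j _ => bm_mul (bd j) (bi j)).ge
    rw [abs_mul, abs_of_nonneg (R.dpr_nonneg _)]
    exact mul_le_mul_of_nonneg_left ((cb j).2.2 _).1 (R.dpr_nonneg _)
  have bp : ∀ j, BM fun η => pq ω (t j + ip (s j) η) * c1 ω h j (t + lin s η) ^ 2 := fun j =>
    bm_mul (bm_line (bm_pq R) _ _) (bm_sq (bc j))
  have a3 : ∑ j ∈ J, tm (fun η => dpr ω (t j + ip (s j) η) * c1 ω h j (t + lin s η)) ^ 2 ≤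
      (2 / ω) ^ 2 := by
    have b1 : tm (fun η => W1 ω J h (t + lin s η)) ≤ 1 :=
      (tm_mono (bm_comp (wb J).1 (meas_lin s t)) (bm_const 1)
        fun η => ((wb J).2.2.2 _).2.1).trans (tm_const 1).le
    have b2 : tm (fun η => W1 ω J h (t + lin s η)) =
        ∑ j ∈ J, tm fun η => pq ω (t j + ip (s j) η) * c1 ω h j (t + lin s η) ^ 2 :=
      tm_sum J fun j _ => bp j
    refine (sum_le_sum fun j _ => (tm_sq_le (bm_mul (bd j) (bc j))).trans
      ((tm_mono (bm_sq (bm_mul (bd j) (bc j))) (bm_mul (bm_const (4 / ω ^ 2)) (bp j))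
        fun η => ?_).trans (tm_cmul _ _).le)).trans ?_
    · rw [mul_pow, ← mul_assoc]
      exact mul_le_mul_of_nonneg_right (R.dpr_sq_le _) (sq_nonneg _)
    · rw [← mul_sum, ← b2, div_pow]
      exact (mul_le_of_le_one_right (by positivity) b1).trans (le_of_eq (by norm_num))
  have a0 : 0 ≤ ∑ j ∈ J, |tm fun η => dpr ω (t j + ip (s j) η) * c1 ω h j (t + lin s η)| :=
    sum_nonneg fun _ _ => abs_nonneg _
  have a4 := a1.trans (mul_le_mul_of_nonneg_left (pow_le_pow_left₀ a0 a2 2) (sq_nonneg ε))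
  refine (abs_le_of_sq_le_sq' ?_ (mul_nonneg (by positivity) (mul_nonneg hε (a0.trans a2)))).2
  rw [sq, mul_pow, mul_pow]
  exact mul_le_mul a3 a4 (sum_nonneg fun _ _ => sq_nonneg _) (sq_nonneg _)

end Kashin

/-! ### Parameters -/

theorem exp_small {c r : ℝ} (hc : 0 < c) (hr : 0 < r) :
    Real.exp (-(c / r ^ 2)) ≤ 3628800 / c ^ 10 * r ^ 20 := by
  have := Real.pow_div_factorial_le_exp (c / r ^ 2) (by positivity) 10
  rw [Real.exp_neg]
  refine (inv_anti₀ (by positivity) this).trans (le_of_eq ?_)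
  norm_num [Nat.factorial]
  field_simp

theorem params (hG : GaussStmt) {c0 : ℝ} (hc : 0 < c0) : ∃ r0 : ℝ, 0 < r0 ∧ r0 ≤ 1 / 10 ∧
    ∀ r : ℝ, 0 < r → r ≤ r0 → bb (1 / r) r ≤ 1 ∧ 0 < A0 (1 / r) r ∧ 0 ≤ A1 (1 / r) r ∧
      (4 * Real.pi * r ^ 16 + 4 * Real.pi * Real.sqrt (2 * r ^ 16)) * A1 (1 / r) r ≤
        A0 (1 / r) r / 8 ∧
      (Real.exp (-(Real.pi ^ 2 * (1 / r) ^ 2 * c0 / 2)) + 2 * Real.exp (-(1 / (8 * r ^ 2)))) /
        r ^ 16 ≤ A0 (1 / r) r / 8 := by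
  have pi3 := Real.pi_gt_three
  have pi4 := Real.pi_lt_four
  obtain ⟨K, hK⟩ : ∃ K : ℝ, K = 3628800 / (Real.pi ^ 2 * c0 / 2) ^ 10 +
    2 * (3628800 / (1 / 8) ^ 10) := ⟨_, rfl⟩
  have K0 : 0 < K := by rw [hK]; positivity
  refine ⟨min (1 / 10) (1 / (16 * K)), by positivity, min_le_left _ _, fun r r0 r1 => ?_⟩
  have ra : r ≤ 1 / 10 := r1.trans (min_le_left _ _)
  have rb : r * (16 * K) ≤ 1 := (le_div_iff₀ (by positivity)).1 (r1.trans (min_le_right _ _))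
  have r2 : r ^ 2 ≤ 1 / 100 := by nlinarith
  have r4 : r ^ 4 ≤ 1 / 10000 := by nlinarith [sq_nonneg r, sq_nonneg (r ^ 2)]
  have p4 : 0 < r ^ 4 := by positivity
  have eb : bb (1 / r) r = 2 * Real.pi ^ 2 * r ^ 2 / (1 + r ^ 4) := by
    unfold bb; field_simp
  have b1 : bb (1 / r) r ≤ 1 := by
    rw [eb, div_le_one (by positivity)]
    nlinarith [mul_le_mul (show Real.pi ^ 2 ≤ 16 by nlinarith) r2 (sq_nonneg r) (by norm_num)]
  have b2 : 9 * r ^ 2 ≤ bb (1 / r) r := by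
    rw [eb, le_div_iff₀ (by positivity)]
    nlinarith [mul_le_mul_of_nonneg_right (show 9 ≤ Real.pi ^ 2 by nlinarith) (sq_nonneg r),
      mul_le_mul_of_nonneg_left r4 (sq_nonneg r)]
  obtain ⟨-, -, k1, k2, k3, k4⟩ := hG.2 (1 / r) r (by positivity) r0 b1
  have k5 : r ^ 2 / 2 ≤ k0 (1 / r) r := by
    unfold k0
    rw [le_div_iff₀ (by positivity), ← le_div_iff₀' (by positivity)]
    refine Real.sqrt_le_iff.2 ⟨by positivity, ?_⟩
    rw [show 1 + (1 / r) ^ 2 / r ^ 2 = (r ^ 4 + 1) / r ^ 4 by field_simp,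
      show (1 / (r ^ 2 / 2)) ^ 2 = 4 / r ^ 4 by field_simp; norm_num]
    gcongr
    linarith
  refine ⟨b1, k1.trans_le k2, k3, ?_, ?_⟩
  · have s1 : Real.sqrt (2 * r ^ 16) ≤ 2 * r ^ 8 :=
      Real.sqrt_le_iff.2 ⟨by positivity, by nlinarith [pow_pos r0 16]⟩
    have s2 : r ^ 16 ≤ r ^ 8 := pow_le_pow_of_le_one r0.le (by linarith) (by norm_num)
    have s3 : A1 (1 / r) r ≤ 8 * k0 (1 / r) r / (9 * r ^ 2) ^ 2 := k4.trans (by gcongr)
    have s4 : 4 * Real.pi * r ^ 16 + 4 * Real.pi * Real.sqrt (2 * r ^ 16) ≤ 48 * r ^ 8 := by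
      have := Real.sqrt_nonneg (2 * r ^ 16)
      nlinarith [pow_pos r0 16, pow_pos r0 8]
    refine (mul_le_mul s4 s3 k3 (by positivity)).trans ?_
    rw [show 48 * r ^ 8 * (8 * k0 (1 / r) r / (9 * r ^ 2) ^ 2) =
      128 / 27 * r ^ 4 * k0 (1 / r) r by field_simp; norm_num]
    nlinarith [mul_le_mul_of_nonneg_right r4 k1.le]
  · have s1 := exp_small (c := Real.pi ^ 2 * c0 / 2) (by positivity) r0
    have s2 := exp_small (c := 1 / 8) (by norm_num) r0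
    rw [show Real.pi ^ 2 * c0 / 2 / r ^ 2 = Real.pi ^ 2 * (1 / r) ^ 2 * c0 / 2 by field_simp] at s1
    rw [show 1 / 8 / r ^ 2 = 1 / (8 * r ^ 2) by field_simp] at s2
    have s3 : Real.exp (-(Real.pi ^ 2 * (1 / r) ^ 2 * c0 / 2)) +
        2 * Real.exp (-(1 / (8 * r ^ 2))) ≤ K * r ^ 20 := by
      rw [hK]; linarith
    rw [div_le_iff₀ (by positivity)]
    refine s3.trans ?_
    have s4 : K * r ^ 2 ≤ 1 / 16 := by nlinarith
    calc K * r ^ 20 = K * r ^ 2 * r ^ 18 := by ring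
      _ ≤ 1 / 16 * r ^ 18 := by gcongr
      _ = r ^ 2 / 2 / 8 * r ^ 16 := by ring
      _ ≤ _ := by gcongr; exact k5.trans k2

end Block

open Block in
theorem block_proof (hR : RampStmt) (hT : TorusStmt) (hG : GaussStmt) (hL : LineStmt)
    (hD : DerivStmt) (hN : NearStmt) : BlockStmt := by
  intro c0 hc
  obtain ⟨r0, p0, p1, hp⟩ := params hG hc
  have q0 : r0 ^ 16 ≤ 1 / 8 :=
    (pow_le_pow_of_le_one p0.le (by linarith) (by norm_num : 1 ≤ 16)).trans (by linarith)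
  refine ⟨r0 ^ 16, by positivity, q0, fun ω C1 h0 h1 hC => ?_⟩
  obtain ⟨r, rp, rfl⟩ : ∃ r : ℝ, 0 < r ∧ r ^ 16 = ω :=
    ⟨ω ^ (((16 : ℕ) : ℝ)⁻¹), by positivity, Real.rpow_inv_natCast_pow h0.le (by norm_num)⟩
  obtain ⟨b1, a0, a1, k1, k2⟩ := hp r rp (le_of_pow_le_pow_left₀ (by norm_num) p0.le h1)
  have h8 := h1.trans q0
  generalize r ^ 16 = ω at *
  have R := hR.2 ω h0 h8
  obtain ⟨C, C0, hC⟩ := hN ω (1 / r) (ω / 256) (A0 (1 / r) r / 8) C1 h0 h8 (by positivity)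
    (by positivity) (by linarith) (by positivity) hC
  refine ⟨4 / ω + 4 * C / A0 (1 / r) r, by positivity, ?_⟩
  intro ι κ _ _ _ _ Γ J s ε l hLat hd hpm hJ hS hK e0 e1 hl t h hU hi
  have cp : (0 : ℝ) < Fintype.card κ := Nat.cast_pos.2 Fintype.card_pos
  have hσ : (1 / r) ^ 2 = (1 / r / Real.sqrt (Fintype.card κ)) ^ 2 * Fintype.card κ := by
    rw [div_pow (1 / r), Real.sq_sqrt cp.le, div_mul_cancel₀ _ cp.ne']
  have N := (abs_le.1 (hC ι κ Γ J s t h _ ε l (chi r) hLat.1 hJ hU hi hσ hS e0 e1 hl (bm_chi r).1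
    fun u => (abs_of_nonneg (Real.exp_pos _).le).trans_le (chi_le r u))).2
  have bc := bm_c1 hD h0 h8 hU s t
  have O := sum_le_sum fun j (hj : j ∈ J) =>
    Hyp.one ⟨R, h0, hLat.1, hpm j hj, hd j, bc j, fun ρ hρ β =>
      inv_c1 hD h0 h8 hU hd hi t j hρ β⟩ hT hG hL (t j) hLat rp (by positivity) hσ b1 a0.le a1
      h8 k1 k2
  have Ks := kashin R hT hD h0 h8 hU hLat.1 hd hi t hJ e0 hK
  have b2 : tm (fun η => W1 ω J h (t + lin s η)) =
      ∑ j ∈ J, tm fun η => pq ω (t j + ip (s j) η) * c1 ω h j (t + lin s η) ^ 2 :=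
    tm_sum J fun j _ => bm_mul (bm_line (bm_pq R) _ _) (bm_sq (bc j))
  rw [sum_add_distrib, ← mul_sum, ← b2, ← sum_div, ← mul_sum] at O
  obtain ⟨-, -, -, wb, -⟩ := hD ι ω h h0 h8 hU
  have n1 : 0 ≤ tm fun η => W2 ω J h (t + lin s η) := tm_nonneg fun η => ((wb J).2.2.2 _).2.2.1
  have n2 : 0 ≤ ε * tm fun η => Inf ω J h (t + lin s η) :=
    mul_nonneg e0 (tm_nonneg fun η => ((wb J).2.2.2 _).2.2.2)
  have n3 : 0 ≤ (J.card : ℝ) * Real.exp (-l) := by positivity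
  have n4 := mul_le_mul_of_nonneg_right hl n2
  have O2 := O.trans (add_le_add le_rfl N)
  generalize tm (fun η => W1 ω J h (t + lin s η)) = x1 at *
  generalize tm (fun η => W2 ω J h (t + lin s η)) = x2 at *
  generalize tm (fun η => Inf ω J h (t + lin s η)) = x3 at *
  have K2 : 2 / ω * (ε * x3) ≤ 2 / ω * (x2 + l * ε * x3 + J.card * Real.exp (-l)) :=
    mul_le_mul_of_nonneg_left (by linarith) (by positivity)
  have K3 := mul_le_mul_of_nonneg_left (Ks.trans K2) a0.le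
  refine le_of_mul_le_mul_left ?_ a0
  rw [show ∀ X : ℝ, A0 (1 / r) r * ((4 / ω + 4 * C / A0 (1 / r) r) * X) =
    2 * (A0 (1 / r) r * (2 / ω * X)) + 4 * (C * X) from fun X => by field_simp; ring]
  linarith

end Vale.Agent.P318.M
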