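import Vale.Agent.P318.M.Stmt

/-!
The part of the Gaussian move which stays in the same window.
-/

namespace Vale.Agent.P318.M

open Finset MeasureTheory ProbabilityTheory

namespace Near

set_option linter.unusedSectionVars false

section Basic

variable {ι κ : Type} [Fintype κ]

lemma ip_add (m : κ → ℤ) (a b : κ → ℝ) : ip m (a + b) = ip m a + ip m b := by
  simp [ip, mul_add, sum_add_distrib]

lemma ip_sub (m : κ → ℤ) (a b : κ → ℝ) : ip m (a - b) = ip m a - ip m b := by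
  simp [ip, mul_sub, sum_sub_distrib]

lemma ip_smul (m : κ → ℤ) (r : ℝ) (a : κ → ℝ) : ip m (r • a) = r * ip m a := by
  simp only [ip, Pi.smul_apply, smul_eq_mul, mul_sum]
  exact sum_congr rfl fun k _ => by ring

@[fun_prop]
lemma continuous_ip (m : κ → ℤ) : Continuous (ip m) := by
  unfold ip; fun_prop

@[fun_prop]
lemma measurable_ip (m : κ → ℤ) : Measurable (ip m) := (continuous_ip m).measurable

@[fun_prop]
lemma measurable_lin (s : ι → κ → ℤ) : Measurable (lin s) :=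
  measurable_pi_lambda _ fun j => measurable_ip (s j)

lemma lin_add (s : ι → κ → ℤ) (a b : κ → ℝ) : lin s (a + b) = lin s a + lin s b := by
  funext j; simp [lin, ip_add]

lemma lin_smul (s : ι → κ → ℤ) (r : ℝ) (a : κ → ℝ) : lin s (r • a) = r • lin s a := by
  funext j; simp [lin, ip_smul]

lemma abs_ip_le (m : κ → ℤ) (ξ : κ → ℝ) :
    |ip m ξ| ≤ (∑ k, |(m k : ℝ)|) * ∑ k, |ξ k| := by
  unfold ip
  refine (abs_sum_le_sum_abs _ _).trans ?_
  rw [sum_mul]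
  refine sum_le_sum fun k _ => ?_
  rw [abs_mul]
  exact mul_le_mul_of_nonneg_left
    (single_le_sum (f := fun k => |ξ k|) (fun _ _ => abs_nonneg _) (mem_univ k)) (abs_nonneg _)

/-- The integer vector `S^T n`. -/
def ivec (s : ι → κ → ℤ) (n : κ → ℤ) : ι → ℤ := fun j => ∑ k, s j k * n k

lemma ivec_cast (s : ι → κ → ℤ) (n : κ → ℤ) (j : ι) :
    (ivec s n j : ℝ) = lin s (fun k => (n k : ℝ)) j := by
  simp [ivec, lin, ip]

lemma off_shift (s : ι → κ → ℤ) (t : ι → ℝ) (η : κ → ℝ) (n : κ → ℤ) :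
    t + lin s (η + fun k => (n k : ℝ)) = (t + lin s η) + fun i => (ivec s n i : ℝ) := by
  rw [lin_add, add_assoc]
  congr 2
  funext j; rw [ivec_cast]

lemma swap3 {α β γ : Type} [MeasurableSpace α] [MeasurableSpace β] [MeasurableSpace γ]
    (μ : Measure α) (ν : Measure β) (ρ : Measure γ) [SFinite μ] [SFinite ν] [SFinite ρ]
    (Φ : α → β → γ → ℝ)
    (hint : Integrable (fun p : (α × β) × γ => Φ p.1.1 p.1.2 p.2) ((μ.prod ν).prod ρ)) :
    ∫ a, ∫ b, ∫ c, Φ a b c ∂ρ ∂ν ∂μ = ∫ c, ∫ a, ∫ b, Φ a b c ∂ν ∂μ ∂ρ := by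
  have h1 : ∫ a, ∫ b, ∫ c, Φ a b c ∂ρ ∂ν ∂μ =
      ∫ p : α × β, ∫ c, Φ p.1 p.2 c ∂ρ ∂(μ.prod ν) :=
    (integral_prod (fun p : α × β => ∫ c, Φ p.1 p.2 c ∂ρ) hint.integral_prod_left).symm
  rw [h1, integral_integral_swap (f := fun (p : α × β) c => Φ p.1 p.2 c) hint]
  refine integral_congr_ae ?_
  filter_upwards [hint.prod_left_ae] with c hc
  exact integral_prod (fun p : α × β => Φ p.1 p.2 c) hc

lemma int3 {α β γ : Type} [MeasurableSpace α] [MeasurableSpace β] [MeasurableSpace γ]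
    (μ : Measure α) (ν : Measure β) (ρ : Measure γ) [SFinite μ] [SFinite ν] [SFinite ρ]
    (Φ : α → β → γ → ℝ)
    (hint : Integrable (fun p : (α × β) × γ => Φ p.1.1 p.1.2 p.2) ((μ.prod ν).prod ρ)) :
    Integrable (fun c => ∫ a, ∫ b, Φ a b c ∂ν ∂μ) ρ := by
  refine hint.integral_prod_right.congr ?_
  filter_upwards [hint.prod_left_ae] with c hc
  exact integral_prod (fun p : α × β => Φ p.1 p.2 c) hc

lemma integrable_sum_abs {σ : ℝ} (hi : ∀ k, Integrable (fun ξ : κ → ℝ => ξ k) (gm κ σ)) (C : ℝ) :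
    Integrable (fun ξ : κ → ℝ => C * ∑ k, |ξ k|) (gm κ σ) :=
  (integrable_finsetSum _ fun k _ => (hi k).abs).const_mul C

lemma integrable_BM {α : Type} [MeasurableSpace α] (μ : Measure α) [IsFiniteMeasure μ]
    {F : α → ℝ} (hF : BM F) : Integrable F μ := by
  obtain ⟨hm, C, hC⟩ := hF
  exact Integrable.mono' (integrable_const C) hm.aestronglyMeasurable
    (ae_of_all _ fun x => by simpa using hC x)

end Basic

section Main

variable {ι κ : Type} [Fintype ι] [DecidableEq ι] [Fintype κ]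

/-- The facts on the coefficients which are used. -/
structure DAt (ω : ℝ) (h : (ι → ℤ) → ℝ) : Prop where
  c1m : ∀ j, Measurable (c1 ω h j)
  c1b : ∀ j y, |c1 ω h j y| ≤ 1
  c2m : ∀ j j', Measurable (c2 ω h j j')
  c2b : ∀ j j' y, |c2 ω h j j' y| ≤ 2
  bm : ∀ J, BM (W1 ω J h) ∧ BM (W2 ω J h) ∧ BM (Inf ω J h)
  nn : ∀ J y, 0 ≤ W1 ω J h y ∧ W1 ω J h y ≤ 1 ∧ 0 ≤ W2 ω J h y ∧ 0 ≤ Inf ω J h y
  inv1 : ∀ r : ι → ℤ, (∀ x, h (x + r) = h x) → ∀ y j,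
    c1 ω h j (y + fun i => (r i : ℝ)) = c1 ω h j y
  inv2 : ∀ r : ι → ℤ, (∀ x, h (x + r) = h x) → ∀ y j j',
    c2 ω h j j' (y + fun i => (r i : ℝ)) = c2 ω h j j' y
  invW : ∀ r : ι → ℤ, (∀ x, h (x + r) = h x) → ∀ y J,
    W1 ω J h (y + fun i => (r i : ℝ)) = W1 ω J h y
  d2 : ∀ (y u : ι → ℝ) (j : ι), (∀ r : ℝ, 0 ≤ r → r ≤ 1 → ⌊y j + r * u j⌋ = ⌊y j⌋) →
      c1 ω h j (y + u) - c1 ω h j y =
        ∫ r in (0 : ℝ)..1, ∑ j' ∈ univ.erase j,
          u j' * dpr ω (y j' + r * u j') * c2 ω h j j' (y + r • u)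

lemma dAt (hD : DerivStmt) {ω : ℝ} (h0 : 0 < ω) (h8 : ω ≤ 1 / 8) {h : (ι → ℤ) → ℝ}
    (hh : U01 h) : DAt ω h := by
  obtain ⟨-, h1, h2, h3, h4, -, h6⟩ := hD ι ω h h0 h8 hh
  exact
    { c1m := fun j => (h1 j).1
      c1b := fun j y => ((h1 j).2.2 y).1.trans ((h1 j).2.2 y).2
      c2m := fun j j' => (h2 j j').1
      c2b := fun j j' => (h2 j j').2
      bm := fun J => ⟨(h3 J).1, (h3 J).2.1, (h3 J).2.2.1⟩
      nn := fun J => (h3 J).2.2.2
      inv1 := fun r hr y j => ((h4 r hr y).2.1 j).1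
      inv2 := fun r hr y j j' => (h4 r hr y).2.2.1 j j'
      invW := fun r hr y J => ((h4 r hr y).2.2.2 J).1
      d2 := h6 }

noncomputable def wj (s : ι → κ → ℤ) (χ : ℝ → ℝ) (j : ι) (ξ : κ → ℝ) : ℝ :=
  if |ip (s j) ξ| < 1 / 2 then χ (ip (s j) ξ) else 0

noncomputable def gj (ω e3 : ℝ) (s : ι → κ → ℤ) (t : ι → ℝ) (h : (ι → ℤ) → ℝ) (j : ι)
    (ξ η : κ → ℝ) : ℝ :=
  pq ω ((t + lin s η) j) * c1 ω h j (t + lin s η) * psi ω e3 ((t + lin s (η + ξ)) j)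

noncomputable def Hj (ω : ℝ) (J : Finset ι) (s : ι → κ → ℤ) (h : (ι → ℤ) → ℝ) (j : ι)
    (ξ : κ → ℝ) (y : ι → ℝ) : ℝ :=
  ∑ j' ∈ J.erase j, ip (s j') ξ * dpr ω (y j') * c2 ω h j j' y

variable {ω e3 : ℝ} {J : Finset ι} {s : ι → κ → ℤ} {t : ι → ℝ} {h : (ι → ℤ) → ℝ} {χ : ℝ → ℝ}

lemma abs_wj_le (hχ : ∀ u, |χ u| ≤ 1) (j : ι) (ξ : κ → ℝ) : |wj s χ j ξ| ≤ 1 := by
  unfold wj; split_ifs
  · exact hχ _
  · simp

lemma measurable_wj (hχ : Measurable χ) (j : ι) : Measurable (wj s χ j) := by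
  unfold wj
  refine Measurable.ite ?_ (hχ.comp (measurable_ip _)) measurable_const
  exact measurableSet_lt (by fun_prop) measurable_const

lemma psi_nonneg (hR : RampAt ω) (y : ℝ) : 0 ≤ psi ω e3 y := by
  unfold psi; split_ifs
  · exact hR.dpr_nonneg y
  · exact le_rfl

lemma psi_le (hR : RampAt ω) (h0 : 0 < ω) (y : ℝ) : psi ω e3 y ≤ 1 / ω := by
  unfold psi; split_ifs
  · exact hR.dpr_le y
  · positivity

/-- If the weight is nonzero, the segment stays in the window. -/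
lemma stay (hR : RampAt ω) (he : 0 < e3) (he2 : e3 ≤ 1 / 2) {j : ι} {ξ η : κ → ℝ}
    (hne : wj s χ j ξ * gj ω e3 s t h j ξ η ≠ 0) {r : ℝ} (hr0 : 0 ≤ r) (hr1 : r ≤ 1) :
    ⌊(t + lin s η) j + r * ip (s j) ξ⌋ = ⌊(t + lin s η) j⌋ ∧
      pq ω ((t + lin s η) j) ≤ 1 / (2 * e3 ^ 2) * pq ω ((t + lin s η) j + r * ip (s j) ξ) := by
  have hw : wj s χ j ξ ≠ 0 := left_ne_zero_of_mul hne
  have hg : gj ω e3 s t h j ξ η ≠ 0 := right_ne_zero_of_mul hne
  have hu : |ip (s j) ξ| < 1 / 2 := by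
    by_contra hc
    exact hw (by unfold wj; rw [if_neg hc])
  unfold gj at hg
  have hpq : pq ω ((t + lin s η) j) ≠ 0 := left_ne_zero_of_mul (left_ne_zero_of_mul hg)
  have hps : psi ω e3 ((t + lin s (η + ξ)) j) ≠ 0 := right_ne_zero_of_mul hg
  have hee : 0 < ee ω ((t + lin s η) j) := by
    rcases (hR.ee_nonneg ((t + lin s η) j)).lt_or_eq with h1 | h1
    · exact h1
    · exfalso
      have h2 := hR.pq_le_sq ((t + lin s η) j)
      rw [← h1] at h2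
      exact hpq (le_antisymm (by simpa using h2) (hR.pq_nonneg _))
  have he3 : e3 ≤ ee ω ((t + lin s η) j + ip (s j) ξ) := by
    by_contra hc
    apply hps
    have : (t + lin s (η + ξ)) j = (t + lin s η) j + ip (s j) ξ := by
      simp [lin, ip_add, add_assoc]
    rw [this]
    unfold psi; rw [if_neg hc]
  exact hR.ratio _ _ r e3 he he2 hu hee he3 hr0 hr1

lemma claim1 (hR : RampAt ω) (hD : DAt ω h) (he : 0 < e3) (he2 : e3 ≤ 1 / 2)
    (hs : ∀ j, j ∉ J → s j = 0) (j : ι) (ξ η : κ → ℝ) :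
    wj s χ j ξ * (gj ω e3 s t h j ξ η *
        (c1 ω h j (t + lin s η) - c1 ω h j (t + lin s (η + ξ)))) =
      -∫ r in (0 : ℝ)..1, wj s χ j ξ * gj ω e3 s t h j ξ η *
        Hj ω J s h j ξ (t + lin s (η + r • ξ)) := by
  by_cases hne : wj s χ j ξ * gj ω e3 s t h j ξ η = 0
  · rw [← mul_assoc, hne]; simp
  rw [intervalIntegral.integral_const_mul, ← mul_assoc, ← mul_neg]
  congr 1
  have h2 := hD.d2 (t + lin s η) (lin s ξ) j fun r hr0 hr1 => (stay hR he he2 hne hr0 hr1).1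
  have h3 : t + lin s (η + ξ) = t + lin s η + lin s ξ := by rw [lin_add, add_assoc]
  rw [h3, ← neg_sub, h2]
  congr 1
  refine intervalIntegral.integral_congr fun r _ => ?_
  have h4 : t + lin s (η + r • ξ) = t + lin s η + r • lin s ξ := by
    rw [lin_add, lin_smul, add_assoc]
  simp only [Hj, h4]
  symm
  refine sum_subset (erase_subset_erase _ (subset_univ _)) fun j' hj' hj'' => ?_
  have : j' ∉ J := fun hJ => hj'' (mem_erase.2 ⟨(mem_erase.1 hj').1, hJ⟩)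
  simp [lin, hs j' this, ip]

/-- The normalised weight. -/
noncomputable def aj (ω e3 : ℝ) (s : ι → κ → ℤ) (t : ι → ℝ) (h : (ι → ℤ) → ℝ) (χ : ℝ → ℝ)
    (r : ℝ) (η : κ → ℝ) (j : ι) (ξ : κ → ℝ) : ℝ :=
  wj s χ j ξ * gj ω e3 s t h j ξ (η - r • ξ) / pq ω ((t + lin s η) j)

lemma back (j : ι) (r : ℝ) (ξ η : κ → ℝ) :
    (t + lin s (η - r • ξ)) j + r * ip (s j) ξ = (t + lin s η) j := by
  simp only [Pi.add_apply, lin, ip_sub, ip_smul]; ring

lemma aj_facts (hR : RampAt ω) (hD : DAt ω h) (h0 : 0 < ω) (he : 0 < e3) (he2 : e3 ≤ 1 / 2)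
    (hχ : ∀ u, |χ u| ≤ 1) {r : ℝ} (hr0 : 0 ≤ r) (hr1 : r ≤ 1) (η : κ → ℝ) (j : ι) (ξ : κ → ℝ) :
    pq ω ((t + lin s η) j) * aj ω e3 s t h χ r η j ξ =
        wj s χ j ξ * gj ω e3 s t h j ξ (η - r • ξ) ∧
      |aj ω e3 s t h χ r η j ξ| ≤ 1 / (2 * e3 ^ 2) / ω ∧
      pq ω ((t + lin s η) j) * aj ω e3 s t h χ r η j ξ ^ 2 ≤ 1 / (2 * e3 ^ 2) / ω ^ 2 *
        (pq ω ((t + lin s (η - r • ξ)) j) * c1 ω h j (t + lin s (η - r • ξ)) ^ 2) := by
  by_cases hne : wj s χ j ξ * gj ω e3 s t h j ξ (η - r • ξ) = 0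
  · unfold aj
    rw [hne]
    refine ⟨by simp, by simp; positivity, ?_⟩
    have := hR.pq_nonneg ((t + lin s (η - r • ξ)) j)
    simp only [zero_div, ne_eq, OfNat.ofNat_ne_zero, not_false_eq_true, zero_pow, mul_zero]
    positivity
  have hst := (stay hR he he2 hne hr0 hr1).2
  rw [back] at hst
  set P0 := pq ω ((t + lin s (η - r • ξ)) j) with hP0
  set P := pq ω ((t + lin s η) j) with hP
  set R := 1 / (2 * e3 ^ 2) with hRdef
  have hRpos : 0 < R := by positivity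
  have hP0nn : 0 ≤ P0 := hR.pq_nonneg _
  have hP0ne : P0 ≠ 0 := by
    have hg : gj ω e3 s t h j ξ (η - r • ξ) ≠ 0 := right_ne_zero_of_mul hne
    unfold gj at hg
    exact left_ne_zero_of_mul (left_ne_zero_of_mul hg)
  have hP0pos : 0 < P0 := lt_of_le_of_ne hP0nn (Ne.symm hP0ne)
  have hPpos : 0 < P := by
    by_contra hc
    have : R * P ≤ 0 := mul_nonpos_of_nonneg_of_nonpos hRpos.le (not_lt.1 hc)
    linarith
  set w := wj s χ j ξ with hw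
  set c := c1 ω h j (t + lin s (η - r • ξ)) with hc
  set ps := psi ω e3 ((t + lin s (η - r • ξ + ξ)) j) with hps
  have hwb : |w| ≤ 1 := abs_wj_le hχ j ξ
  have hcb : |c| ≤ 1 := hD.c1b j _
  have hps0 : 0 ≤ ps := psi_nonneg hR _
  have hps1 : ps ≤ 1 / ω := psi_le hR h0 _
  have ha : aj ω e3 s t h χ r η j ξ = w * c * ps * (P0 / P) := by
    unfold aj gj
    rw [← hw, ← hc, ← hps, ← hP0, ← hP]; ring
  have hq0 : 0 ≤ P0 / P := by positivity
  have hq1 : P0 / P ≤ R := by rw [div_le_iff₀ hPpos]; exact hst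
  refine ⟨?_, ?_, ?_⟩
  · unfold aj
    rw [← hP, ← hw, mul_div_cancel₀ _ hPpos.ne']
  · rw [ha, abs_mul, abs_mul, abs_mul, abs_of_nonneg hps0, abs_of_nonneg hq0]
    calc |w| * |c| * ps * (P0 / P) ≤ 1 * 1 * (1 / ω) * R := by gcongr
      _ = R / ω := by ring
  · rw [ha]
    have e1 : P * (w * c * ps * (P0 / P)) ^ 2 = w ^ 2 * ps ^ 2 * (P0 / P) * (P0 * c ^ 2) := by
      field_simp
    rw [e1]
    have hw2 : w ^ 2 ≤ 1 := by rw [← sq_abs]; exact pow_le_one₀ (abs_nonneg _) hwb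
    have hp2 : ps ^ 2 ≤ (1 / ω) ^ 2 := by gcongr
    calc w ^ 2 * ps ^ 2 * (P0 / P) * (P0 * c ^ 2) ≤ 1 * (1 / ω) ^ 2 * R * (P0 * c ^ 2) := by gcongr
      _ = R / ω ^ 2 * (P0 * c ^ 2) := by ring

lemma measurable_gj (hR : RampAt ω) (hD : DAt ω h) (j : ι) :
    Measurable fun p : (κ → ℝ) × (κ → ℝ) => gj ω e3 s t h j p.1 p.2 := by
  have h1 := hR.pq_meas
  have h2 := hR.psi_meas e3
  have h3 := hD.c1m j
  unfold gj
  fun_prop

lemma measurable_Hj (hR : RampAt ω) (hD : DAt ω h) (j : ι) :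
    Measurable fun p : (κ → ℝ) × (ι → ℝ) => Hj ω J s h j p.1 p.2 := by
  have h1 := hR.dpr_meas
  unfold Hj
  refine Finset.measurable_sum _ fun j' _ => ?_
  have h3 := hD.c2m j j'
  fun_prop

lemma measurable_aj (hR : RampAt ω) (hD : DAt ω h) (hχm : Measurable χ) (r : ℝ) (η : κ → ℝ)
    (j : ι) : Measurable (aj ω e3 s t h χ r η j) := by
  unfold aj
  refine Measurable.div_const ((measurable_wj hχm j).mul ?_) _
  exact (measurable_gj hR hD j).comp (f := fun ξ : κ → ℝ => (ξ, η - r • ξ)) (by fun_prop)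

lemma abs_gj_le (hR : RampAt ω) (hD : DAt ω h) (h0 : 0 < ω) (j : ι) (ξ η : κ → ℝ) :
    |gj ω e3 s t h j ξ η| ≤ 1 / ω := by
  unfold gj
  rw [abs_mul, abs_mul, abs_of_nonneg (hR.pq_nonneg _), abs_of_nonneg (psi_nonneg hR _)]
  have h1 := hR.pq_le ((t + lin s η) j)
  have h2 := hD.c1b j (t + lin s η)
  have h3 := psi_le (e3 := e3) hR h0 ((t + lin s (η + ξ)) j)
  have h4 := psi_nonneg (e3 := e3) hR ((t + lin s (η + ξ)) j)
  have h5 := hR.pq_nonneg ((t + lin s η) j)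
  calc _ ≤ 1 * 1 * (1 / ω) := by gcongr; linarith
    _ = 1 / ω := by ring

lemma abs_Hj_le (hR : RampAt ω) (hD : DAt ω h) (h0 : 0 < ω) (j : ι) (ξ : κ → ℝ) (y : ι → ℝ) :
    |Hj ω J s h j ξ y| ≤
      (∑ j' ∈ J.erase j, (∑ k, |(s j' k : ℝ)|) * (1 / ω) * 2) * ∑ k, |ξ k| := by
  unfold Hj
  refine (abs_sum_le_sum_abs _ _).trans ?_
  rw [sum_mul]
  refine sum_le_sum fun j' _ => ?_
  rw [abs_mul, abs_mul, abs_of_nonneg (hR.dpr_nonneg _)]
  have h1 := abs_ip_le (s j') ξ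
  have h2 := hR.dpr_le (y j')
  have h3 := hD.c2b j j' y
  have h4 := hR.dpr_nonneg (y j')
  have h5 : 0 ≤ (∑ k, |(s j' k : ℝ)|) * ∑ k, |ξ k| := (abs_nonneg _).trans h1
  calc _ ≤ ((∑ k, |(s j' k : ℝ)|) * ∑ k, |ξ k|) * (1 / ω) * 2 := by gcongr
    _ = _ := by ring

lemma abs_F_le (hR : RampAt ω) (hD : DAt ω h) (h0 : 0 < ω) (hχ : ∀ u, |χ u| ≤ 1) (j : ι)
    (ξ η : κ → ℝ) (y : ι → ℝ) :
    |wj s χ j ξ * gj ω e3 s t h j ξ η * Hj ω J s h j ξ y| ≤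
      (1 / ω * ∑ j' ∈ J.erase j, (∑ k, |(s j' k : ℝ)|) * (1 / ω) * 2) * ∑ k, |ξ k| := by
  rw [abs_mul, abs_mul]
  have h1 := abs_wj_le (s := s) hχ j ξ
  have h2 := abs_gj_le (e3 := e3) (s := s) (t := t) hR hD h0 j ξ η
  have h3 := abs_Hj_le (J := J) (s := s) hR hD h0 j ξ y
  calc _ ≤ 1 * (1 / ω) * ((∑ j' ∈ J.erase j, (∑ k, |(s j' k : ℝ)|) * (1 / ω) * 2) *
      ∑ k, |ξ k|) := by gcongr
    _ = _ := by ring

lemma BM_W1_shift (hD : DAt ω h) (r : ℝ) :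
    BM fun p : (κ → ℝ) × (κ → ℝ) => W1 ω J h (t + lin s (p.1 - r • p.2)) := by
  obtain ⟨hm, C, hC⟩ := (hD.bm J).1
  exact ⟨hm.comp (by fun_prop), C, fun p => hC _⟩

/-- The bound at one point of the torus and one time `r`. -/
lemma pointwise (hR : RampAt ω) (hD : DAt ω h) (hP : PairStmt) {σ : ℝ}
    (hi : ∀ k, Integrable (fun ξ : κ → ℝ => ξ k) (gm κ σ))
    (hB : ∀ a : (κ → ℝ) → ℝ, BM a →
      ∑ k, (∫ ξ, ξ k * a ξ ∂gm κ σ) ^ 2 ≤ σ ^ 2 * ∫ ξ, a ξ ^ 2 ∂gm κ σ)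
    (h0 : 0 < ω) (he : 0 < e3) (he2 : e3 ≤ 1 / 2) (hh : U01 h)
    (hχm : Measurable χ) (hχ : ∀ u, |χ u| ≤ 1) {C1 C2 l η0 : ℝ} (hS : Split J s C1 C2)
    (hC1 : 0 ≤ C1) (hC2 : 0 ≤ C2) (hl : 0 ≤ l) (hη0 : 0 < η0)
    {r : ℝ} (hr0 : 0 ≤ r) (hr1 : r ≤ 1) (η : κ → ℝ) :
    |∑ j ∈ J, ∫ ξ, wj s χ j ξ * gj ω e3 s t h j ξ (η - r • ξ) *
        Hj ω J s h j ξ (t + lin s η) ∂gm κ σ| ≤
      η0 * C1 * (σ ^ 2 * (1 / (2 * e3 ^ 2) / ω ^ 2) *
        ∫ ξ, W1 ω J h (t + lin s (η - r • ξ)) ∂gm κ σ) +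
      1 / (η0 * ω ^ 2) * W2 ω J h (t + lin s η) +
      2 * l * Real.sqrt (C2 * (σ ^ 2 * (1 / (2 * e3 ^ 2) / ω) ^ 2)) * Inf ω J h (t + lin s η) +
      J.card * (12 / ω * Real.sqrt (C2 * (σ ^ 2 * (1 / (2 * e3 ^ 2) / ω) ^ 2)) *
        Real.exp (-l)) := by
  set R := 1 / (2 * e3 ^ 2) with hRdef
  have hR1 : 1 ≤ R := by
    rw [hRdef, le_div_iff₀ (by positivity)]; nlinarith
  set y := t + lin s η with hy
  set a := aj ω e3 s t h χ r η with ha
  have haf := fun j ξ => aj_facts (s := s) (t := t) hR hD h0 he he2 hχ hr0 hr1 η j ξ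
  have haBM : ∀ j, BM (a j) := fun j =>
    ⟨measurable_aj hR hD hχm r η j, _, fun ξ => (haf j ξ).2.1⟩
  have hia : ∀ j k, Integrable (fun ξ : κ → ℝ => ξ k * a j ξ) (gm κ σ) := fun j k =>
    (hi k).mul_bdd (haBM j).1.aestronglyMeasurable
      (ae_of_all _ fun ξ => by simpa using (haf j ξ).2.1)
  set V : ι → κ → ℝ := fun j k => ∫ ξ, ξ k * a j ξ ∂gm κ σ with hV
  have hia2 : ∀ j, Integrable (fun ξ => a j ξ ^ 2) (gm κ σ) := fun j =>
    integrable_BM _ ⟨(haBM j).1.pow_const 2, (R / ω) ^ 2, fun ξ => by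
      rw [abs_pow]; exact pow_le_pow_left₀ (abs_nonneg _) (haf j ξ).2.1 2⟩
  -- the sum as a pairing
  have hid : ∀ j, ∫ ξ, wj s χ j ξ * gj ω e3 s t h j ξ (η - r • ξ) * Hj ω J s h j ξ y ∂gm κ σ =
      ∑ j' ∈ J.erase j, py ω y j * (1 - py ω y j) * dpr ω (y j') *
        Eb (py ω y) (Dd j' (Dd j fun b => h (pt y b))) * ip (s j') (V j) := by
    intro j
    have e1 : ∀ ξ, wj s χ j ξ * gj ω e3 s t h j ξ (η - r • ξ) * Hj ω J s h j ξ y =
        ∑ j' ∈ J.erase j, ∑ k, (pq ω (y j) * dpr ω (y j') * c2 ω h j j' y * (s j' k : ℝ)) *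
          (ξ k * a j ξ) := by
      intro ξ
      rw [← (haf j ξ).1, Hj, mul_sum]
      refine sum_congr rfl fun j' _ => ?_
      simp only [ip, sum_mul, mul_sum]
      exact sum_congr rfl fun k _ => by ring
    simp_rw [e1]
    rw [integral_finsetSum _ fun j' _ =>
      integrable_finsetSum _ fun k _ => (hia j k).const_mul _]
    refine sum_congr rfl fun j' _ => ?_
    rw [integral_finsetSum _ fun k _ => (hia j k).const_mul _]
    simp only [integral_const_mul, ip, mul_sum]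
    refine sum_congr rfl fun k _ => ?_
    simp only [hV, pq, py, c2]
    ring
  have hv0 : 0 ≤ σ ^ 2 * (R / ω) ^ 2 := by positivity
  have hVle : ∀ j, nsq (V j) ≤ σ ^ 2 * ∫ ξ, a j ξ ^ 2 ∂gm κ σ := fun j => hB (a j) (haBM j)
  have hV0 : ∀ j ∈ J, nsq (V j) ≤ σ ^ 2 * (R / ω) ^ 2 := by
    intro j _
    refine (hVle j).trans (mul_le_mul_of_nonneg_left ?_ (sq_nonneg σ))
    have : ∫ ξ, a j ξ ^ 2 ∂gm κ σ ≤ ∫ _ξ, (R / ω) ^ 2 ∂gm κ σ :=
      integral_mono (hia2 j) (integrable_const _) fun ξ => by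
        have := (haf j ξ).2.1
        show a j ξ ^ 2 ≤ (R / ω) ^ 2
        rw [← sq_abs]; exact pow_le_pow_left₀ (abs_nonneg _) this 2
    simpa using this
  have hW1i : Integrable (fun ξ => W1 ω J h (t + lin s (η - r • ξ))) (gm κ σ) := by
    obtain ⟨hm, C, hC⟩ := BM_W1_shift (J := J) (s := s) (t := t) hD r
    exact integrable_BM _ ⟨hm.comp (f := fun ξ => (η, ξ)) (by fun_prop), C, fun ξ => hC (η, ξ)⟩
  have hQ : ∑ j ∈ J, py ω y j * (1 - py ω y j) * nsq (V j) ≤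
      σ ^ 2 * (R / ω ^ 2) * ∫ ξ, W1 ω J h (t + lin s (η - r • ξ)) ∂gm κ σ := by
    calc ∑ j ∈ J, py ω y j * (1 - py ω y j) * nsq (V j)
        ≤ ∑ j ∈ J, σ ^ 2 * ∫ ξ, pq ω (y j) * a j ξ ^ 2 ∂gm κ σ := by
          refine sum_le_sum fun j _ => ?_
          rw [integral_const_mul, mul_left_comm]
          exact mul_le_mul_of_nonneg_left (hVle j) (hR.pq_nonneg _)
      _ = σ ^ 2 * ∫ ξ, ∑ j ∈ J, pq ω (y j) * a j ξ ^ 2 ∂gm κ σ := by
          rw [integral_finsetSum _ fun j _ => (hia2 j).const_mul _, mul_sum]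
      _ ≤ σ ^ 2 * ∫ ξ, R / ω ^ 2 * W1 ω J h (t + lin s (η - r • ξ)) ∂gm κ σ := by
          refine mul_le_mul_of_nonneg_left ?_ (sq_nonneg σ)
          refine integral_mono (integrable_finsetSum _ fun j _ => (hia2 j).const_mul _)
            (hW1i.const_mul _) fun ξ => ?_
          simp only [W1, mul_sum]
          exact sum_le_sum fun j _ => (haf j ξ).2.2
      _ = _ := by rw [integral_const_mul, mul_assoc]
  have hQ0 : ∑ j ∈ J, py ω y j * (1 - py ω y j) * nsq (V j) ≤ σ ^ 2 * (R / ω) ^ 2 := by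
    refine hQ.trans ?_
    have h1 : ∫ ξ, W1 ω J h (t + lin s (η - r • ξ)) ∂gm κ σ ≤ ∫ _ξ, (1 : ℝ) ∂gm κ σ :=
      integral_mono hW1i (integrable_const _) fun ξ => (hD.nn J _).2.1
    have h2 : ∫ ξ, W1 ω J h (t + lin s (η - r • ξ)) ∂gm κ σ ≤ 1 := by simpa using h1
    have h3 : R / ω ^ 2 ≤ (R / ω) ^ 2 := by
      rw [div_pow]; gcongr; nlinarith
    calc σ ^ 2 * (R / ω ^ 2) * ∫ ξ, W1 ω J h (t + lin s (η - r • ξ)) ∂gm κ σ
        ≤ σ ^ 2 * (R / ω ^ 2) * 1 := by gcongr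
      _ ≤ σ ^ 2 * (R / ω) ^ 2 := by rw [mul_one]; gcongr
  have key := hP ι κ J s C1 C2 ω (σ ^ 2 * (R / ω) ^ 2) l η0 (py ω y) (fun j => dpr ω (y j))
    (fun b => h (pt y b)) V hS hC1 hC2 h0 hv0 hl hη0
    (fun i => ⟨hR.pr_nonneg _, hR.pr_le _⟩) (fun b => hh _)
    (fun j => ⟨hR.dpr_nonneg _, hR.dpr_le _⟩) (fun j => hR.dpr_sq_le _) hV0 hQ0
  simp_rw [hid]
  refine key.trans ?_
  have e2 : W2 ω J h y = ∑ j ∈ J, ∑ j' ∈ J.erase j, py ω y j * (1 - py ω y j) *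
      (py ω y j' * (1 - py ω y j')) * Eb (py ω y) (Dd j' (Dd j fun b => h (pt y b))) ^ 2 := rfl
  have e3' : Inf ω J h y = ∑ j ∈ J, dpr ω (y j) *
      Eb (py ω y) (fun b => |Dd j (fun b => h (pt y b)) b|) := rfl
  rw [e2, e3']
  gcongr

lemma per_F (hR : RampAt ω) (hD : DAt ω h) {Γ : AddSubgroup (κ → ℝ)}
    (hΓ : ∀ n : κ → ℤ, (fun k => (n k : ℝ)) ∈ Γ) (hI : Inv Γ s h) (j : ι) (ξ : κ → ℝ) (r : ℝ) :
    Per fun η => wj s χ j ξ * gj ω e3 s t h j ξ η * Hj ω J s h j ξ (t + lin s (η + r • ξ)) := by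
  intro η n
  have hr : ∀ x, h (x + ivec s n) = h x := hI _ (hΓ n) _ (ivec_cast s n)
  have e1 : (η + fun k => (n k : ℝ)) + r • ξ = (η + r • ξ) + fun k => (n k : ℝ) := by abel
  have e2 : (η + fun k => (n k : ℝ)) + ξ = (η + ξ) + fun k => (n k : ℝ) := by abel
  simp only [gj, Hj, e1, e2, off_shift, hD.inv1 _ hr, hD.inv2 _ hr]
  simp only [Pi.add_apply (t + _), hR.pq_per, hR.psi_per, hR.dpr_per]

lemma per_W1 (hD : DAt ω h) {Γ : AddSubgroup (κ → ℝ)}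
    (hΓ : ∀ n : κ → ℤ, (fun k => (n k : ℝ)) ∈ Γ) (hI : Inv Γ s h) :
    Per fun η => W1 ω J h (t + lin s η) := by
  intro η n
  have hr : ∀ x, h (x + ivec s n) = h x := hI _ (hΓ n) _ (ivec_cast s n)
  simp only [off_shift, hD.invW _ hr]

lemma BM_comp {F : (ι → ℝ) → ℝ} (hF : BM F) : BM fun η : κ → ℝ => F (t + lin s η) := by
  obtain ⟨hm, C, hC⟩ := hF
  exact ⟨hm.comp (by fun_prop), C, fun p => hC _⟩

/-- The bound at one time `r`. -/
lemma at_time (hR : RampAt ω) (hD : DAt ω h) (hP : PairStmt) {σ : ℝ}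
    (hsh : ∀ F : (κ → ℝ) → ℝ, Per F → BM F → ∀ ξ : κ → ℝ, tm (fun β : κ → ℝ => F (β + ξ)) = tm F)
    (hi : ∀ k, Integrable (fun ξ : κ → ℝ => ξ k) (gm κ σ))
    (hB : ∀ a : (κ → ℝ) → ℝ, BM a →
      ∑ k, (∫ ξ, ξ k * a ξ ∂gm κ σ) ^ 2 ≤ σ ^ 2 * ∫ ξ, a ξ ^ 2 ∂gm κ σ)
    {Γ : AddSubgroup (κ → ℝ)} (hΓ : ∀ n : κ → ℤ, (fun k => (n k : ℝ)) ∈ Γ) (hI : Inv Γ s h)
    (h0 : 0 < ω) (he : 0 < e3) (he2 : e3 ≤ 1 / 2) (hh : U01 h)
    (hχm : Measurable χ) (hχ : ∀ u, |χ u| ≤ 1) {C1 C2 l η0 : ℝ} (hS : Split J s C1 C2)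
    (hC1 : 0 ≤ C1) (hC2 : 0 ≤ C2) (hl : 0 ≤ l) (hη0 : 0 < η0)
    {r : ℝ} (hr0 : 0 ≤ r) (hr1 : r ≤ 1) :
    |∑ j ∈ J, ∫ ξ, ∫ η, wj s χ j ξ * gj ω e3 s t h j ξ η *
        Hj ω J s h j ξ (t + lin s (η + r • ξ)) ∂cube κ ∂gm κ σ| ≤
      η0 * C1 * (σ ^ 2 * (1 / (2 * e3 ^ 2) / ω ^ 2) * tm fun η => W1 ω J h (t + lin s η)) +
      1 / (η0 * ω ^ 2) * tm (fun η => W2 ω J h (t + lin s η)) +
      2 * l * Real.sqrt (C2 * (σ ^ 2 * (1 / (2 * e3 ^ 2) / ω) ^ 2)) *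
        tm (fun η => Inf ω J h (t + lin s η)) +
      J.card * (12 / ω * Real.sqrt (C2 * (σ ^ 2 * (1 / (2 * e3 ^ 2) / ω) ^ 2)) *
        Real.exp (-l)) := by
  have hgm := measurable_gj (e3 := e3) (s := s) (t := t) hR hD
  have hHm := measurable_Hj (J := J) (s := s) hR hD
  have hwm := measurable_wj (s := s) hχm
  -- shift
  have e1 : ∀ j ξ, ∫ η, wj s χ j ξ * gj ω e3 s t h j ξ η *
      Hj ω J s h j ξ (t + lin s (η + r • ξ)) ∂cube κ =
      ∫ η, wj s χ j ξ * gj ω e3 s t h j ξ (η - r • ξ) * Hj ω J s h j ξ (t + lin s η) ∂cube κ := by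
    intro j ξ
    have hbm : BM fun η => wj s χ j ξ * gj ω e3 s t h j ξ η *
        Hj ω J s h j ξ (t + lin s (η + r • ξ)) := by
      refine ⟨?_, _, fun η => abs_F_le hR hD h0 hχ j ξ η _⟩
      exact (measurable_const.mul ((hgm j).comp (f := fun η => (ξ, η)) (by fun_prop))).mul
        ((hHm j).comp (f := fun η => (ξ, t + lin s (η + r • ξ))) (by fun_prop))
    have := hsh _ (per_F (e3 := e3) (J := J) (t := t) (χ := χ) hR hD hΓ hI j ξ r) hbm (-(r • ξ))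
    simp only [tm] at this
    rw [← this]
    refine integral_congr_ae (ae_of_all _ fun η => ?_)
    simp only [← sub_eq_add_neg, sub_add_cancel]
  have hint : ∀ j, Integrable (fun p : (κ → ℝ) × (κ → ℝ) => wj s χ j p.1 *
      gj ω e3 s t h j p.1 (p.2 - r • p.1) * Hj ω J s h j p.1 (t + lin s p.2))
      ((gm κ σ).prod (cube κ)) := by
    intro j
    refine Integrable.mono' ((integrable_sum_abs hi _).comp_fst (cube κ)) ?_
      (ae_of_all _ fun p => abs_F_le hR hD h0 hχ j p.1 _ _)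
    refine Measurable.aestronglyMeasurable ?_
    exact (((hwm j).comp measurable_fst).mul ((hgm j).comp
      (f := fun p : (κ → ℝ) × (κ → ℝ) => (p.1, p.2 - r • p.1)) (by fun_prop))).mul
        ((hHm j).comp (f := fun p : (κ → ℝ) × (κ → ℝ) => (p.1, t + lin s p.2)) (by fun_prop))
  have e2 : ∀ j, ∫ ξ, ∫ η, wj s χ j ξ * gj ω e3 s t h j ξ η *
      Hj ω J s h j ξ (t + lin s (η + r • ξ)) ∂cube κ ∂gm κ σ =
      ∫ η, ∫ ξ, wj s χ j ξ * gj ω e3 s t h j ξ (η - r • ξ) *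
        Hj ω J s h j ξ (t + lin s η) ∂gm κ σ ∂cube κ := by
    intro j
    simp_rw [e1 j]
    exact integral_integral_swap (hint j)
  simp_rw [e2]
  rw [← integral_finsetSum _ fun j _ => (hint j).integral_prod_right]
  have hWi : Integrable (fun p : (κ → ℝ) × (κ → ℝ) => W1 ω J h (t + lin s (p.1 - r • p.2)))
      ((cube κ).prod (gm κ σ)) := integrable_BM _ (BM_W1_shift hD r)
  have hWs : ∫ η, ∫ ξ, W1 ω J h (t + lin s (η - r • ξ)) ∂gm κ σ ∂cube κ =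
      tm fun η => W1 ω J h (t + lin s η) := by
    rw [integral_integral_swap hWi]
    have : ∀ ξ : κ → ℝ, ∫ η, W1 ω J h (t + lin s (η - r • ξ)) ∂cube κ =
        tm fun η => W1 ω J h (t + lin s η) := by
      intro ξ
      have := hsh _ (per_W1 (J := J) (t := t) hD hΓ hI) (BM_comp (hD.bm J).1) (-(r • ξ))
      simp only [tm, ← sub_eq_add_neg] at this ⊢
      exact this
    simp [this]
  have i1 := hWi.integral_prod_left
  have i2 := integrable_BM (cube κ) (BM_comp (s := s) (t := t) (hD.bm J).2.1)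
  have i3 := integrable_BM (cube κ) (BM_comp (s := s) (t := t) (hD.bm J).2.2)
  have hb := norm_integral_le_of_norm_le (μ := cube κ)
    (f := fun η => ∑ j ∈ J, ∫ ξ, wj s χ j ξ * gj ω e3 s t h j ξ (η - r • ξ) *
        Hj ω J s h j ξ (t + lin s η) ∂gm κ σ)
    (((((i1.const_mul _).const_mul _).add (i2.const_mul _)).add (i3.const_mul _)).add
      (integrable_const _))
    (ae_of_all _ fun η => pointwise (t := t) hR hD hP hi hB h0 he he2 hh hχm hχ hS hC1 hC2 hl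
      hη0 hr0 hr1 η)
  refine (le_of_eq (Real.norm_eq_abs _).symm).trans (hb.trans (le_of_eq ?_))
  rw [integral_add' ((((i1.const_mul _).const_mul _).add (i2.const_mul _)).add (i3.const_mul _))
      (integrable_const _),
    integral_add' (((i1.const_mul _).const_mul _).add (i2.const_mul _)) (i3.const_mul _),
    integral_add' ((i1.const_mul _).const_mul _) (i2.const_mul _)]
  simp only [integral_const_mul, hWs, tm, integral_const, probReal_univ, smul_eq_mul, one_mul]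

end Main

end Near

open Near in
theorem near_proof (hR : RampStmt) (hT : TorusStmt) (hG : GaussStmt) (hP : PairStmt)
    (hD : DerivStmt) : NearStmt := by
  intro ω W e3 δ C1 h0 h8 hW he he2 hδ hC1
  set R := 1 / (2 * e3 ^ 2) with hRdef
  have hRpos : 0 < R := by positivity
  set η0 := δ * ω ^ 2 / ((C1 + 1) * W ^ 2 * R) with hη0def
  have hη0 : 0 < η0 := by positivity
  refine ⟨1 / (η0 * ω ^ 2) + 2 * (W * (R / ω)) + 12 / ω * (W * (R / ω)), by positivity, ?_⟩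
  intro ι κ _ _ _ Γ J s t h σ ε l χ hΓ hs hh hI hWσ hS hε0 hε1 hl hχm hχ
  have hRa := hR.2 ω h0 h8
  have hDa := dAt hD h0 h8 hh
  have hsh := (hT κ).1
  obtain ⟨-, hi, hB, -, -⟩ := hG.1 κ σ
  have hgm := measurable_gj (e3 := e3) (s := s) (t := t) hRa hDa
  have hHm := measurable_Hj (J := J) (s := s) hRa hDa
  have hwm := measurable_wj (s := s) hχm
  set ρ : Measure ℝ := volume.restrict (Set.Ioc (0 : ℝ) 1) with hρ
  have : IsProbabilityMeasure ρ := ⟨by simp [hρ]⟩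
  have hint : ∀ j, Integrable (fun p : ((κ → ℝ) × (κ → ℝ)) × ℝ => wj s χ j p.1.1 *
      gj ω e3 s t h j p.1.1 p.1.2 * Hj ω J s h j p.1.1 (t + lin s (p.1.2 + p.2 • p.1.1)))
      (((gm κ σ).prod (cube κ)).prod ρ) := by
    intro j
    refine Integrable.mono' (((integrable_sum_abs hi _).comp_fst (cube κ)).comp_fst ρ) ?_
      (ae_of_all _ fun p => abs_F_le hRa hDa h0 hχ j p.1.1 _ _)
    refine Measurable.aestronglyMeasurable ?_
    exact (((hwm j).comp (measurable_fst.comp measurable_fst)).mul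
      ((hgm j).comp measurable_fst)).mul ((hHm j).comp
        (f := fun p : ((κ → ℝ) × (κ → ℝ)) × ℝ => (p.1.1, t + lin s (p.1.2 + p.2 • p.1.1)))
        (by fun_prop))
  have e1 : ∀ j, ∫ ξ, (if |ip (s j) ξ| < 1 / 2 then χ (ip (s j) ξ) else 0) *
      tm (fun η => pq ω ((t + lin s η) j) * c1 ω h j (t + lin s η) *
        psi ω e3 ((t + lin s (η + ξ)) j) *
        (c1 ω h j (t + lin s η) - c1 ω h j (t + lin s (η + ξ)))) ∂gm κ σ =
      -∫ r, ∫ ξ, ∫ η, wj s χ j ξ * gj ω e3 s t h j ξ η *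
        Hj ω J s h j ξ (t + lin s (η + r • ξ)) ∂cube κ ∂gm κ σ ∂ρ := by
    intro j
    rw [← swap3 (gm κ σ) (cube κ) ρ (fun ξ η r => wj s χ j ξ * gj ω e3 s t h j ξ η *
        Hj ω J s h j ξ (t + lin s (η + r • ξ))) (hint j), ← integral_neg]
    refine integral_congr_ae (ae_of_all _ fun ξ => ?_)
    simp only [tm]
    rw [← integral_const_mul, ← integral_neg]
    refine integral_congr_ae (ae_of_all _ fun η => ?_)
    have := claim1 (t := t) (χ := χ) hRa hDa he he2 hs j ξ η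
    rw [intervalIntegral.integral_of_le zero_le_one] at this
    exact this
  simp_rw [e1]
  rw [sum_neg_distrib, abs_neg, ← integral_finsetSum _ fun j _ => int3 (gm κ σ) (cube κ) ρ
    (fun ξ η r => wj s χ j ξ * gj ω e3 s t h j ξ η *
        Hj ω J s h j ξ (t + lin s (η + r • ξ))) (hint j)]
  have hl0 : 0 ≤ l := zero_le_one.trans hl
  have hcard : (0 : ℝ) ≤ Fintype.card κ := Nat.cast_nonneg _
  have hb := norm_integral_le_of_norm_le_const (μ := ρ)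
    (f := fun r => ∑ j ∈ J, ∫ ξ, ∫ η, wj s χ j ξ * gj ω e3 s t h j ξ η *
        Hj ω J s h j ξ (t + lin s (η + r • ξ)) ∂cube κ ∂gm κ σ)
    ((ae_restrict_mem measurableSet_Ioc).mono fun r hr =>
      at_time (t := t) hRa hDa hP hsh hi hB hΓ hI h0 he he2 hh hχm hχ hS
        (mul_nonneg hC1 hcard) (mul_nonneg (sq_nonneg ε) hcard) hl0 hη0 hr.1.le hr.2)
  refine (le_of_eq (Real.norm_eq_abs _).symm).trans (hb.trans ?_)
  rw [probReal_univ, mul_one, ← hRdef]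
  have hsq : Real.sqrt (ε ^ 2 * Fintype.card κ * (σ ^ 2 * (R / ω) ^ 2)) = ε * (W * (R / ω)) := by
    rw [show ε ^ 2 * Fintype.card κ * (σ ^ 2 * (R / ω) ^ 2) = (ε * (W * (R / ω))) ^ 2 by
      rw [mul_pow, mul_pow, hWσ]; ring]
    exact Real.sqrt_sq (by positivity)
  rw [hsq]
  have n1 : 0 ≤ tm fun η => W1 ω J h (t + lin s η) :=
    integral_nonneg fun η => (hDa.nn J _).1
  have n2 : 0 ≤ tm fun η => W2 ω J h (t + lin s η) :=
    integral_nonneg fun η => (hDa.nn J _).2.2.1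
  have n3 : 0 ≤ tm fun η => Inf ω J h (t + lin s η) :=
    integral_nonneg fun η => (hDa.nn J _).2.2.2
  set w1 := tm fun η => W1 ω J h (t + lin s η)
  set w2 := tm fun η => W2 ω J h (t + lin s η)
  set w3 := tm fun η => Inf ω J h (t + lin s η)
  have b1 : η0 * (C1 * Fintype.card κ) * (σ ^ 2 * (R / ω ^ 2) * w1) ≤ δ * w1 := by
    have : η0 * (C1 * Fintype.card κ) * (σ ^ 2 * (R / ω ^ 2) * w1) =
        δ * (C1 / (C1 + 1)) * w1 := by
      have h1 : η0 * (C1 * Fintype.card κ) * (σ ^ 2 * (R / ω ^ 2) * w1) =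
          η0 * C1 * (σ ^ 2 * Fintype.card κ) * (R / ω ^ 2) * w1 := by ring
      rw [h1, ← hWσ, hη0def]; field_simp
    rw [this]
    have h2 : C1 / (C1 + 1) ≤ 1 := by rw [div_le_one (by positivity)]; linarith
    calc δ * (C1 / (C1 + 1)) * w1 ≤ δ * 1 * w1 := by gcongr
      _ = δ * w1 := by ring
  have p1 : 0 ≤ 1 / (η0 * ω ^ 2) := by positivity
  have p2 : 0 ≤ 2 * (W * (R / ω)) := by positivity
  have p3 : 0 ≤ 12 / ω * (W * (R / ω)) := by positivity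
  have q2 : 0 ≤ l * ε * w3 := by positivity
  have q3 : 0 ≤ (J.card : ℝ) * Real.exp (-l) := by positivity
  have b4 : (J.card : ℝ) * (12 / ω * (ε * (W * (R / ω))) * Real.exp (-l)) ≤
      12 / ω * (W * (R / ω)) * (J.card * Real.exp (-l)) := by
    have : (J.card : ℝ) * (12 / ω * (ε * (W * (R / ω))) * Real.exp (-l)) =
        ε * (12 / ω * (W * (R / ω)) * (J.card * Real.exp (-l))) := by ring
    rw [this]
    exact mul_le_of_le_one_left (mul_nonneg p3 q3) hε1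
  have b3 : 2 * l * (ε * (W * (R / ω))) * w3 = 2 * (W * (R / ω)) * (l * ε * w3) := by ring
  rw [b3]
  nlinarith [mul_nonneg p1 q2, mul_nonneg p1 q3, mul_nonneg p2 n2, mul_nonneg p2 q3,
    mul_nonneg p3 n2, mul_nonneg p3 q2]

end Vale.Agent.P318.M
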