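import Vale.Agent.P318.M.Stmt
import Vale.Agent.P318.RProb

/-!
Independent columns from a set of sign vectors: coherence and diagonal dominance.
-/

namespace Vale.Agent.P318.M

open Finset
open scoped BigOperators

namespace Columns

section Pi

variable {ι : Type*} [Fintype ι] [DecidableEq ι] {Ω : Type*} [Fintype Ω] [Nonempty Ω]

lemma expect_update (j : ι) (F : (ι → Ω) → ℝ) :
    𝔼 w : ι → Ω, F w = 𝔼 w : ι → Ω, 𝔼 u : Ω, F (Function.update w j u) := by
  let e : (ι → Ω) × Ω ≃ (ι → Ω) × Ω :=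
    { toFun := fun p => (Function.update p.1 j p.2, p.1 j)
      invFun := fun p => (Function.update p.1 j p.2, p.1 j)
      left_inv := fun p => by simp
      right_inv := fun p => by simp }
  have h1 : 𝔼 p : (ι → Ω) × Ω, F (Function.update p.1 j p.2) = 𝔼 p : (ι → Ω) × Ω, F p.1 :=
    Fintype.expect_equiv e _ _ fun p => rfl
  rw [← univ_product_univ, expect_product, expect_product] at h1
  simp only [Fintype.expect_const] at h1
  exact h1.symm

lemma expect_eval (j : ι) (g : Ω → ℝ) : 𝔼 w : ι → Ω, g (w j) = 𝔼 u, g u := by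
  rw [expect_update j]
  simp only [Function.update_self]
  exact Fintype.expect_const _

lemma expect_eval_two {j j' : ι} (h : j ≠ j') (g : Ω → Ω → ℝ) :
    𝔼 w : ι → Ω, g (w j) (w j') = 𝔼 u, 𝔼 v, g u v := by
  rw [expect_update j]
  simp only [Function.update_self, Function.update_of_ne h.symm]
  rw [expect_comm]
  exact expect_congr rfl fun u _ => expect_eval j' (g u)

lemma expect_sum_sq_le (g : ι → Ω → ℝ) {p : ℝ} (hp : 0 ≤ p) (h1 : ∀ j u, |g j u| ≤ 1)
    (h2 : ∀ j, |𝔼 u, g j u| ≤ p) :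
    𝔼 w : ι → Ω, (∑ j, g j (w j)) ^ 2 ≤ Fintype.card ι + (Fintype.card ι * p) ^ 2 := by
  have e : ∀ w : ι → Ω, (∑ j, g j (w j)) ^ 2 = ∑ j, ∑ j', g j (w j) * g j' (w j') := by
    intro w
    rw [sq, sum_mul_sum]
  simp only [e, expect_sum_comm]
  have hb : ∀ j j', 𝔼 w : ι → Ω, g j (w j) * g j' (w j') ≤ (if j = j' then 1 else 0) + p ^ 2 := by
    intro j j'
    split_ifs with h
    · subst h
      refine le_trans (expect_le univ_nonempty fun w _ => ?_) (le_add_of_nonneg_right (sq_nonneg p))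
      have := abs_le.1 (h1 j (w j))
      nlinarith
    · rw [expect_eval_two h (fun u v => g j u * g j' v), ← Fintype.expect_mul_expect, zero_add]
      refine (le_abs_self _).trans ?_
      rw [abs_mul, sq]
      exact mul_le_mul (h2 j) (h2 j') (abs_nonneg _) hp
  refine (sum_le_sum fun j _ => sum_le_sum fun j' _ => hb j j').trans (le_of_eq ?_)
  simp only [sum_add_distrib, sum_ite_eq, mem_univ, if_true, sum_const, card_univ, nsmul_eq_mul]
  ring

end Pi

lemma expect_coe {K : Type*} (T : Finset K) (g : K → ℝ) :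
    𝔼 u : T, g u = (∑ s ∈ T, g s) / T.card := by
  rw [Fintype.expect_eq_sum_div_card, sum_coe_sort, Fintype.card_coe]

end Columns

open Columns in
theorem columns_proof : ColumnsStmt := by
  intro ι A Vb K _ _ _ _ _ _ _ _ π T μ p1 p2 Th hT hPM hp2 hTh hcoh hcorr hsum
  have : Nonempty T := hT.to_subtype
  have hTc : (0 : ℝ) < T.card := Nat.cast_pos.2 hT.card_pos
  let sOf : (ι → A → T) → A → ι → K → ℤ := fun w a j => (w j a : K → ℤ)
  -- coherence
  have h1 : ∀ (a : A) (j j' : ι), j ≠ j' →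
      R.pr (fun w : ι → A → T => μ < |∑ k, (sOf w a j k : ℝ) * sOf w a j' k|) ≤ p1 := by
    intro a j j' hj
    classical
    rw [R.pr_eq_expect]
    have e1 := expect_eval_two hj (fun u v : A → T =>
      if μ < |∑ k, ((u a : K → ℤ) k : ℝ) * (v a : K → ℤ) k| then (1 : ℝ) else 0)
    refine (le_of_eq e1).trans ?_
    have e2 : ∀ u : A → T, (𝔼 v : A → T,
        if μ < |∑ k, ((u a : K → ℤ) k : ℝ) * (v a : K → ℤ) k| then (1 : ℝ) else 0) =
        (∑ s' ∈ T, if μ < |∑ k, ((u a : K → ℤ) k : ℝ) * s' k| then (1 : ℝ) else 0) / T.card := by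
      intro u
      rw [expect_eval a (fun v : T =>
        if μ < |∑ k, ((u a : K → ℤ) k : ℝ) * (v : K → ℤ) k| then (1 : ℝ) else 0)]
      exact expect_coe T fun s' => if μ < |∑ k, ((u a : K → ℤ) k : ℝ) * s' k| then (1 : ℝ) else 0
    simp only [e2]
    rw [expect_eval a (fun u : T =>
      (∑ s' ∈ T, if μ < |∑ k, ((u : K → ℤ) k : ℝ) * s' k| then (1 : ℝ) else 0) / T.card),
      expect_coe T fun s =>
        (∑ s' ∈ T, if μ < |∑ k, (s k : ℝ) * s' k| then (1 : ℝ) else 0) / T.card,
      ← sum_div, div_div, div_le_iff₀ (by positivity), ← sq]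
    refine le_trans (le_of_eq ?_) hcoh
    rw [card_filter, sum_product]
    push_cast
    rfl
  have hp1 : 0 ≤ p1 := by
    have : (0 : ℝ) ≤ p1 * T.card ^ 2 := le_trans (Nat.cast_nonneg _) hcoh
    exact nonneg_of_mul_nonneg_left this (by positivity)
  -- mean of one entry
  have hmean : ∀ k, 𝔼 u : T, ((u : K → ℤ) k : ℝ) = 0 := by
    intro k
    let e : T ≃ T :=
      { toFun := fun u => ⟨-u.1, (hPM u.1 u.2).2⟩
        invFun := fun u => ⟨-u.1, (hPM u.1 u.2).2⟩
        left_inv := fun u => by simp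
        right_inv := fun u => by simp }
    have h := Fintype.expect_equiv e (fun u : T => -((u : K → ℤ) k : ℝ))
      (fun u : T => ((u : K → ℤ) k : ℝ)) fun u => by simp [e]
    rw [expect_neg_distrib] at h
    linarith
  have habs : ∀ (u : T) k, |((u : K → ℤ) k : ℝ)| ≤ 1 := by
    intro u k
    rcases (hPM u.1 u.2).1 k with h | h <;> simp [h]
  have h2 : ∀ x x' : (A × Vb) × K, x ≠ x' →
      R.pr (fun w : ι → A → T =>
        Th < |∑ j, (tcol π (sOf w) j x : ℝ) * tcol π (sOf w) j x'|) ≤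
        (Fintype.card ι + (Fintype.card ι * p2) ^ 2) / Th ^ 2 := by
    rintro ⟨⟨a, v⟩, k⟩ ⟨⟨a', v'⟩, k'⟩ hx
    let g : ι → (A → T) → ℝ := fun j u =>
      (if π a j = v then ((u a : K → ℤ) k : ℝ) else 0) *
        (if π a' j = v' then ((u a' : K → ℤ) k' : ℝ) else 0)
    have eg : ∀ w : ι → A → T, ∑ j, (tcol π (sOf w) j ((a, v), k) : ℝ) *
        tcol π (sOf w) j ((a', v'), k') = ∑ j, g j (w j) := by
      intro w
      refine sum_congr rfl fun j _ => ?_
      simp only [tcol, bcol, g, sOf]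
      push_cast
      rfl
    simp only [eg]
    have hg1 : ∀ j u, |g j u| ≤ 1 := by
      intro j u
      simp only [g]
      rw [abs_mul]
      refine mul_le_one₀ ?_ (abs_nonneg _) ?_
      · split_ifs
        · exact habs _ _
        · simp
      · split_ifs
        · exact habs _ _
        · simp
    have hg2 : ∀ j, |𝔼 u, g j u| ≤ p2 := by
      intro j
      simp only [g]
      by_cases hv : π a j = v
      swap
      · simpa [hv] using hp2
      by_cases hv' : π a' j = v'
      swap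
      · simpa [hv'] using hp2
      simp only [hv, hv', if_true]
      by_cases ha : a = a'
      · subst ha
        have hk : k ≠ k' := by
          rintro rfl
          exact hx (by rw [← hv, ← hv'])
        rw [expect_eval a (fun u : T => ((u : K → ℤ) k : ℝ) * (u : K → ℤ) k'),
          expect_coe T fun s => (s k : ℝ) * s k', abs_div, abs_of_pos hTc, div_le_iff₀ hTc]
        exact hcorr k k' hk
      · rw [expect_eval_two ha (fun u u' : T => ((u : K → ℤ) k : ℝ) * (u' : K → ℤ) k'),
          ← Fintype.expect_mul_expect, hmean, zero_mul, abs_zero]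
        exact hp2
    refine le_trans (R.pr_le_expect (f := fun w : ι → A → T => (∑ j, g j (w j)) ^ 2 / Th ^ 2)
      (fun w => by positivity) fun w hw => ?_) ?_
    · rw [one_le_div (by positivity), ← sq_abs (∑ j, g j (w j))]
      exact pow_le_pow_left₀ hTh.le hw.le _
    · rw [← expect_div]
      exact div_le_div_of_nonneg_right (expect_sum_sq_le g hp2 hg1 hg2) (by positivity)
  have u1 := R.pr_exists_mem_le_card_mul (Ω := ι → A → T)
    ((univ : Finset (A × ι × ι)).filter fun t => t.2.1 ≠ t.2.2)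
    (fun t w => μ < |∑ k, (sOf w t.1 t.2.1 k : ℝ) * sOf w t.1 t.2.2 k|)
    fun t ht => h1 t.1 t.2.1 t.2.2 (mem_filter.1 ht).2
  have u2 := R.pr_exists_mem_le_card_mul (Ω := ι → A → T)
    ((univ : Finset (((A × Vb) × K) × ((A × Vb) × K))).filter fun t => t.1 ≠ t.2)
    (fun t w => Th < |∑ j, (tcol π (sOf w) j t.1 : ℝ) * tcol π (sOf w) j t.2|)
    fun t ht => h2 t.1 t.2 (mem_filter.1 ht).2
  have c1 : ((((univ : Finset (A × ι × ι)).filter fun t => t.2.1 ≠ t.2.2).card : ℕ) : ℝ) ≤
      Fintype.card A * (Fintype.card ι : ℝ) ^ 2 := by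
    have := card_filter_le (univ : Finset (A × ι × ι)) fun t => t.2.1 ≠ t.2.2
    rw [card_univ, Fintype.card_prod, Fintype.card_prod, ← sq] at this
    exact_mod_cast this
  have c2 : ((((univ : Finset (((A × Vb) × K) × ((A × Vb) × K))).filter
      fun t => t.1 ≠ t.2).card : ℕ) : ℝ) ≤ (Fintype.card ((A × Vb) × K) : ℝ) ^ 2 := by
    have := card_filter_le (univ : Finset (((A × Vb) × K) × ((A × Vb) × K))) fun t => t.1 ≠ t.2
    rw [card_univ, Fintype.card_prod ((A × Vb) × K), ← sq] at this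
    exact_mod_cast this
  have u1' := u1.trans (mul_le_mul_of_nonneg_right c1 hp1)
  have u2' := u2.trans (mul_le_mul_of_nonneg_right c2 (by positivity))
  rw [← mul_div_assoc] at u2'
  obtain ⟨w, hw⟩ := R.exists_not_of_pr_lt_one
    (lt_of_le_of_lt ((R.pr_or_le _ _).trans (add_le_add u1' u2')) hsum)
  rw [not_or] at hw
  refine ⟨sOf w, fun a j => (w j a).2, fun a j j' hj => ?_, fun x x' hx => ?_⟩
  · by_contra hc
    exact hw.1 ⟨(a, j, j'), mem_filter.2 ⟨mem_univ _, hj⟩, not_le.1 hc⟩
  · by_contra hc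
    exact hw.2 ⟨(x, x'), mem_filter.2 ⟨mem_univ _, hx⟩, not_le.1 hc⟩

end Vale.Agent.P318.M
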