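import Vale.Agent.P318.M.Stmt

/-!
From the instances to the bound `(log N)^c ≤ g(N)`.
-/

namespace Vale.Agent.P318.M

open Filter Real

theorem final_proof (h : InstStmt) : FinalStmt := by
  obtain ⟨C, hC, u0, hu⟩ := h
  refine ⟨1 / 1000, by norm_num, ?_⟩
  have tl : Tendsto (fun N : ℕ => Real.log N) atTop atTop :=
    tendsto_log_atTop.comp tendsto_natCast_atTop_atTop
  have t1 : Tendsto (fun N : ℕ => Real.log N ^ (1 / 451 : ℝ)) atTop atTop :=
    (tendsto_rpow_atTop (by norm_num)).comp tl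
  have t2 : Tendsto (fun N : ℕ => Real.log N ^ (1 / 902 - 1 / 1000 : ℝ)) atTop atTop :=
    (tendsto_rpow_atTop (by norm_num)).comp tl
  obtain ⟨N0, hN0⟩ := eventually_atTop.1 ((t1.eventually_ge_atTop (u0 + 1 : ℝ)).and
    ((t2.eventually_ge_atTop (2 * C)).and
      ((tl.eventually_gt_atTop 0).and (eventually_ge_atTop 1))))
  refine ⟨N0, fun N hN => ?_⟩
  obtain ⟨a1, a2, a3, a4⟩ := hN0 N hN
  set x := Real.log N with hx
  set y := x ^ (1 / 451 : ℝ) with hy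
  have y0 : 0 ≤ y := by positivity
  have u0' : (0 : ℝ) ≤ u0 := by positivity
  have f1 : (⌊y⌋₊ : ℝ) ≤ y := Nat.floor_le y0
  have f2 : y < ⌊y⌋₊ + 1 := Nat.lt_floor_add_one y
  have f3 : u0 ≤ ⌊y⌋₊ := Nat.le_floor (by linarith)
  have f4 : (1 : ℝ) ≤ ⌊y⌋₊ := by exact_mod_cast Nat.le_floor (by push_cast; linarith)
  have e1 : y ^ 451 = x := by
    rw [hy, ← rpow_natCast, ← rpow_mul a3.le]; norm_num
  have N0' : (0 : ℝ) < N := by exact_mod_cast a4
  refine le_trans ?_ (hu ⌊y⌋₊ f3 N ?_)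
  · rw [le_div_iff₀ hC]
    refine le_sqrt_of_sq_le ?_
    have e2 : (x ^ (1 / 1000 : ℝ) * x ^ (1 / 902 - 1 / 1000 : ℝ)) ^ 2 = y := by
      rw [← rpow_add a3, hy, ← rpow_natCast, ← rpow_mul a3.le]; norm_num
    have e3 : (x ^ (1 / 1000 : ℝ) * (2 * C)) ^ 2 ≤ y := by
      rw [← e2]; gcongr
    nlinarith [sq_nonneg (x ^ (1 / 1000 : ℝ) * C)]
  · calc Real.exp ((⌊y⌋₊ : ℝ) ^ 451) ≤ Real.exp x := by
          rw [← e1]; gcongr
      _ = N := exp_log N0'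

end Vale.Agent.P318.M
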