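import Vale.Agent.P318.M.Stmt
import Vale.Agent.P318.RedFin

/-!
The lower bound for `gap` given by one instance and one feasible semimetric.
-/

namespace Vale.Agent.P318.M

open Finset

theorem Gap.gap_nonneg (n : ℕ) : 0 ≤ gap n := by
  refine Real.sSup_nonneg ?_
  rintro r ⟨c, hc, h0, rfl⟩
  refine div_nonneg ?_ h0.le
  refine Real.sInf_nonneg ?_
  rintro r ⟨S, h1, h2, rfl⟩
  exact cutRatio_nonneg hc h1 h2

theorem gap_proof : GapStmt := by
  intro N c d r D _ hc hd hr hD hcut hA
  have hk := hd.negKer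
  have e1 : pairSum d = (∑ i, ∑ j, d i j) / 2 := pairSum_eq_half hk.symm hk.self
  have e2 : pairSum (fun i j => c i j * d i j) = (∑ i, ∑ j, c i j * d i j) / 2 :=
    pairSum_eq_half (fun i j => by rw [hc.1 i j, hk.symm i j]) (fun i => by simp [hk.self])
  have h0 : 0 ≤ ∑ i, ∑ j, d i j :=
    Finset.sum_nonneg fun i _ => Finset.sum_nonneg fun j _ => hk.nonneg i j
  rcases h0.eq_or_lt with h | h
  · rw [e1, ← h]
    simpa using Gap.gap_nonneg N
  · have key := gap_ge_fin hc hk hd.2 (φ := r) (A := 2 * D) (D := ∑ i, ∑ j, d i j) hr h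
      (fun S h1 h2 => ?_) (by linarith) le_rfl
    · refine le_trans (le_of_eq ?_) key
      rw [e1]
      field_simp
    · have := hcut S h1 h2
      unfold cutRatio at this
      rwa [le_div_iff₀ (zero_lt_one.trans_le (one_le_card_mul h1 h2))] at this

end Vale.Agent.P318.M
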