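import Mathlib

/-!
The numerical side conditions for the instances.
-/

namespace Vale.Agent.P318.M

open Real Filter

namespace Inst

/-- `u` is large compared with the constants and `q` has the size `u^10`. -/
structure Big (Kp ω L u q : ℝ) : Prop where
  u_ge : 2 ^ 48 ≤ u
  Kp_pos : 0 < Kp
  u_Kp : 1 ≤ u * Kp
  om_pos : 0 < ω
  u_om : 1 ≤ u * ω
  L_ge : 1 ≤ L
  u_L : 88 * (1 + 2 * L) ≤ u
  q_ge : u ^ 10 ≤ q
  q_le : q ≤ 2 * u ^ 10
  X_le : u ^ 1000 * exp (-(u / (88 * (1 + 2 * L)))) ≤ 1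

lemma big_ev {Kp ω L : ℝ} (hK : 0 < Kp) (hω : 0 < ω) (hL : 1 ≤ L) :
    ∀ᶠ u : ℕ in atTop, ∀ q : ℝ, (u : ℝ) ^ 10 ≤ q → q ≤ 2 * (u : ℝ) ^ 10 → Big Kp ω L u q := by
  have t : Tendsto (fun u : ℕ => (u : ℝ)) atTop atTop := tendsto_natCast_atTop_atTop
  set c := 88 * (1 + 2 * L) with hc
  have c0 : 0 < c := by positivity
  have t2 : Tendsto (fun u : ℕ => c ^ 1000 * (((u : ℝ) / c) ^ 1000 * exp (-((u : ℝ) / c))))
      atTop (nhds (c ^ 1000 * 0)) :=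
    ((tendsto_pow_mul_exp_neg_atTop_nhds_zero 1000).comp (t.atTop_div_const c0)).const_mul _
  filter_upwards [t.eventually_ge_atTop (2 ^ 48), t.eventually_ge_atTop (1 / Kp),
    t.eventually_ge_atTop (1 / ω), t.eventually_ge_atTop c,
    t2.eventually_le_const (by simp : c ^ 1000 * 0 < (1 : ℝ))] with u a1 a2 a3 a4 a5 q b1 b2
  refine ⟨a1, hK, (div_le_iff₀ hK).1 a2, hω, (div_le_iff₀ hω).1 a3, hL, a4, b1, b2, ?_⟩
  refine le_of_eq_of_le ?_ a5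
  rw [← mul_assoc, ← mul_pow, mul_div_cancel₀ _ c0.ne']

namespace Big

variable {Kp ω L u q : ℝ} (h : Big Kp ω L u q)
include h

lemma u1 : 1 ≤ u := le_trans (by norm_num) h.u_ge
lemma u0 : 0 < u := lt_of_lt_of_le one_pos h.u1
lemma pw {a b : ℕ} (hab : a ≤ b) : u ^ a ≤ u ^ b := pow_le_pow_right₀ h.u1 hab
lemma pq {a : ℕ} (ha : a ≤ 10) : u ^ a ≤ q := (h.pw ha).trans h.q_ge
lemma uq : u ≤ q := by simpa using h.pq (a := 1) (by norm_num)
lemma q1 : 1 ≤ q := h.u1.trans h.uq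
lemma q0 : 0 < q := lt_of_lt_of_le one_pos h.q1
lemma qw {a b : ℕ} (hab : a ≤ b) : q ^ a ≤ q ^ b := pow_le_pow_right₀ h.q1 hab
lemma Lu : L ≤ u := by linarith [h.u_L, h.L_ge]

lemma cpq {C : ℝ} (hC : C ≤ 2 ^ 48) {a : ℕ} (ha : a ≤ 9) : C * u ^ a ≤ q := by
  have := h.u0
  calc C * u ^ a ≤ u * u ^ a := by gcongr; exact hC.trans h.u_ge
    _ = u ^ (a + 1) := by ring
    _ ≤ q := h.pq (by omega)

lemma q11 : q ≤ u ^ 11 := by
  have := h.u0
  calc q ≤ 2 * u ^ 10 := h.q_le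
    _ ≤ u * u ^ 10 := by gcongr; exact le_trans (by norm_num) h.u_ge
    _ = u ^ 11 := by ring

/-- Smallness of `exp (-u / c)` against monomials. -/
lemma small {C x : ℝ} (hC : C ≤ 2 ^ 48) (a b : ℕ) (hab : a + 11 * b ≤ 999) (x0 : 0 ≤ x)
    (hx : x ≤ exp (-(u / (88 * (1 + 2 * L))))) : C * (u ^ a * q ^ b * x) ≤ 1 := by
  have := h.u0
  have := h.q0
  calc C * (u ^ a * q ^ b * x) ≤ u * (u ^ a * (u ^ 11) ^ b * exp (-(u / (88 * (1 + 2 * L))))) := by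
        gcongr
        exacts [hC.trans h.u_ge, h.q11]
    _ = u ^ (a + 11 * b + 1) * exp (-(u / (88 * (1 + 2 * L)))) := by ring
    _ ≤ u ^ 1000 * exp (-(u / (88 * (1 + 2 * L)))) := by
        gcongr
        exacts [h.u1, by omega]
    _ ≤ 1 := h.X_le

lemma ex_le {t : ℝ} (ht : u ≤ t) : exp (-t) ≤ exp (-(u / (88 * (1 + 2 * L)))) := by
  have := h.L_ge
  have : u / (88 * (1 + 2 * L)) ≤ u := div_le_self h.u0.le (by linarith)
  gcongr
  linarith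

end Big

lemma half_le {Kp ω L u : ℝ} {q : ℕ} (h : Big Kp ω L u q) :
    (1 / 2 : ℝ) ^ q ≤ exp (-(u / (88 * (1 + 2 * L)))) := by
  refine le_trans ?_ (h.ex_le (t := q * log 2) ?_)
  · rw [exp_neg, exp_nat_mul, exp_log two_pos, one_div, inv_pow]
  · have := h.cpq (C := 2) (a := 1) (by norm_num) (by norm_num)
    nlinarith [log_two_gt_d9, h.u0]

lemma n_col {Kp ω L u : ℝ} {q : ℕ} (h : Big Kp ω L u q) :
    u ^ 2 * ((q : ℝ) ^ 44) ^ 2 * (100 * exp (-((q * u) ^ 2 / (2 * q ^ 2))) + (1 / 2) ^ q) +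
      (u ^ 2 * q * q ^ 2) ^ 2 * ((q : ℝ) ^ 44 + (q ^ 44 * (1 / 2) ^ q) ^ 2) /
        (q ^ 43 / (2 * (u ^ 2 * q * q ^ 2))) ^ 2 < 1 := by
  have u0 := h.u0
  have q0 := h.q0
  have a1 := half_le h
  have a2 : exp (-((q * u) ^ 2 / (2 * q ^ 2))) ≤ exp (-(u / (88 * (1 + 2 * L)))) := by
    refine h.ex_le ?_
    have : (q * u) ^ 2 / (2 * q ^ 2) = u ^ 2 / 2 := by field_simp
    rw [this]
    nlinarith [h.u_ge]
  have b1 := h.small (C := 404) (by norm_num) 2 88 (by norm_num) (exp_pos _).le le_rfl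
  have b2 := h.small (C := 1) (by norm_num) 0 44 (by norm_num) (by positivity) a1
  have b3 : ((q : ℝ) ^ 44 * (1 / 2) ^ q) ^ 2 ≤ q ^ 44 :=
    (pow_le_one₀ (by positivity) (by simpa using b2)).trans (one_le_pow₀ h.q1)
  have c1 : u ^ 2 * ((q : ℝ) ^ 44) ^ 2 * (100 * exp (-((q * u) ^ 2 / (2 * q ^ 2))) + (1 / 2) ^ q) ≤
      u ^ 2 * ((q : ℝ) ^ 44) ^ 2 * (100 * exp (-(u / (88 * (1 + 2 * L)))) +
        exp (-(u / (88 * (1 + 2 * L))))) := by gcongr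
  have c2 : (u ^ 2 * q * q ^ 2) ^ 2 * ((q : ℝ) ^ 44 + (q ^ 44 * (1 / 2) ^ q) ^ 2) /
        (q ^ 43 / (2 * (u ^ 2 * q * q ^ 2))) ^ 2 ≤ 1 / 2 := by
    calc _ ≤ (u ^ 2 * q * q ^ 2) ^ 2 * ((q : ℝ) ^ 44 + q ^ 44) /
          (q ^ 43 / (2 * (u ^ 2 * q * q ^ 2))) ^ 2 := by gcongr
      _ = 8 * u ^ 8 / q ^ 30 := by field_simp; ring
      _ ≤ 1 / 2 := by
        rw [div_le_iff₀ (by positivity)]
        have := h.cpq (C := 16) (a := 8) (by norm_num) (by norm_num)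
        have := h.qw (a := 1) (b := 30) (by norm_num)
        linarith
  linarith

namespace Big

variable {Kp ω L u q : ℝ} (h : Big Kp ω L u q)
include h

lemma eps_le : sqrt (2 * u / q) ≤ 1 := by
  refine sqrt_le_one.2 ((div_le_one h.q0).2 ?_)
  simpa using h.cpq (C := 2) (a := 1) (by norm_num) (by norm_num)

lemma g_le : 1 / u ≤ 1 / 4 :=
  one_div_le_one_div_of_le (by norm_num) (le_trans (by norm_num) h.u_ge)

lemma s0_ge : 1 ≤ 4 * (1 / u) * (⌊u ^ 2 / (88 * (1 + 2 * L))⌋₊ : ℝ) := by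
  have := h.L_ge
  have a1 := Nat.lt_floor_add_one (u ^ 2 / (88 * (1 + 2 * L)))
  have a2 : u ≤ u ^ 2 / (88 * (1 + 2 * L)) := by
    rw [le_div_iff₀ (by positivity)]
    nlinarith [h.u_L, h.u0]
  rw [mul_one_div, div_mul_eq_mul_div, le_div_iff₀ h.u0]
  linarith [h.u_ge]

lemma s0_le : 2 * ((⌊u ^ 2 / (88 * (1 + 2 * L))⌋₊ : ℝ) * (44 : ℕ) * (1 + 2 * L)) ≤ u ^ 2 := by
  have := h.L_ge
  have a1 := Nat.floor_le (a := u ^ 2 / (88 * (1 + 2 * L))) (by positivity)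
  rw [le_div_iff₀ (by positivity)] at a1
  push_cast
  linarith

lemma tau (k : ℕ) (hk : ⌊u ^ 2 / (88 * (1 + 2 * L))⌋₊ < k) :
    k * (1 - 1 / u) ^ (2 * (k - 2)) ≤ 3 * u * exp (-(u / (88 * (1 + 2 * L)))) := by
  have u0 := h.u0
  have := h.L_ge
  have g := h.g_le
  have a1 : u ^ 2 / (88 * (1 + 2 * L)) < k := Nat.lt_of_floor_lt hk
  have a2 : u / (88 * (1 + 2 * L)) ≤ k / u := by
    rw [le_div_iff₀ u0]
    refine le_of_eq_of_le ?_ a1.le
    ring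
  have a3 : (k : ℝ) - 2 ≤ (k - 2 : ℕ) := by
    have : k ≤ k - 2 + 2 := by omega
    have : (k : ℝ) ≤ (k - 2 : ℕ) + 2 := by exact_mod_cast this
    linarith
  have a4 : (1 - 1 / u) ^ (2 * (k - 2)) ≤ exp (-(k / u)) * exp (-(k / u)) * exp 1 := by
    calc _ ≤ exp (-(1 / u)) ^ (2 * (k - 2)) := by
          gcongr
          · linarith
          · exact one_sub_le_exp_neg _
      _ = exp ((2 * (k - 2) : ℕ) * -(1 / u)) := (exp_nat_mul _ _).symm
      _ ≤ _ := by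
          rw [← exp_add, ← exp_add, exp_le_exp]
          push_cast
          have : 0 < 1 / u := by positivity
          have e : (k : ℝ) / u = k * (1 / u) := by ring
          rw [e]
          nlinarith
  have a5 : k * exp (-(k / u)) ≤ u := by
    have b : (k : ℝ) / u ≤ exp (k / u) := by linarith [add_one_le_exp ((k : ℝ) / u)]
    rw [exp_neg, ← div_eq_mul_inv, div_le_iff₀ (exp_pos _)]
    rwa [div_le_iff₀' u0] at b
  calc _ ≤ k * (exp (-(k / u)) * exp (-(k / u)) * exp 1) := by gcongr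
    _ = exp 1 * (k * exp (-(k / u))) * exp (-(k / u)) := by ring
    _ ≤ _ := by
      gcongr
      linarith [exp_one_lt_d9]

lemma err : L * (u ^ 2 * (q ^ 44 * exp (-u) + 3 * u * exp (-(u / (88 * (1 + 2 * L)))))) ≤
    1 / 100 := by
  have u0 := h.u0
  have q0 := h.q0
  have := h.L_ge
  have a1 := h.small (C := 200) (by norm_num) 3 44 (by norm_num) (exp_pos _).le le_rfl
  have a2 : 3 * u ≤ q ^ 44 := by
    have := h.cpq (C := 3) (a := 1) (by norm_num) (by norm_num)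
    have := h.qw (a := 1) (b := 44) (by norm_num)
    linarith
  calc _ ≤ u * (u ^ 2 * (q ^ 44 * exp (-(u / (88 * (1 + 2 * L)))) +
        q ^ 44 * exp (-(u / (88 * (1 + 2 * L)))))) := by
        gcongr
        · exact h.Lu
        · exact div_le_self u0.le (by linarith)
    _ ≤ _ := by linarith

lemma del : L * (1 / u + u ^ 2 * u * sqrt (2 * u / q)) ≤ 2 * L / u := by
  have u0 := h.u0
  have q0 := h.q0
  have := h.L_ge
  have a1 : sqrt (2 * u / q) ≤ 1 / u ^ 4 := by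
    refine sqrt_le_iff.2 ⟨by positivity, ?_⟩
    rw [div_pow, div_le_div_iff₀ q0 (by positivity)]
    have := h.cpq (C := 2) (a := 9) (by norm_num) (by norm_num)
    linarith
  calc _ ≤ L * (1 / u + u ^ 2 * u * (1 / u ^ 4)) := by gcongr
    _ = _ := by field_simp; ring

lemma inv_le : 1 / u ≤ ω := by
  rw [div_le_iff₀' h.u0]
  exact h.u_om

lemma dn_le : 1 / q ^ 44 ≤ ω := by
  refine le_trans (one_div_le_one_div_of_le h.u0 ?_) h.inv_le
  have := h.qw (a := 1) (b := 44) (by norm_num)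
  linarith [h.uq]

lemma om5 : u ^ 2 * q ^ 2 * (2 * (q ^ 25 + 1) / q ^ 43) ≤ 4 * u ^ 2 / q ^ 16 := by
  have u0 := h.u0
  have q0 := h.q0
  calc _ ≤ u ^ 2 * q ^ 2 * (2 * (q ^ 25 + q ^ 25) / q ^ 43) := by
        gcongr
        exact one_le_pow₀ h.q1
    _ = _ := by field_simp; ring

lemma om5_le : u ^ 2 * q ^ 2 * (2 * (q ^ 25 + 1) / q ^ 43) ≤ ω := by
  have u0 := h.u0
  have q0 := h.q0
  refine h.om5.trans (le_trans ?_ h.inv_le)
  rw [div_le_div_iff₀ (by positivity) u0]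
  have := h.cpq (C := 4) (a := 3) (by norm_num) (by norm_num)
  have := h.qw (a := 1) (b := 16) (by norm_num)
  linarith

lemma d0_le : u ^ 2 * q ^ 2 * (1 / (4 * q ^ 4)) ≤ Kp / 32 := by
  have u0 := h.u0
  have q0 := h.q0
  have a1 := h.cpq (C := 8) (a := 3) (by norm_num) (by norm_num)
  have a2 := h.qw (a := 1) (b := 2) (by norm_num)
  have a3 := h.u_Kp
  have k0 := h.Kp_pos
  calc _ = u ^ 2 * 1 / (4 * q ^ 2) := by field_simp
    _ ≤ u ^ 2 * (u * Kp) / (4 * (8 * u ^ 3)) := by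
        gcongr
        linarith
    _ = _ := by field_simp; ring

lemma A_le : 32 * π * q ^ 30 * (8 * q ^ 6 / Kp) * (u ^ 2 * q * (q ^ 2 + q ^ 2)) * q ^ 3 / q ^ 43 ≤
    Kp := by
  have u0 := h.u0
  have q0 := h.q0
  have k0 := h.Kp_pos
  have a1 := h.cpq (C := 2048) (a := 4) (by norm_num) (by norm_num)
  have a3 : 1 ≤ (u * Kp) ^ 2 := one_le_pow₀ h.u_Kp
  calc _ = 512 * π * u ^ 2 * 1 / (Kp * q) := by field_simp; ring
    _ ≤ 512 * 4 * u ^ 2 * (u * Kp) ^ 2 / (Kp * (2048 * u ^ 4)) := by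
        gcongr
        exact pi_le_four
    _ = _ := by field_simp; ring

lemma A_ge : 4 * (q ^ 25 + 2 + 2 * q ^ 44 * (u ^ 2 * q ^ 2 * (2 * (q ^ 25 + 1) / q ^ 43))) +
    4 * q ^ 44 * (1 / q ^ 44) ≤ Kp * q ^ 30 / 4 := by
  have u0 := h.u0
  have q0 := h.q0
  have k0 := h.Kp_pos
  have a1 := h.cpq (C := 192) (a := 3) (by norm_num) (by norm_num)
  have a2 : q ^ 44 * (u ^ 2 * q ^ 2 * (2 * (q ^ 25 + 1) / q ^ 43)) ≤ 4 * (u ^ 2 * q ^ 28) := by
    calc _ ≤ q ^ 44 * (4 * u ^ 2 / q ^ 16) := by gcongr; exact h.om5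
      _ = _ := by field_simp
  have a3 : q ^ 28 ≤ u ^ 2 * q ^ 28 := le_mul_of_one_le_left (by positivity) (one_le_pow₀ h.u1)
  have a4 := h.qw (a := 25) (b := 28) (by norm_num)
  have a5 : 1 ≤ q ^ 25 := one_le_pow₀ h.q1
  have a6 : 4 * q ^ 44 * (1 / q ^ 44) = 4 := by field_simp
  have a7 : 192 * (u ^ 2 * q ^ 28) ≤ Kp * q ^ 30 := by
    calc _ = 1 * (192 * u ^ 2 * q ^ 28) * 1 := by ring
      _ ≤ (u * Kp) * (192 * u ^ 2 * q ^ 28) * q := by gcongr; exacts [h.u_Kp, h.q1]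
      _ = Kp * (192 * u ^ 3) * q ^ 29 := by ring
      _ ≤ Kp * q * q ^ 29 := by gcongr
      _ = _ := by ring
  linarith

lemma pb_le {k : ℕ} (hk : (k : ℝ) = u ^ 2 * q * q ^ 2) :
    2 * (k + (u ^ 2 * q ^ 2 * q ^ 44) ^ k) * exp (-((q ^ 25) ^ 2 / (64 * q ^ 44))) ≤
      4 * exp (-(u / (88 * (1 + 2 * L)))) := by
  have u0 := h.u0
  have q0 := h.q0
  have a0 := h.pq (a := 2) (by norm_num)
  have a1 : (k : ℝ) ≤ q ^ 4 := by
    calc _ = u ^ 2 * q ^ 3 := by rw [hk]; ring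
      _ ≤ q * q ^ 3 := by gcongr
      _ = _ := by ring
  have a2 : u ^ 2 * q ^ 2 * q ^ 44 ≤ exp (47 * q) := by
    calc _ ≤ q * q ^ 2 * q ^ 44 := by gcongr
      _ = q ^ 47 := by ring
      _ ≤ exp q ^ 47 := by gcongr; linarith [add_one_le_exp q]
      _ = _ := by rw [← exp_nat_mul]; norm_num
  have a3 : (u ^ 2 * q ^ 2 * q ^ 44) ^ k ≤ exp (47 * q ^ 5) := by
    calc _ ≤ exp (47 * q) ^ k := by gcongr
      _ = exp (k * (47 * q)) := (exp_nat_mul _ _).symm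
      _ ≤ exp (q ^ 4 * (47 * q)) := by gcongr
      _ = _ := by ring_nf
  have a4 : (k : ℝ) ≤ exp (47 * q ^ 5) := by
    have := h.qw (a := 4) (b := 5) (by norm_num)
    have := add_one_le_exp (47 * q ^ 5)
    have : 0 ≤ q ^ 5 := by positivity
    linarith
  have a5 : (q ^ 25) ^ 2 / (64 * q ^ 44) = q ^ 6 / 64 := by field_simp
  have a6 : 48 * q ^ 5 ≤ q ^ 6 / 64 := by
    have : 48 * 64 ≤ q := le_trans (by norm_num) (h.u_ge.trans h.uq)
    have : 48 * 64 * q ^ 5 ≤ q * q ^ 5 := by gcongr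
    linarith
  have a7 := h.qw (a := 1) (b := 5) (by norm_num)
  calc _ ≤ 2 * (exp (47 * q ^ 5) + exp (47 * q ^ 5)) * exp (-(q ^ 6 / 64)) := by
        rw [a5]; gcongr
    _ = 4 * exp (-(q ^ 6 / 64 - 47 * q ^ 5)) := by
        rw [neg_sub, sub_eq_add_neg, exp_add]; ring
    _ ≤ _ := by
        have := h.ex_le (t := q ^ 6 / 64 - 47 * q ^ 5) (by linarith [h.uq])
        linarith

lemma pb1 : 4 * exp (-(u / (88 * (1 + 2 * L)))) ≤ 1 / 20 := by
  have := h.small (C := 80) (by norm_num) 0 0 (by norm_num) (exp_pos _).le le_rfl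
  simp only [pow_zero, one_mul] at this
  linarith

lemma pb2 : 4 * exp (-(u / (88 * (1 + 2 * L)))) * (4 * q ^ 44 + q ^ 30 + 1) ≤ 1 := by
  have a1 := h.small (C := 24) (by norm_num) 0 44 (by norm_num) (exp_pos _).le le_rfl
  have a2 := h.qw (a := 30) (b := 44) (by norm_num)
  have a3 : 1 ≤ q ^ 44 := one_le_pow₀ h.q1
  calc _ ≤ 4 * exp (-(u / (88 * (1 + 2 * L)))) * (4 * q ^ 44 + q ^ 44 + q ^ 44) := by gcongr
    _ ≤ 1 := by linarith

lemma size {n : ℕ} (hn : (n : ℝ) = q ^ 44) :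
    101 * (2 * (u ^ 2 * q ^ 2) + 6) ^ n ≤ exp (u ^ 451) := by
  have u0 := h.u0
  have q0 := h.q0
  have a0 := h.cpq (C := 8) (a := 2) (by norm_num) (by norm_num)
  have a1 : 1 ≤ u ^ 2 * q ^ 2 := one_le_mul_of_one_le_of_one_le (one_le_pow₀ h.u1) (one_le_pow₀ h.q1)
  have a2 : 2 * (u ^ 2 * q ^ 2) + 6 ≤ exp (3 * q) := by
    calc _ ≤ 8 * u ^ 2 * q ^ 2 := by linarith
      _ ≤ q * q ^ 2 := by gcongr
      _ = q ^ 3 := by ring
      _ ≤ exp q ^ 3 := by gcongr; linarith [add_one_le_exp q]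
      _ = _ := by rw [← exp_nat_mul]; norm_num
  have a3 : (101 : ℝ) ≤ exp (q ^ 45) := by
    have := h.qw (a := 1) (b := 45) (by norm_num)
    linarith [add_one_le_exp (q ^ 45), h.u_ge, h.uq]
  calc _ ≤ exp (q ^ 45) * exp (3 * q) ^ n := by gcongr
    _ = exp (4 * q ^ 45) := by rw [← exp_nat_mul, ← exp_add, hn]; ring_nf
    _ ≤ exp (4 * (2 * u ^ 10) ^ 45) := by gcongr; exact h.q_le
    _ = exp (2 ^ 47 * u ^ 450) := by ring_nf
    _ ≤ exp (u * u ^ 450) := by gcongr; exact le_trans (by norm_num) h.u_ge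
    _ = _ := by ring_nf

lemma last {δ D1 : ℝ} (d0 : 0 < δ) (hδ : δ ≤ 2 * L / u) (D0 : 0 < D1) (hD : D1 ≤ q ^ 44 / ω * 3) :
    sqrt u / (2 * 51200 * 1200 * L / ω) ≤
      (q ^ 44 / 51200) ^ (1 - 1 / 880 : ℝ) / (200 * δ * D1) := by
  have u0 := h.u0
  have q0 := h.q0
  have w0 := h.om_pos
  have := h.L_ge
  have s0 : 0 < sqrt u := sqrt_pos.2 u0
  have a1 : (q ^ 44 / 51200) ^ (1 / 880 : ℝ) ≤ 2 * sqrt u := by
    refine (pow_le_pow_iff_left₀ (by positivity) (by positivity) (by norm_num : 880 ≠ 0)).1 ?_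
    calc _ = q ^ 44 / 51200 := by
          rw [← rpow_natCast, ← rpow_mul (by positivity)]; norm_num
      _ ≤ q ^ 44 := div_le_self (by positivity) (by norm_num)
      _ ≤ (2 * u ^ 10) ^ 44 := by gcongr; exact h.q_le
      _ = 2 ^ 44 * (sqrt u ^ 2) ^ 440 := by rw [sq_sqrt u0.le]; ring
      _ ≤ 2 ^ 880 * (sqrt u ^ 2) ^ 440 := by gcongr <;> norm_num
      _ = _ := by rw [mul_pow, ← pow_mul]
  calc _ = q ^ 44 / 51200 / (2 * sqrt u) / (200 * (2 * L / u) * (q ^ 44 / ω * 3)) := by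
        field_simp
        rw [sq_sqrt u0.le]
        ring
    _ ≤ q ^ 44 / 51200 / (q ^ 44 / 51200) ^ (1 / 880 : ℝ) / (200 * δ * D1) := by gcongr
    _ = _ := by rw [rpow_sub (by positivity), rpow_one]

end Big

end Inst

end Vale.Agent.P318.M
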