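import Vale.Agent.P318.M.Inst1
import Vale.Agent.P318.M.Inst2

/-!
The instances: choice of all parameters.
-/

namespace Vale.Agent.P318.M

open Finset Filter

namespace Inst

lemma ex_Kp : ∃ Kp : ℝ, 0 < Kp ∧ Kp ≤ 1 ∧ (2 + Kp) ^ (1 - 1 / 880 : ℝ) ≤ 2 := by
  have a : (2 : ℝ) < 2 ^ (1 - 1 / 880 : ℝ)⁻¹ := by
    conv_lhs => rw [← Real.rpow_one 2]
    exact Real.rpow_lt_rpow_of_exponent_lt (by norm_num) (by norm_num)
  have p : 0 < min 1 (2 ^ (1 - 1 / 880 : ℝ)⁻¹ - 2 : ℝ) := lt_min one_pos (by linarith)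
  refine ⟨_, p, min_le_left _ _, ?_⟩
  calc _ ≤ ((2 : ℝ) ^ (1 - 1 / 880 : ℝ)⁻¹) ^ (1 - 1 / 880 : ℝ) := by
        gcongr
        linarith [min_le_right 1 (2 ^ (1 - 1 / 880 : ℝ)⁻¹ - 2 : ℝ)]
    _ = 2 := Real.rpow_inv_rpow (by norm_num) (by norm_num)

end Inst

open Inst in
theorem inst_proof (hP : PoincareStmt) (hLA : LinAlgStmt) (hLat : LatticeStmt)
    (hCol : ColumnsStmt) (hGood : GoodStmt) (hMet : MetricStmt) (hMod : ModelStmt) : InstStmt := by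
  obtain ⟨Kp, K0, K1, K2⟩ := ex_Kp
  obtain ⟨ω0, w0, -, hP⟩ := hP (1 / 500) (by norm_num)
  obtain ⟨ω, o0, o1, o2, o3⟩ : ∃ ω : ℝ, 0 < ω ∧ ω ≤ ω0 ∧ 3 * ω ≤ Kp ^ 3 / 32768 ∧ ω ≤ 1 / 160 :=
    ⟨min ω0 (min (Kp ^ 3 / 98304) (1 / 160)), by positivity, min_le_left _ _,
      by linarith [(min_le_right ω0 _).trans (min_le_left (Kp ^ 3 / 98304) (1 / 160))],
      (min_le_right _ _).trans (min_le_right _ _)⟩
  obtain ⟨L, L1, hP⟩ := hP ω o0 o1
  obtain ⟨q0, hLat⟩ := hLat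
  obtain ⟨u0, hu0⟩ := eventually_atTop.1 ((big_ev K0 o0 L1).and (eventually_ge_atTop (q0 + 1)))
  refine ⟨2 * 51200 * 1200 * L / ω, by positivity, u0, fun u hu N hN => ?_⟩
  obtain ⟨hb, hq0⟩ := hu0 u hu
  obtain ⟨q, qp, q1, q2⟩ := Nat.exists_prime_lt_and_le_two_mul (u ^ 10)
    (pow_ne_zero _ (by omega))
  have h : Big Kp ω L u q := hb q (by exact_mod_cast q1.le) (by exact_mod_cast q2)
  haveI : Fact q.Prime := ⟨qp⟩
  have uq : u ≤ q := by exact_mod_cast h.uq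
  have upos := h.u0
  have qpos := h.q0
  haveI : Nonempty (Fin (u ^ 2)) := ⟨⟨0, pow_pos (by omega) _⟩⟩
  haveI : Nonempty (Fin (q ^ 2)) := ⟨⟨0, pow_pos qp.pos _⟩⟩
  have cI : (Fintype.card (Fin 44 → ZMod q) : ℝ) = (q : ℝ) ^ 44 := by simp
  have cA : (Fintype.card (Fin (u ^ 2)) : ℝ) = (u : ℝ) ^ 2 := by simp
  have cK : (Fintype.card (Fin (q ^ 2)) : ℝ) = (q : ℝ) ^ 2 := by simp
  have cκ : (Fintype.card ((Fin (u ^ 2) × ZMod q) × Fin (q ^ 2)) : ℝ) =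
      (u : ℝ) ^ 2 * q * q ^ 2 := by simp
  have cΦ : (Fintype.card ((Fin (u ^ 2) × ZMod q) × (Fin (q ^ 2) ⊕ Fin (q ^ 2))) : ℝ) =
      (u : ℝ) ^ 2 * q * (q ^ 2 + q ^ 2) := by simp
  obtain ⟨π, π1, π2⟩ := hLA.2.2 q 44 (u ^ 2) (by norm_num)
    (by exact_mod_cast h.pq (a := 2) (by norm_num))
  obtain ⟨Γ, lam, T, g1, g2, g3, g4, g5, g6⟩ := hLat q (by omega) qp (q * u) (by positivity)
  obtain ⟨s, s1, s2, s3⟩ := hCol (Fin 44 → ZMod q) (Fin (u ^ 2)) (ZMod q) (Fin (q ^ 2)) π T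
    (q * u) _ _ ((q : ℝ) ^ 43 / (2 * (u ^ 2 * q * q ^ 2))) g3 (fun t ht => (g4 t ht).2)
    (by positivity) (by positivity) g5 g6 (by rw [cA, cI, cκ]; exact n_col h)
  have pm : ∀ a j, PM (s a j) := fun a j => (g4 _ (s1 a j)).2.1
  have du : ∀ a j, Dual Γ (s a j) := fun a j => (g4 _ (s1 a j)).1
  obtain ⟨Sp, sp⟩ := hLA.2.1 _ _ (tcol π s) ((q : ℝ) ^ 43) (by positivity)
    (fun x => by rw [tcol_sq pm, π1]; simp) fun x => by
      calc _ ≤ ∑ _x' ∈ univ.erase x, (q : ℝ) ^ 43 / (2 * (u ^ 2 * q * q ^ 2)) :=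
            sum_le_sum fun x' hx' => s3 _ _ (ne_of_mem_erase hx').symm
        _ ≤ ∑ _x' : (Fin (u ^ 2) × ZMod q) × Fin (q ^ 2),
            (q : ℝ) ^ 43 / (2 * (u ^ 2 * q * q ^ 2)) :=
            sum_le_sum_of_subset_of_nonneg (erase_subset _ _) fun _ _ _ => by positivity
        _ = _ := by rw [sum_const, card_univ, nsmul_eq_mul, cκ]; field_simp
  have cQ : ((u ^ 2 * q ^ 2 * q ^ 44 : ℕ) : ℝ) = (u : ℝ) ^ 2 * q ^ 2 * q ^ 44 := by push_cast; rfl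
  have cs : ∀ j, ∑ x, |(tcol π s j x : ℝ)| ≤ (u : ℝ) ^ 2 * q ^ 2 := fun j => by
    rw [tcol_sum pm, cA, cK]
  have gh : GHyp (tlat (Fin (u ^ 2) × ZMod q) Γ) (tcol π s) Sp (lamt _ lam) Kp (3 * ω)
      (1 / (q : ℝ) ^ 44) (1 / (4 * (q : ℝ) ^ 4)) (1 / (4 * (q : ℝ) ^ 3)) ((u : ℝ) ^ 2 * q ^ 2)
      ((q : ℝ) ^ 3) ((q : ℝ) ^ 43) ((q : ℝ) ^ 30) (8 * (q : ℝ) ^ 6 / Kp)
      ((q : ℝ) ^ 25 + 2 + 2 * q ^ 44 * (u ^ 2 * q ^ 2 * (2 * (q ^ 25 + 1) / q ^ 43)))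
      (u ^ 2 * q ^ 2 * q ^ 44) :=
    { proj := sp
      m_pos := by positivity
      dual := tcol_dual du
      ent := tcol_ent pm
      colsum := cs
      feat := feat_lamt g2
      L1_nonneg := by positivity
      Kp_pos := K0
      Kp_le := K1
      dn_pos := by positivity
      dn_le := by linarith [h.dn_le]
      om_le := o2
      Q_pos := by exact_mod_cast (cQ ▸ by positivity : (0 : ℝ) < (u ^ 2 * q ^ 2 * q ^ 44 : ℕ))
      net := by rw [cQ]; exact le_of_eq (by field_simp)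
      d0_nonneg := by positivity
      d0_le := h.d0_le
      d1_pos := by positivity
      N_ge := le_of_eq (by field_simp; ring)
      A_pos := by positivity
      A_le := by rw [cΦ]; exact h.A_le
      A_ge := by rw [cI]; exact h.A_ge }
  obtain ⟨bm, c, c1, c2⟩ := hGood _ _ (tcol π s) ω (3 * ω) (Kp / 32) ((q : ℝ) ^ 25)
    (u ^ 2 * q ^ 2 * q ^ 44) o0 (by linarith) (by positivity) (by linarith) (by positivity)
    (by positivity) (by rw [cI]; exact h.qw (by norm_num)) (tcol_ent pm)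
  rw [cI, cQ] at c2
  obtain ⟨dd, md⟩ := hMet _ _ _ _ _ _ _ _ _ _ _ _ _ _ _ _ _ _ _ c ω _ ((q : ℝ) ^ 25) (1 - 1 / 880)
    _ gh (tcol_pm pm) o0 o3 h.om5_le le_rfl (by linarith [h.om5_le, h.dn_le])
    (by rw [cI]) (by norm_num) (by norm_num) K2 h.pb1 bm (c2.trans (h.pb_le cκ))
  rw [cI] at md
  have e2 : Real.sqrt (2 * u / q) ^ 2 = 2 * u / q := Real.sq_sqrt (by positivity)
  have key := hMod _ _ _ (tcol π s) c dd (u ^ 2 * q ^ 2) ω
    (L * (1 / u + u ^ 2 * u * Real.sqrt (2 * u / q))) _ _ o0 (by linarith) (by positivity)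
    (by positivity) (by positivity) c1 (fun j => by push_cast; exact cs j) md
    (fun f f1 f2 => ?_) N ?_
  · refine le_trans (h.last (by positivity) h.del (by positivity) ?_) key
    gcongr
    linarith [h.pb2]
  · have := hP _ _ _ _ π s Γ c f 44 ⌊(u : ℝ) ^ 2 / (88 * (1 + 2 * L))⌋₊ (1 / u) _
      (Real.sqrt (2 * u / q)) u g1 (fun a j => ⟨du a j, pm a j⟩) (fun J => ?_) π2
      (Real.sqrt_nonneg _) h.eps_le h.u1 (by positivity) h.g_le h.s0_ge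
      (by rw [cA]; exact h.s0_le) (by positivity) h.tau
      (fun x => by rcases f1 x with e | e <;> simp [e]) f2
    · have e : (fun x => f x ^ 2) = f := funext fun x => by rcases f1 x with e | e <;> simp [e]
      rw [e, cA, cI] at this
      linarith [h.err]
    · obtain ⟨a, b⟩ := hLA.1 _ _ (blk π J) (bcol π s J) (q * u) (by positivity)
        (fun j hj => by rw [bcol_mem hj]; exact pm _ _)
        (fun j hj j' hj' hn => by rw [bcol_mem hj, bcol_mem hj']; exact s2 _ _ _ hn)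
      rw [cK] at b
      refine ⟨?_, ksh_mono b ?_⟩
      · rw [e2]
        convert a using 1
        rw [cK]
        field_simp
      · rw [e2, div_le_div_iff₀ (by positivity) qpos]
        nlinarith [mul_pos upos (pow_pos qpos 2)]
  · have := (h.size cI).trans hN
    exact_mod_cast this

end Vale.Agent.P318.M
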