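import Vale.Agent.P318.M.Stmt
import Vale.Agent.P318.M.LatCnt

/-!
The lattice from random parity checks and its sign vectors.
-/

namespace Vale.Agent.P318.M

open Finset

namespace LatCnt

variable {κ : Type} [Fintype κ] [DecidableEq κ] {q h : ℕ}

/-- the sign vectors of the lattice -/
noncomputable def TT (H : Fin h → κ → ZMod q) : Finset (κ → ℤ) :=
  @Finset.filter _ (Lam H) (Classical.decPred _) (Sg κ)

theorem mem_TT {H : Fin h → κ → ZMod q} {s : κ → ℤ} : s ∈ TT H ↔ s ∈ Sg κ ∧ Lam H s :=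
  @mem_filter _ _ (Classical.decPred _) _ _

theorem sum_TT (H : Fin h → κ → ZMod q) (g : (κ → ℤ) → ℝ) :
    ∑ s ∈ TT H, g s = ∑ s ∈ Sg κ, g s * ind (Lam H s) :=
  @sum_filter_eq _ _ _ (Classical.decPred _) _

theorem card_TT (H : Fin h → κ → ZMod q) : ((TT H).card : ℝ) = ∑ s ∈ Sg κ, 1 * ind (Lam H s) := by
  rw [← sum_TT]; simp

/-- number of short vectors of the lattice -/
noncomputable def X1 (H : Fin h → κ → ZMod q) : ℝ :=
  ∑ m ∈ (Fintype.piFinset fun _ : κ => Icc (-((q - 1 : ℕ) : ℤ)) (q - 1 : ℕ)).erase 0,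
    ind (∑ k, (m k : ℝ) ^ 2 < 1 / 500 * Fintype.card κ) * ind (Lam H m)

/-- number of correlated pairs -/
noncomputable def X3 (μ : ℝ) (H : Fin h → κ → ZMod q) : ℝ :=
  ∑ s ∈ TT H, ∑ s' ∈ TT H, ind (μ < |∑ k, (s k : ℝ) * s' k|) * ind (¬ (s' = s ∨ s' = -s))

/-- correlation of the coordinates -/
noncomputable def X4 (H : Fin h → κ → ZMod q) : ℝ :=
  ∑ x ∈ (univ : Finset (κ × κ)).filter fun x => x.1 ≠ x.2, (∑ s ∈ TT H, (s x.1 : ℝ) * s x.2) ^ 2

theorem X1_nonneg (H : Fin h → κ → ZMod q) : 0 ≤ X1 H :=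
  sum_nonneg fun _ _ => mul_nonneg (ind_nonneg _) (ind_nonneg _)

theorem X3_nonneg (μ : ℝ) (H : Fin h → κ → ZMod q) : 0 ≤ X3 μ H :=
  sum_nonneg fun _ _ => sum_nonneg fun _ _ => mul_nonneg (ind_nonneg _) (ind_nonneg _)

theorem X4_nonneg (H : Fin h → κ → ZMod q) : 0 ≤ X4 H := sum_nonneg fun _ _ => sq_nonneg _

theorem long_of_X1 {H : Fin h → κ → ZMod q} (hB : Fintype.card κ ≤ q ^ 2) (hH : X1 H < 1)
    (m : κ → ℤ) (hm : Lam H m) : m = 0 ∨ 1 / 500 * (Fintype.card κ : ℝ) ≤ ∑ k, (m k : ℝ) ^ 2 := by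
  by_contra hn
  obtain ⟨h0, h1⟩ := not_or.1 hn
  rw [not_le] at h1
  have hb : m ∈ (Fintype.piFinset fun _ : κ => Icc (-((q - 1 : ℕ) : ℤ)) (q - 1 : ℕ)).erase 0 := by
    refine mem_erase.2 ⟨h0, Fintype.mem_piFinset.2 fun k => ?_⟩
    have h2 : (m k : ℝ) ^ 2 ≤ ∑ k, (m k : ℝ) ^ 2 :=
      single_le_sum (f := fun k => (m k : ℝ) ^ 2) (fun _ _ => sq_nonneg _) (mem_univ k)
    have h3 : (Fintype.card κ : ℝ) ≤ (q : ℝ) ^ 2 := by exact_mod_cast hB
    have h4 : (m k : ℝ) ^ 2 < (q : ℝ) ^ 2 := by nlinarith [sq_nonneg (q : ℝ)]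
    have h5 : m k ^ 2 < (q : ℤ) ^ 2 := by exact_mod_cast h4
    have h6 := abs_lt.1 (abs_lt_of_sq_lt_sq h5 (Int.natCast_nonneg q))
    rw [mem_Icc]; omega
  have := single_le_sum (f := fun m : κ → ℤ =>
    ind (∑ k, (m k : ℝ) ^ 2 < 1 / 500 * Fintype.card κ) * ind (Lam H m))
    (fun _ _ => mul_nonneg (ind_nonneg _) (ind_nonneg _)) hb
  rw [ind_pos h1, ind_pos hm, mul_one] at this
  exact hH.not_ge this

theorem cnt_le (μ : ℝ) (H : Fin h → κ → ZMod q) :
    (((TT H ×ˢ TT H).filter fun p => μ < |∑ k, (p.1 k : ℝ) * p.2 k|).card : ℝ) ≤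
      X3 μ H + 2 * (TT H).card := by
  rw [card_filter_eq, sum_product, mul_comm, ← nsmul_eq_mul, ← sum_const, X3, ← sum_add_distrib]
  refine sum_le_sum fun s _ => le_trans ?_ (add_le_add le_rfl (sum_pm_le (TT H) s))
  rw [← sum_add_distrib]
  refine sum_le_sum fun s' _ => ?_
  by_cases e : s' = s ∨ s' = -s
  · rw [ind_pos e, ind_neg (not_not.2 e), mul_zero, zero_add]
    by_cases e' : μ < |∑ k, (s k : ℝ) * s' k|
    · rw [ind_pos e']
    · rw [ind_neg e']; exact zero_le_one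
  · rw [ind_neg e, ind_pos e, mul_one, add_zero]

section
variable [Fact q.Prime]

theorem E1 : ∑ H : Fin h → κ → ZMod q, X1 H ≤
    Fintype.card (Fin h → κ → ZMod q) * ((5 / 4) ^ Fintype.card κ * (1 / (q : ℝ) ^ h)) := by
  unfold X1
  rw [sum_comm, mul_left_comm]
  refine le_trans (le_of_eq ?_) (mul_le_mul_of_nonneg_right
    ((sum_le_sum_of_subset_of_nonneg (erase_subset 0 _) fun _ _ _ => ind_nonneg _).trans
      (short (κ := κ) (q - 1))) (by positivity))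
  rw [sum_mul]
  refine sum_congr rfl fun m hm => ?_
  rw [← mul_sum, one m]
  obtain ⟨h0, hm⟩ := mem_erase.1 hm
  obtain ⟨k, hk⟩ := Function.ne_iff.1 h0
  refine ⟨k, fun e => hk (Int.eq_zero_of_abs_lt_dvd ((ZMod.intCast_zmod_eq_zero_iff_dvd _ _).1 e) ?_)⟩
  have h1 := mem_Icc.1 (Fintype.mem_piFinset.1 hm k)
  have h2 := (Fact.out : q.Prime).pos
  rw [abs_lt]; omega

variable [Nonempty κ] (h2 : (2 : ZMod q) ≠ 0)
include h2

theorem E2 {M : ℝ} (hM : M = 2 ^ Fintype.card κ * (1 / (q : ℝ) ^ h)) :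
    ∑ H : Fin h → κ → ZMod q, ((TT H).card - M) ^ 2 ≤
      Fintype.card (Fin h → κ → ZMod q) * (2 * M) := by
  have h1 := mom (h := h) h2 (fun _ : κ → ℤ => (1 : ℝ)) (by simp)
  rw [sum_const, nsmul_eq_mul, mul_one, card_Sg, mul_comm (1 / _), ← hM] at h1
  simp only [← card_TT] at h1
  have h3 : ∑ H : Fin h → κ → ZMod q, ((TT H).card : ℝ) =
      Fintype.card (Fin h → κ → ZMod q) * M := by
    simp only [card_TT, one_mul]
    rw [sum_comm, sum_congr rfl fun s hs => one_sg hs, sum_const, nsmul_eq_mul, card_Sg, hM]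
    ring
  simp only [sub_sq, sum_add_distrib, sum_sub_distrib, ← sum_mul, ← mul_sum, h3, sum_const,
    card_univ, nsmul_eq_mul]
  nlinarith

theorem E3 {M μ : ℝ} (hM : M = 2 ^ Fintype.card κ * (1 / (q : ℝ) ^ h)) (hμ : 0 ≤ μ) :
    ∑ H : Fin h → κ → ZMod q, X3 μ H ≤ Fintype.card (Fin h → κ → ZMod q) *
      (2 * M ^ 2 * Real.exp (-(μ ^ 2 / (2 * Fintype.card κ)))) := by
  simp only [X3, sum_TT, sum_mul]
  rw [sum_comm]
  have e : ∀ s ∈ Sg κ, ∑ H : Fin h → κ → ZMod q, ∑ s' ∈ Sg κ, ind (μ < |∑ k, (s k : ℝ) * s' k|) *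
      ind (¬ (s' = s ∨ s' = -s)) * ind (Lam H s') * ind (Lam H s) ≤
      2 * (2 ^ Fintype.card κ * Real.exp (-(μ ^ 2 / (2 * Fintype.card κ)))) *
        (Fintype.card (Fin h → κ → ZMod q) * (1 / (q : ℝ) ^ h) ^ 2) := by
    intro s hs
    refine le_trans ?_ (mul_le_mul_of_nonneg_right (hoeff hs hμ) (by positivity))
    rw [sum_comm, sum_mul]
    refine sum_le_sum fun s' hs' => ?_
    simp only [mul_assoc, mul_comm (ind (Lam _ s'))]
    rw [← mul_sum, ← mul_sum]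
    refine mul_le_mul_of_nonneg_left ?_ (ind_nonneg _)
    by_cases e : s' = s ∨ s' = -s
    · rw [ind_neg (not_not.2 e), zero_mul]; positivity
    · rw [ind_pos e, one_mul, two h2 hs hs' (not_or.1 e).1 (not_or.1 e).2]
  refine (sum_le_sum e).trans (le_of_eq ?_)
  rw [sum_const, nsmul_eq_mul, card_Sg, hM]
  ring

theorem E4 {M : ℝ} (hM : M = 2 ^ Fintype.card κ * (1 / (q : ℝ) ^ h)) :
    ∑ H : Fin h → κ → ZMod q, X4 H ≤
      Fintype.card (Fin h → κ → ZMod q) * ((Fintype.card κ : ℝ) ^ 2 * (2 * M)) := by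
  simp only [X4, sum_TT]
  rw [sum_comm, mul_left_comm]
  refine (sum_le_card_nsmul _ _ (Fintype.card (Fin h → κ → ZMod q) * (2 * M) : ℝ)
    fun x hx => ?_).trans ?_
  · have h1 := mom (h := h) h2 (fun s : κ → ℤ => (s x.1 : ℝ) * s x.2) fun s hs => by
      rcases mem_Sg.1 hs x.1 with e | e <;> rcases mem_Sg.1 hs x.2 with e' | e' <;> simp [e, e']
    rw [sum_corr (mem_filter.1 hx).2, ← hM] at h1
    simpa using h1
  · rw [nsmul_eq_mul]
    refine mul_le_mul_of_nonneg_right ?_ (by rw [hM]; positivity)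
    have := card_filter_le (univ : Finset (κ × κ)) fun x => x.1 ≠ x.2
    rw [card_univ, Fintype.card_prod, ← pow_two] at this
    exact_mod_cast this

theorem exists_H {M μ η : ℝ} (hM : M = 2 ^ Fintype.card κ * (1 / (q : ℝ) ^ h)) (hμ : 0 ≤ μ)
    (hη : 0 < η) (hB : Fintype.card κ ≤ q ^ 2) (hM1 : 4 ≤ η * M)
    (hs : (5 / 4) ^ Fintype.card κ * (1 / (q : ℝ) ^ h) + 8 / M + 1 / 10 +
      8 * (Fintype.card κ : ℝ) ^ 2 / (η ^ 2 * M) < 1) :
    ∃ H : Fin h → κ → ZMod q,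
      (∀ m, Lam H m → m = 0 ∨ 1 / 500 * (Fintype.card κ : ℝ) ≤ ∑ k, (m k : ℝ) ^ 2) ∧
      (TT H).Nonempty ∧
      (((TT H ×ˢ TT H).filter fun p => μ < |∑ k, (p.1 k : ℝ) * p.2 k|).card : ℝ) ≤
        (100 * Real.exp (-(μ ^ 2 / (2 * Fintype.card κ))) + η) * (TT H).card ^ 2 ∧
      ∀ k k', k ≠ k' → |∑ s ∈ TT H, (s k : ℝ) * s k'| ≤ η * (TT H).card := by
  have hM0 : 0 < M := by
    have := (Fact.out : q.Prime).pos
    rw [hM]; positivity
  have a1 := E1 (κ := κ) (q := q) (h := h)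
  have a2 := E2 h2 hM
  have a3 := E3 h2 hM hμ
  have a4 := E4 h2 hM
  set e := Real.exp (-(μ ^ 2 / (2 * Fintype.card κ))) with he
  have he0 : 0 < e := Real.exp_pos _
  have hW : (0 : ℝ) < Fintype.card (Fin h → κ → ZMod q) := Nat.cast_pos.2 Fintype.card_pos
  obtain ⟨H, -, hH⟩ : ∃ H ∈ (univ : Finset (Fin h → κ → ZMod q)),
      X1 H + ((TT H).card - M) ^ 2 / (M ^ 2 / 4) + X3 μ H / (20 * e * M ^ 2) +
        X4 H / (η ^ 2 * M ^ 2 / 4) < 1 := by
    refine exists_lt_of_sum_lt ?_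
    simp only [sum_add_distrib, ← sum_div, sum_const, card_univ, nsmul_eq_mul]
    refine lt_of_le_of_lt (add_le_add (add_le_add (add_le_add a1
      (div_le_div_of_nonneg_right a2 (by positivity)))
      (div_le_div_of_nonneg_right a3 (by positivity)))
      (div_le_div_of_nonneg_right a4 (by positivity))) ?_
    refine lt_of_eq_of_lt ?_ (mul_lt_mul_of_pos_left hs hW)
    field_simp
    ring
  have b1 := X1_nonneg H
  have b2 : 0 ≤ ((TT H).card - M) ^ 2 / (M ^ 2 / 4) := by positivity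
  have b3 : 0 ≤ X3 μ H / (20 * e * M ^ 2) := div_nonneg (X3_nonneg μ H) (by positivity)
  have b4 : 0 ≤ X4 H / (η ^ 2 * M ^ 2 / 4) := div_nonneg (X4_nonneg H) (by positivity)
  have c2 : ((TT H).card - M) ^ 2 < M ^ 2 / 4 := (div_lt_one (by positivity)).1 (by linarith)
  have c3 : X3 μ H < 20 * e * M ^ 2 := (div_lt_one (by positivity)).1 (by linarith)
  have c4 : X4 H < η ^ 2 * M ^ 2 / 4 := (div_lt_one (by positivity)).1 (by linarith)
  have d2 : M / 2 < (TT H).card := by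
    have := (abs_lt.1 (abs_lt_of_sq_lt_sq (a := (TT H).card - M) (b := M / 2) (by linarith)
      (by positivity))).1
    linarith
  have d3 : M ^ 2 ≤ 4 * ((TT H).card : ℝ) ^ 2 := by nlinarith
  refine ⟨H, long_of_X1 hB (by linarith),
    card_pos.1 ((Nat.cast_pos (α := ℝ)).1 (by linarith)),
    (cnt_le μ H).trans ?_, fun k k' hk => ?_⟩
  · have d4 : 2 ≤ η * (TT H).card := by nlinarith
    nlinarith [mul_le_mul_of_nonneg_left d3 he0.le, mul_nonneg he0.le (sq_nonneg ((TT H).card : ℝ)),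
      mul_le_mul_of_nonneg_right d4 (Nat.cast_nonneg (α := ℝ) (TT H).card)]
  · have d5 : (∑ s ∈ TT H, (s k : ℝ) * s k') ^ 2 ≤ X4 H :=
      single_le_sum (f := fun x : κ × κ => (∑ s ∈ TT H, (s x.1 : ℝ) * s x.2) ^ 2)
        (fun _ _ => sq_nonneg _) (a := (k, k')) (mem_filter.2 ⟨mem_univ _, hk⟩)
    refine abs_le_of_sq_le_sq ?_ (by positivity)
    nlinarith [mul_le_mul_of_nonneg_left d3 (sq_nonneg η)]

end

/-- the dual lattice -/
def Gam (H : Fin h → κ → ZMod q) : AddSubgroup (κ → ℝ) where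
  carrier := {ρ | ∀ m, Lam H m → ∃ n : ℤ, ip m ρ = n}
  add_mem' := fun {a b} ha hb m hm => by
    obtain ⟨n, hn⟩ := ha m hm
    obtain ⟨n', hn'⟩ := hb m hm
    exact ⟨n + n', by rw [Int.cast_add, ← hn, ← hn']; simp [ip, mul_add, sum_add_distrib]⟩
  zero_mem' := fun m _ => ⟨0, by simp [ip]⟩
  neg_mem' := fun {a} ha m hm => by
    obtain ⟨n, hn⟩ := ha m hm
    exact ⟨-n, by rw [Int.cast_neg, ← hn]; simp [ip]⟩

omit [DecidableEq κ] in
theorem dual_of_lam {H : Fin h → κ → ZMod q} {m : κ → ℤ} (hm : Lam H m) : Dual (Gam H) m :=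
  fun _ hρ => hρ m hm

omit [DecidableEq κ] in
theorem ip_div [NeZero q] (m n : κ → ℤ) : (∃ z : ℤ, ip m (fun k => (n k : ℝ) / q) = z) ↔
    ∑ k, (n k : ZMod q) * m k = 0 := by
  have h1 : ip m (fun k => (n k : ℝ) / q) = (∑ k, n k * m k : ℤ) / q := by
    simp only [ip, Int.cast_sum, Int.cast_mul, sum_div]
    exact sum_congr rfl fun k _ => by ring
  have h2 : ∑ k, (n k : ZMod q) * m k = (∑ k, n k * m k : ℤ) := by simp
  have hq : (q : ℝ) ≠ 0 := Nat.cast_ne_zero.2 (NeZero.ne q)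
  rw [h1, h2, ZMod.intCast_zmod_eq_zero_iff_dvd]
  refine exists_congr fun z => ?_
  rw [div_eq_iff hq, mul_comm (z : ℝ)]
  exact_mod_cast Iff.rfl

omit [DecidableEq κ] in
theorem lam_of_dual [NeZero q] {H : Fin h → κ → ZMod q} {m : κ → ℤ} (hm : Dual (Gam H) m) :
    Lam H m := fun i => by
  have e : ∀ m : κ → ℤ, (∃ z : ℤ, ip m (fun k => ((((H i k).val : ℕ) : ℤ) : ℝ) / q) = z) ↔
      dot m (H i) = 0 := fun m => by
    rw [ip_div m fun k => ((H i k).val : ℤ), dot_apply]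
    simp
  exact (e m).1 (hm _ fun m' hm' => (e m').2 (hm' i))

omit [DecidableEq κ] in
theorem int_mem (H : Fin h → κ → ZMod q) (n : κ → ℤ) : (fun k => (n k : ℝ)) ∈ Gam H :=
  fun m _ => ⟨∑ k, m k * n k, by simp [ip]⟩

theorem exists_gen [Fact q.Prime] (H : Fin h → κ → ZMod q) : ∃ g : κ → κ → ℤ,
    (∀ l, Lam H (g l)) ∧ (∀ l k, |g l k| ≤ q) ∧
    ∀ m, Lam H m → ∀ k, (m k : ZMod q) = ∑ l, (m l : ZMod q) * g l k := by
  let V : Submodule (ZMod q) (κ → ZMod q) :=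
    { carrier := {v | ∀ i, ∑ k, H i k * v k = 0}
      add_mem' := fun {a b} ha hb i => by simp [mul_add, sum_add_distrib, ha i, hb i]
      zero_mem' := fun i => by simp
      smul_mem' := fun c v hv i => by
        simp only [Pi.smul_apply, smul_eq_mul, mul_left_comm _ c, ← mul_sum, hv i, mul_zero] }
  obtain ⟨π, hπ⟩ := V.subtype.exists_leftInverse_of_injective V.ker_subtype
  refine ⟨fun l k => (((π (Pi.single l 1)).1 k).val : ℤ), fun l i => ?_, fun l k => ?_,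
    fun m hm k => ?_⟩
  · simpa [dot_apply] using (π (Pi.single l 1)).2 i
  · rw [abs_of_nonneg (Int.natCast_nonneg _)]
    exact_mod_cast (ZMod.val_lt _).le
  · have h1 := LinearMap.congr_fun hπ ⟨fun k => (m k : ZMod q), hm⟩
    have h2 := congrArg (fun v : V => v.1 k) h1
    simp only [LinearMap.comp_apply, Submodule.subtype_apply, LinearMap.id_apply] at h2
    rw [← h2, pi_eq_sum_univ' fun k => (m k : ZMod q), map_sum]
    simp

theorem feat [Fact q.Prime] (hB : Fintype.card κ ≤ q ^ 2) (H : Fin h → κ → ZMod q) :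
    ∃ lam : κ ⊕ κ → κ → ℤ, Feat (Gam H) lam (q ^ 3) (1 / (4 * q ^ 3)) (1 / (4 * q ^ 4)) := by
  obtain ⟨g, g1, g2, g3⟩ := exists_gen H
  have hq : (1 : ℝ) ≤ q := Nat.one_le_cast.2 (Fact.out : q.Prime).one_le
  have hg : ∀ l, ∑ k, |(g l k : ℝ)| ≤ (q : ℝ) ^ 3 := fun l => by
    refine (sum_le_card_nsmul _ _ (q : ℝ) fun k _ => by exact_mod_cast g2 l k).trans ?_
    rw [nsmul_eq_mul, card_univ, pow_succ]
    exact mul_le_mul_of_nonneg_right (by exact_mod_cast hB) (by positivity)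
  refine ⟨Sum.elim (fun k => Pi.single k q) g, ?_, ?_, fun β hβ => ?_⟩
  · rintro (k | l)
    · refine dual_of_lam fun i => ?_
      rw [dot_apply]
      refine sum_eq_zero fun j _ => ?_
      by_cases e : j = k <;> simp [e]
    · exact dual_of_lam (g1 l)
  · rintro (k | l)
    · rw [Sum.elim_inl, sum_eq_single k (fun j _ hj => by simp [hj]) (by simp)]
      simpa using le_self_pow₀ hq (by norm_num : 3 ≠ 0)
    · exact hg l
  have h1 : ∀ k, |β k - (round (q * β k) : ℝ) / q| ≤ 1 / (4 * q ^ 4) := fun k => by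
    have := hβ (Sum.inl k)
    rw [Sum.elim_inl, ip, sum_eq_single k (fun j _ hj => by simp [hj]) (by simp),
      Pi.single_eq_same, Int.cast_natCast] at this
    rw [show β k - (round (q * β k) : ℝ) / q = (q * β k - round (q * β k)) / q by field_simp,
      abs_div, Nat.abs_cast, div_le_iff₀ (by positivity)]
    exact this.trans (le_of_eq (by field_simp))
  refine ⟨fun k => (round (q * β k) : ℝ) / q, fun m hm => ?_, h1⟩
  have h3 : ∀ l, ∑ k, (round (q * β k) : ZMod q) * g l k = 0 := fun l => by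
    have h4 := hβ (Sum.inr l)
    rw [Sum.elim_inr] at h4
    have h5 : |ip (g l) β - ip (g l) fun k => (round (q * β k) : ℝ) / q| ≤ 1 / (4 * q) := by
      rw [ip, ip, ← sum_sub_distrib]
      refine (abs_sum_le_sum_abs _ _).trans ((sum_le_sum (g := fun k =>
        |(g l k : ℝ)| * (1 / (4 * q ^ 4))) fun k _ => ?_).trans ?_)
      · rw [← mul_sub, abs_mul]
        exact mul_le_mul_of_nonneg_left (h1 k) (abs_nonneg _)
      · rw [← sum_mul]
        exact (mul_le_mul_of_nonneg_right (hg l) (by positivity)).trans (le_of_eq (by field_simp))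
    have h6 : (1 : ℝ) / (4 * q ^ 3) ≤ 1 / (4 * q) :=
      one_div_le_one_div_of_le (by positivity) (by
        have := le_self_pow₀ hq (by norm_num : 3 ≠ 0)
        linarith)
    have h7 : ip (g l) (fun k => (round (q * β k) : ℝ) / q) =
        (∑ k, g l k * round (q * β k) : ℤ) / q := by
      simp only [ip, Int.cast_sum, Int.cast_mul, sum_div, mul_div_assoc]
    refine (ip_div (g l) fun k => round (q * β k)).1 ⟨round (ip (g l) β), ?_⟩
    rw [h7] at h5 ⊢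
    have h8 : |((∑ k, g l k * round (q * β k) : ℤ) : ℝ) / q - round (ip (g l) β)| ≤ 1 / (2 * q) := by
      have h9 := abs_le.1 h4
      have h10 := abs_le.1 h5
      have h11 : (1 : ℝ) / (2 * q) = 1 / (4 * q) + 1 / (4 * q) := by field_simp; norm_num
      rw [abs_le]
      constructor <;> linarith
    rw [div_sub' (by positivity), abs_div, Nat.abs_cast, div_le_iff₀ (by positivity),
      show (1 : ℝ) / (2 * q) * q = 1 / 2 by field_simp] at h8
    have h12 : |∑ k, g l k * round (q * β k) - q * round (ip (g l) β)| < 1 := by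
      have : ((|∑ k, g l k * round (q * β k) - q * round (ip (g l) β)| : ℤ) : ℝ) < 1 := by
        rw [Int.cast_abs, Int.cast_sub, Int.cast_mul, Int.cast_natCast]; linarith
      exact_mod_cast this
    rw [sub_eq_zero.1 (Int.abs_lt_one_iff.1 h12), Int.cast_mul, Int.cast_natCast]
    field_simp
  refine (ip_div m fun k => round (q * β k)).2 ?_
  rw [sum_congr rfl fun k _ => by rw [g3 m hm k, mul_sum], sum_comm]
  refine sum_eq_zero fun l _ => ?_
  simp only [mul_left_comm _ (m l : ZMod q)]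
  rw [← mul_sum, h3 l, mul_zero]

theorem param {q : ℕ} (hq : 20 ≤ q) : ∃ h : ℕ, (128 : ℝ) ^ q ≤ 2 ^ (q ^ 2) * (1 / (q : ℝ) ^ h) ∧
    (5 / 4 : ℝ) ^ (q ^ 2) * (1 / (q : ℝ) ^ h) ≤ 1 / 10 := by
  have hq1 : (1 : ℝ) < q := by exact_mod_cast (by omega : 1 < q)
  obtain ⟨n, h1, h2⟩ := exists_nat_pow_near (x := (3 / 2 : ℝ) ^ (q ^ 2))
    (one_le_pow₀ (by norm_num)) hq1
  have hq2 : (q : ℝ) ≤ 2 ^ q := by exact_mod_cast Nat.lt_two_pow_self.le
  refine ⟨n + 1, ?_, ?_⟩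
  · rw [mul_one_div, le_div_iff₀ (by positivity)]
    have h3 : (256 : ℝ) ≤ (4 / 3) ^ q :=
      (by norm_num : (256 : ℝ) ≤ (4 / 3) ^ 20).trans (pow_le_pow_right₀ (by norm_num) hq)
    have h4 : (256 : ℝ) ^ q ≤ (4 / 3) ^ (q ^ 2) := by
      rw [pow_two, pow_mul]; exact pow_le_pow_left₀ (by norm_num) h3 q
    calc (128 : ℝ) ^ q * q ^ (n + 1) = 128 ^ q * q * q ^ n := by ring
      _ ≤ 128 ^ q * 2 ^ q * (3 / 2) ^ (q ^ 2) := by gcongr
      _ = 256 ^ q * (3 / 2) ^ (q ^ 2) := by rw [← mul_pow]; norm_num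
      _ ≤ (4 / 3) ^ (q ^ 2) * (3 / 2) ^ (q ^ 2) := by gcongr
      _ = 2 ^ (q ^ 2) := by rw [← mul_pow]; norm_num
  · rw [mul_one_div, div_le_iff₀ (by positivity)]
    have h3 : (10 : ℝ) ≤ (6 / 5) ^ (q ^ 2) :=
      (by norm_num : (10 : ℝ) ≤ (6 / 5) ^ 20).trans
        (pow_le_pow_right₀ (by norm_num) (hq.trans (Nat.le_self_pow two_ne_zero q)))
    have h4 : (3 / 2 : ℝ) ^ (q ^ 2) = (5 / 4) ^ (q ^ 2) * (6 / 5) ^ (q ^ 2) := by
      rw [← mul_pow]; norm_num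
    have h5 : (0 : ℝ) < (5 / 4) ^ (q ^ 2) := by positivity
    nlinarith

end LatCnt

open LatCnt in
theorem lattice_proof : LatticeStmt := by
  refine ⟨20, fun q hq hp μ hμ => ?_⟩
  have : Fact q.Prime := ⟨hp⟩
  have : Nonempty (Fin (q ^ 2)) := ⟨⟨0, by positivity⟩⟩
  have h2 : (2 : ZMod q) ≠ 0 := fun e => by
    have := (ZMod.natCast_eq_zero_iff 2 q).1 (by exact_mod_cast e)
    have := Nat.le_of_dvd two_pos this
    omega
  obtain ⟨h, a1, a2⟩ := param hq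
  set M : ℝ := 2 ^ (q ^ 2) * (1 / (q : ℝ) ^ h) with hM
  have hq2 : (q : ℝ) ≤ 2 ^ q := by exact_mod_cast Nat.lt_two_pow_self.le
  have b0 : (2 : ℝ) ^ 20 ≤ 2 ^ q := pow_le_pow_right₀ one_le_two hq
  set t : ℝ := 2 ^ q with ht
  have b1 : t ^ 7 ≤ M := by rwa [ht, ← pow_mul, mul_comm, pow_mul, show (2 : ℝ) ^ 7 = 128 by norm_num]
  have b2 : (1 / 2 : ℝ) ^ q = 1 / t := by rw [ht, one_div_pow]
  have t1 : 100 ≤ t := le_trans (by norm_num) b0
  have b3 : t ^ 2 ≤ t ^ 7 := pow_le_pow_right₀ (by linarith) (by norm_num)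
  have M0 : 0 < M := lt_of_lt_of_le (by positivity) b1
  obtain ⟨H, c1, c2, c3, c4⟩ := exists_H (κ := Fin (q ^ 2)) (h := h) h2 (M := M) (η := (1 / 2) ^ q)
    (by rw [Fintype.card_fin]) hμ (by positivity) (by rw [Fintype.card_fin])
    (by rw [b2, one_div_mul_eq_div, le_div_iff₀ (by positivity)]; nlinarith)
    (by
      rw [Fintype.card_fin, b2]
      have d1 : 8 / M ≤ 1 / 10 := by rw [div_le_iff₀ M0]; nlinarith
      have d2 : 8 * ((q ^ 2 : ℕ) : ℝ) ^ 2 / ((1 / t) ^ 2 * M) ≤ 1 / 10 := by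
        rw [div_le_iff₀ (by positivity), Nat.cast_pow, ← pow_mul]
        calc 8 * (q : ℝ) ^ (2 * 2) ≤ 8 * t ^ (2 * 2) := by gcongr
          _ ≤ 1 / 10 * t * t ^ (2 * 2) := by gcongr; linarith
          _ = 1 / 10 * ((1 / t) ^ 2 * t ^ 7) := by field_simp
          _ ≤ _ := by gcongr
      linarith)
  obtain ⟨lam, hl⟩ := feat (κ := Fin (q ^ 2)) (by rw [Fintype.card_fin]) H
  refine ⟨Gam H, lam, TT H, ⟨int_mem H, fun m hm => c1 m (lam_of_dual hm)⟩, hl, c2,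
    fun s hs => ?_, ?_, c4⟩
  · obtain ⟨h3, h4⟩ := mem_TT.1 hs
    exact ⟨dual_of_lam h4, mem_Sg.1 h3, mem_TT.2 ⟨neg_mem_Sg h3, (lam_neg H s).2 h4⟩⟩
  · rwa [Fintype.card_fin, Nat.cast_pow] at c3

end Vale.Agent.P318.M
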