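import Vale.Agent.P318.M.Stmt

/-!
Coherence, diagonal dominance and Reed-Solomon partitions.
-/

namespace Vale.Agent.P318.M

open Finset

namespace LinAlg

section coh

variable {ι κ : Type} [DecidableEq ι] [Fintype κ] {J : Finset ι} {s : ι → κ → ℤ} {μ : ℝ}

theorem quad (hμ : 0 ≤ μ) (hs : ∀ j ∈ J, PM (s j))
    (hc : ∀ j ∈ J, ∀ j' ∈ J, j ≠ j' → |∑ k, (s j k : ℝ) * s j' k| ≤ μ) (d : ι → ℝ) :
    |∑ k, (∑ j ∈ J, d j * (s j k : ℝ)) ^ 2 - Fintype.card κ * ∑ j ∈ J, d j ^ 2| ≤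
      μ * (∑ j ∈ J, |d j|) ^ 2 := by
  have h1 : ∑ k, (∑ j ∈ J, d j * (s j k : ℝ)) ^ 2 =
      ∑ j ∈ J, ∑ j' ∈ J, d j * d j' * ∑ k, (s j k : ℝ) * s j' k := by
    simp only [sq, sum_mul_sum]
    rw [sum_comm]
    refine sum_congr rfl fun j _ => ?_
    rw [sum_comm]
    refine sum_congr rfl fun j' _ => ?_
    rw [mul_sum]
    exact sum_congr rfl fun k _ => by ring
  have h2 : (Fintype.card κ : ℝ) * ∑ j ∈ J, d j ^ 2 =
      ∑ j ∈ J, ∑ j' ∈ J, if j = j' then Fintype.card κ * d j ^ 2 else 0 := by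
    rw [mul_sum]
    exact sum_congr rfl fun j hj => by rw [sum_ite_eq, if_pos hj]
  rw [h1, h2, ← sum_sub_distrib, sq (∑ j ∈ J, |d j|), sum_mul_sum, mul_sum]
  refine (abs_sum_le_sum_abs _ _).trans (sum_le_sum fun j hj => ?_)
  rw [← sum_sub_distrib, mul_sum]
  refine (abs_sum_le_sum_abs _ _).trans (sum_le_sum fun j' hj' => ?_)
  split_ifs with h
  · subst h
    have : ∑ k, (s j k : ℝ) * s j k = Fintype.card κ := by
      rw [sum_congr rfl (g := fun _ => (1 : ℝ)) fun k _ => by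
        rcases hs j hj k with e | e <;> simp [e]]
      simp
    rw [this, show d j * d j * (Fintype.card κ : ℝ) - Fintype.card κ * d j ^ 2 = 0 by ring,
      abs_zero]
    positivity
  · rw [sub_zero, abs_mul, abs_mul, mul_comm]
    exact mul_le_mul_of_nonneg_right (hc j hj j' hj' h) (by positivity)

theorem split (hμ : 0 ≤ μ) (hs : ∀ j ∈ J, PM (s j))
    (hc : ∀ j ∈ J, ∀ j' ∈ J, j ≠ j' → |∑ k, (s j k : ℝ) * s j' k| ≤ μ) [Fintype ι] :
    Split J s (2 * Fintype.card κ) (2 * μ) := by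
  intro V
  have hN : 0 ≤ nsq V := sum_nonneg fun _ _ => sq_nonneg _
  have ht : 0 ≤ 2 * μ * nsq V := by positivity
  let a : ι → ℝ := fun j => if 2 * μ * nsq V < ip (s j) V ^ 2 then ip (s j) V else 0
  refine ⟨a, fun j => ip (s j) V - a j, fun j _ => by ring, ?_, fun j => ?_⟩
  · set X := ∑ j ∈ J, a j ^ 2 with hX
    have hX0 : 0 ≤ X := sum_nonneg fun _ _ => sq_nonneg _
    have e1 : X = ∑ k, (∑ j ∈ J, a j * (s j k : ℝ)) * V k := by
      simp only [sum_mul]
      rw [sum_comm]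
      refine sum_congr rfl fun j _ => ?_
      have : a j ^ 2 = a j * ip (s j) V := by
        simp only [a]
        split_ifs <;> ring
      rw [this, ip, mul_sum]
      exact sum_congr rfl fun k _ => by ring
    have e2 : X ^ 2 ≤ (∑ k, (∑ j ∈ J, a j * (s j k : ℝ)) ^ 2) * nsq V := by
      rw [e1]; exact sum_mul_sq_le_sq_mul_sq _ _ _
    have e3 := (abs_le.1 (quad hμ hs hc a)).2
    have e4 : √(2 * μ * nsq V) * ∑ j ∈ J, |a j| ≤ X := by
      rw [mul_sum]
      refine sum_le_sum fun j _ => ?_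
      rw [← sq_abs, sq]
      simp only [a]
      split_ifs with h
      · exact mul_le_mul_of_nonneg_right (Real.sqrt_le_iff.2 ⟨abs_nonneg _, by
          rw [sq_abs]; exact h.le⟩) (abs_nonneg _)
      · simp
    have e5 : 2 * μ * nsq V * (∑ j ∈ J, |a j|) ^ 2 ≤ X ^ 2 := by
      have := pow_le_pow_left₀ (by positivity) e4 2
      rwa [mul_pow, Real.sq_sqrt ht] at this
    rw [← hX] at e3
    have e6 : X ^ 2 ≤ 2 * Fintype.card κ * nsq V * X := by
      nlinarith [mul_le_mul_of_nonneg_right e3 hN]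
    rcases hX0.eq_or_lt with h | h
    · rw [← h]; positivity
    · exact le_of_mul_le_mul_right (by rwa [← sq]) h
  · simp only [a]
    split_ifs with h
    · simpa using ht
    · simpa using not_lt.1 h

theorem ksh [Nonempty κ] (hμ : 0 ≤ μ) (hs : ∀ j ∈ J, PM (s j))
    (hc : ∀ j ∈ J, ∀ j' ∈ J, j ≠ j' → |∑ k, (s j k : ℝ) * s j' k| ≤ μ) [Fintype ι] :
    Ksh J s (μ / Fintype.card κ) := by
  intro d hd
  have h := (abs_le.1 (quad hμ hs hc d)).1
  have hB : (0 : ℝ) < Fintype.card κ := by exact_mod_cast Fintype.card_pos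
  simp only [hd, ne_eq, OfNat.ofNat_ne_zero, not_false_eq_true, zero_pow, sum_const_zero] at h
  rw [div_mul_eq_mul_div, le_div_iff₀ hB]
  linarith

end coh

theorem proj {ι κ : Type} [Fintype ι] [DecidableEq ι] [Fintype κ] [DecidableEq κ]
    (s : ι → κ → ℤ) (m : ℝ) (hm : 0 < m) (hd : ∀ k, ∑ j, (s j k : ℝ) ^ 2 = m)
    (ho : ∀ k, ∑ k' ∈ univ.erase k, |∑ j, (s j k : ℝ) * s j k'| ≤ m / 2) :
    ∃ Sp : (ι → ℝ) →ₗ[ℝ] (κ → ℝ), Proj s Sp m := by
  let S : (ι → ℝ) →ₗ[ℝ] (κ → ℝ) :=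
    { toFun := fun z k => ∑ j, (s j k : ℝ) * z j
      map_add' := fun z z' => funext fun k => by simp [mul_add, sum_add_distrib]
      map_smul' := fun a z => funext fun k => by simp [mul_sum, mul_left_comm] }
  let T : (κ → ℝ) →ₗ[ℝ] (ι → ℝ) :=
    { toFun := lin s
      map_add' := fun z z' => funext fun k => by simp [lin, ip, mul_add, sum_add_distrib]
      map_smul' := fun a z => funext fun k => by simp [lin, ip, mul_sum, mul_left_comm] }
  have hG : ∀ β k, (S ∘ₗ T) β k = ∑ k', (∑ j, (s j k : ℝ) * s j k') * β k' := fun β k => by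
    change ∑ j, (s j k : ℝ) * ∑ k', (s j k' : ℝ) * β k' = _
    simp only [mul_sum, sum_mul]
    rw [sum_comm]
    exact sum_congr rfl fun k' _ => sum_congr rfl fun j _ => by ring
  have key : ∀ β M, (∀ k, |(S ∘ₗ T) β k| ≤ M) → ∀ k, |β k| ≤ 2 * M / m := fun β M h k => by
    obtain ⟨k0, -, h0⟩ := exists_max_image univ (fun k => |β k|) ⟨k, mem_univ k⟩
    refine (h0 k (mem_univ k)).trans ?_
    have h1 := h k0
    rw [hG, ← add_sum_erase _ _ (mem_univ k0)] at h1
    have h2 : ∑ j, (s j k0 : ℝ) * s j k0 = m := by simpa only [sq] using hd k0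
    have h3 : |∑ k' ∈ univ.erase k0, (∑ j, (s j k0 : ℝ) * s j k') * β k'| ≤ m / 2 * |β k0| := by
      refine (abs_sum_le_sum_abs _ _).trans (le_trans ?_
        (mul_le_mul_of_nonneg_right (ho k0) (abs_nonneg _)))
      rw [sum_mul]
      refine sum_le_sum fun k' _ => ?_
      rw [abs_mul]
      exact mul_le_mul_of_nonneg_left (h0 k' (mem_univ _)) (abs_nonneg _)
    rw [h2] at h1
    have h4 := abs_sub (m * β k0 + ∑ k' ∈ univ.erase k0, (∑ j, (s j k0 : ℝ) * s j k') * β k')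
      (∑ k' ∈ univ.erase k0, (∑ j, (s j k0 : ℝ) * s j k') * β k')
    rw [add_sub_cancel_right, abs_mul, abs_of_pos hm] at h4
    rw [le_div_iff₀ hm]
    linarith
  have inj : Function.Injective (S ∘ₗ T) := (injective_iff_map_eq_zero _).2 fun β hβ => by
    funext k
    have := key β 0 (fun k => by simp [hβ]) k
    simpa using this
  let E := LinearEquiv.ofInjectiveEndo _ inj
  have hE : ∀ y, (S ∘ₗ T) (E.symm y) = y := fun y => E.apply_symm_apply y
  refine ⟨E.symm.toLinearMap ∘ₗ S, fun β => E.symm_apply_apply β, fun z β => ?_,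
    fun z M h => key _ M fun k => ?_⟩
  · have h1 : S (z - T (E.symm (S z))) = 0 := by
      rw [map_sub]; exact sub_eq_zero.2 (hE (S z)).symm
    have h2 : ∀ w : ι → ℝ, ∑ j, w j * lin s β j = ∑ k, S w k * β k := fun w => by
      change ∑ j, w j * ∑ k, (s j k : ℝ) * β k = ∑ k, (∑ j, (s j k : ℝ) * w j) * β k
      simp only [mul_sum, sum_mul]
      rw [sum_comm]
      exact sum_congr rfl fun k _ => sum_congr rfl fun j _ => by ring
    have h3 := h2 (z - T (E.symm (S z)))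
    rw [h1] at h3
    simp only [Pi.zero_apply, zero_mul, sum_const_zero] at h3
    exact h3
  · change |(S ∘ₗ T) (E.symm (S z)) k| ≤ M
    rw [hE]
    exact h k

theorem rs (q D P : ℕ) [Fact q.Prime] (hD : 1 ≤ D) (hP : P ≤ q) :
    ∃ π : Fin P → (Fin D → ZMod q) → ZMod q, (∀ J, (blk π J).card = q ^ (D - 1)) ∧
      ∀ i i', i ≠ i' → (univ.filter fun a => π a i = π a i').card ≤ D := by
  refine ⟨fun a x => ∑ i, x i * ((a : ℕ) : ZMod q) ^ (i : ℕ), fun J => ?_, fun x x' hx => ?_⟩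
  · obtain ⟨D, rfl⟩ := Nat.exists_eq_add_of_le' hD
    have : q ^ (D + 1 - 1) = (univ : Finset (Fin D → ZMod q)).card := by simp
    rw [this]
    refine card_bij' (fun x _ => Fin.tail x) (fun y _ => Fin.cons
      (J.2 - ∑ i : Fin D, y i * ((J.1 : ℕ) : ZMod q) ^ ((i : ℕ) + 1)) y) (fun _ _ => mem_univ _)
      (fun y _ => ?_) (fun x hx => ?_) fun y _ => by simp
    · simp [blk, Fin.sum_univ_succ]
    · simp only [blk, mem_filter, mem_univ, true_and, Fin.sum_univ_succ, Fin.val_zero, pow_zero,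
        mul_one, Fin.val_succ] at hx
      rw [← hx]
      simp only [Fin.tail, add_sub_cancel_right]
      exact Fin.cons_self_tail x
  · have hp : Polynomial.ofFn D (x - x') ≠ 0 := fun h =>
      hx (sub_eq_zero.1 (Polynomial.injective_ofFn D (h.trans (map_zero _).symm)))
    have hinj : Function.Injective fun a : Fin P => ((a : ℕ) : ZMod q) := fun a b h => by
      have := congrArg ZMod.val h
      simp only [ZMod.val_natCast_of_lt (a.2.trans_le hP),
        ZMod.val_natCast_of_lt (b.2.trans_le hP)] at this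
      exact Fin.ext this
    rw [← card_image_of_injective _ hinj]
    refine (Polynomial.card_le_degree_of_subset_roots (p := Polynomial.ofFn D (x - x'))
      fun y hy => ?_).trans (Polynomial.ofFn_natDegree_lt hD _).le
    rw [mem_val, mem_image] at hy
    obtain ⟨a, ha, rfl⟩ := hy
    rw [Polynomial.mem_roots hp, Polynomial.IsRoot, Polynomial.ofFn_eq_sum_monomial,
      Polynomial.eval_finsetSum]
    simp only [Polynomial.eval_monomial, Pi.sub_apply, sub_mul, sum_sub_distrib]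
    exact sub_eq_zero.2 (mem_filter.1 ha).2

end LinAlg

theorem linalg_proof : LinAlgStmt :=
  ⟨fun _ _ _ _ _ _ _ _ _ hμ hs hc => ⟨LinAlg.split hμ hs hc, LinAlg.ksh hμ hs hc⟩,
    fun _ _ _ _ _ _ => LinAlg.proj, fun q D P _ => LinAlg.rs q D P⟩

end Vale.Agent.P318.M
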