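import Vale.Agent.P318.M.Stmt

/-!
The pairing of second derivatives with vector fields, at one point of the torus.
-/

namespace Vale.Agent.P318.M

open Finset Function

namespace Pair

theorem Dd_comm {ι : Type} [DecidableEq ι] {j j' : ι} (h : j ≠ j') (F : (ι → Bool) → ℝ) :
    Dd j' (Dd j F) = Dd j (Dd j' F) := by
  funext b
  simp only [Dd, update_comm h]
  ring

theorem amgm {q q' k c M η ω : ℝ} (hq : 0 ≤ q) (hη : 0 < η) (hω : 0 < ω)
    (hk : k ^ 2 ≤ 4 / ω ^ 2 * q') :
    |q * k * c * M| ≤ η * (q * M ^ 2) + 1 / (η * ω ^ 2) * (q * q' * c ^ 2) := by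
  have h1 : |k * c * M| ≤ η * M ^ 2 + (k * c) ^ 2 / (4 * η) := by
    rw [abs_mul, ← sq_abs M, ← sq_abs (k * c), ← sub_nonneg]
    have : η * |M| ^ 2 + |k * c| ^ 2 / (4 * η) - |k * c| * |M| =
        (2 * η * |M| - |k * c|) ^ 2 / (4 * η) := by field_simp; ring
    rw [this]; positivity
  have h2 : (k * c) ^ 2 / (4 * η) ≤ 1 / (η * ω ^ 2) * (q' * c ^ 2) := by
    have : 1 / (η * ω ^ 2) * (q' * c ^ 2) = 4 / ω ^ 2 * q' * c ^ 2 / (4 * η) := by field_simp
    rw [this, mul_pow]
    gcongr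
  have h3 := mul_le_mul_of_nonneg_left (h1.trans (add_le_add le_rfl h2)) hq
  rw [show q * k * c * M = q * (k * c * M) by ring, abs_mul, abs_of_nonneg hq]
  linarith

end Pair

theorem pair_proof (hB : BitStmt) : PairStmt := by
  intro ι κ _ _ _ J s C1 C2 ω v0 l η p kk F V hS hC1 hC2 hω hv0 hl hη hp hF hk hk2 hV hQ
  obtain ⟨-, -, hcov, -, htail⟩ := hB ι p hp
  choose M1 M2 hM h1 h2 using fun j => hS (V j)
  have hq : ∀ j, 0 ≤ p j * (1 - p j) := fun j => mul_nonneg (hp j).1 (sub_nonneg.2 (hp j).2)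
  set M0 := Real.sqrt (C2 * v0) with hM0
  have hM0' : 0 ≤ M0 := Real.sqrt_nonneg _
  have hsq : M0 ^ 2 = C2 * v0 := Real.sq_sqrt (mul_nonneg hC2 hv0)
  have e1 : ∑ j ∈ J, ∑ j' ∈ J.erase j,
      p j * (1 - p j) * kk j' * Eb p (Dd j' (Dd j F)) * ip (s j') (V j) =
      ∑ j ∈ J, ∑ j' ∈ J.erase j, p j * (1 - p j) * kk j' * Eb p (Dd j' (Dd j F)) * M1 j j' +
      ∑ j ∈ J, ∑ j' ∈ J.erase j, p j * (1 - p j) * kk j' * Eb p (Dd j' (Dd j F)) * M2 j j' := by
    rw [← sum_add_distrib]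
    refine sum_congr rfl fun j _ => ?_
    rw [← sum_add_distrib]
    exact sum_congr rfl fun j' hj' => by rw [hM j j' (mem_of_mem_erase hj'), mul_add]
  have b1 : |∑ j ∈ J, ∑ j' ∈ J.erase j,
      p j * (1 - p j) * kk j' * Eb p (Dd j' (Dd j F)) * M1 j j'| ≤
      η * C1 * ∑ j ∈ J, p j * (1 - p j) * nsq (V j) +
      1 / (η * ω ^ 2) * ∑ j ∈ J, ∑ j' ∈ J.erase j,
        p j * (1 - p j) * (p j' * (1 - p j')) * Eb p (Dd j' (Dd j F)) ^ 2 := by
    rw [mul_sum, mul_sum, ← sum_add_distrib]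
    refine (abs_sum_le_sum_abs _ _).trans (sum_le_sum fun j _ => ?_)
    refine (abs_sum_le_sum_abs _ _).trans
      ((sum_le_sum fun j' _ => Pair.amgm (hq j) hη hω (hk2 j')).trans ?_)
    rw [sum_add_distrib, ← mul_sum, ← mul_sum, ← mul_sum]
    have h3 : ∑ j' ∈ J.erase j, M1 j j' ^ 2 ≤ C1 * nsq (V j) :=
      (sum_le_sum_of_subset_of_nonneg (erase_subset _ _) fun _ _ _ => sq_nonneg _).trans (h1 j)
    have h4 := mul_le_mul_of_nonneg_left (mul_le_mul_of_nonneg_left h3 (hq j)) hη.le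
    linarith
  have e2 : ∑ j ∈ J, ∑ j' ∈ J.erase j,
      p j * (1 - p j) * kk j' * Eb p (Dd j' (Dd j F)) * M2 j j' =
      ∑ j' ∈ J, kk j' * Eb p fun b => Dd j' F b *
        ∑ j, (if j ∈ J.erase j' then M2 j j' else 0) * (bit (b j) - p j) := by
    rw [sum_comm' (s' := fun j' => J.erase j') (t' := J) (by
      intro j j'
      simp only [mem_erase]
      tauto)]
    refine sum_congr rfl fun j' _ => ?_
    have e3 : (Eb p fun b => Dd j' F b *
        ∑ j, (if j ∈ J.erase j' then M2 j j' else 0) * (bit (b j) - p j)) =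
        ∑ j, (if j ∈ J.erase j' then M2 j j' else 0) *
          Eb p fun b => Dd j' F b * (bit (b j) - p j) := by
      simp only [Eb, mul_sum]
      rw [sum_comm]
      exact sum_congr rfl fun j _ => sum_congr rfl fun b _ => by ring
    rw [e3]
    simp only [hcov, ite_mul, zero_mul, sum_ite_mem, univ_inter, mul_sum]
    refine sum_congr rfl fun j hj => ?_
    rw [Pair.Dd_comm (ne_of_mem_erase hj)]
    ring
  have b2 : ∀ j' ∈ J, |kk j' * Eb p fun b => Dd j' F b *
      ∑ j, (if j ∈ J.erase j' then M2 j j' else 0) * (bit (b j) - p j)| ≤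
      2 * l * M0 * (kk j' * Eb p fun b => |Dd j' F b|) + 12 / ω * M0 * Real.exp (-l) := by
    intro j' _
    have h3 := htail (Dd j' F) (fun j => if j ∈ J.erase j' then M2 j j' else 0) M0 l
      (fun b => by
        have a1 := hF (update b j' true)
        have a2 := hF (update b j' false)
        rw [Dd, abs_le]
        constructor <;> linarith [a1.1, a1.2, a2.1, a2.2]) hM0' hl
      (fun j => by
        split_ifs with hj
        · exact Real.abs_le_sqrt ((h2 j j').trans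
            (mul_le_mul_of_nonneg_left (hV j (mem_of_mem_erase hj)) hC2))
        · rwa [abs_zero])
      (by
        simp only [ite_pow, mul_ite, ne_eq, OfNat.ofNat_ne_zero, not_false_eq_true, zero_pow,
          mul_zero, sum_ite_mem, univ_inter]
        refine (sum_le_sum fun j _ => mul_le_mul_of_nonneg_left (h2 j j') (hq j)).trans ?_
        refine (sum_le_sum_of_subset_of_nonneg (erase_subset _ _) fun j _ _ =>
          mul_nonneg (hq j) ((sq_nonneg _).trans (h2 j j'))).trans ?_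
        rw [hsq]
        refine le_trans (le_of_eq ?_) (mul_le_mul_of_nonneg_left hQ hC2)
        rw [mul_sum]
        exact sum_congr rfl fun j _ => by ring)
    rw [abs_mul, abs_of_nonneg (hk j').1]
    have h4 := mul_le_mul_of_nonneg_left h3 (hk j').1
    have h5 : kk j' * (12 * M0 * Real.exp (-l)) ≤ 1 / ω * (12 * M0 * Real.exp (-l)) :=
      mul_le_mul_of_nonneg_right (hk j').2 (by positivity)
    have h6 : 1 / ω * (12 * M0 * Real.exp (-l)) = 12 / ω * M0 * Real.exp (-l) := by ring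
    linarith
  have b3 := (abs_sum_le_sum_abs _ _).trans (sum_le_sum b2)
  rw [sum_add_distrib, ← mul_sum, sum_const, nsmul_eq_mul, ← e2] at b3
  rw [e1]
  linarith [abs_add_le (∑ j ∈ J, ∑ j' ∈ J.erase j,
      p j * (1 - p j) * kk j' * Eb p (Dd j' (Dd j F)) * M1 j j') (∑ j ∈ J, ∑ j' ∈ J.erase j,
      p j * (1 - p j) * kk j' * Eb p (Dd j' (Dd j F)) * M2 j j')]

end Vale.Agent.P318.M
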