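import Vale.Agent.P318.M.Noised

/-!
The Poincare inequality of the model.
-/

namespace Vale.Agent.P318.M

open Finset MeasureTheory ProbabilityTheory

namespace Poincare

open Noised

section Blocks

variable {ι A Vb K : Type} [Fintype ι] [DecidableEq ι] [Fintype A] [DecidableEq A]
  [Fintype Vb] [DecidableEq Vb] [Fintype K]

/-- The vector supported in the block `J`. -/
def emb (J : A × Vb) (η : K → ℝ) : (A × Vb) × K → ℝ := fun x => if x.1 = J then η x.2 else 0

omit [Fintype A] [Fintype Vb] [Fintype K] in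
theorem meas_emb (J : A × Vb) : Measurable (emb (K := K) J) := by
  refine measurable_pi_lambda _ fun x => ?_
  unfold emb
  split_ifs
  · exact measurable_pi_apply _
  · exact measurable_const

theorem ip_emb (m : (A × Vb) × K → ℤ) (J : A × Vb) (η : K → ℝ) :
    ip m (emb J η) = ip (fun k => m (J, k)) η := by
  unfold ip emb
  rw [Fintype.sum_prod_type, Finset.sum_eq_single J]
  · simp
  · intro b _ hb
    simp [hb]
  · simp

omit [DecidableEq A] [DecidableEq Vb] in
theorem ip_split (m : (A × Vb) × K → ℤ) (V : (A × Vb) × K → ℝ) :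
    ip m V = ∑ J : A × Vb, ip (fun k => m (J, k)) fun k => V (J, k) := by
  unfold ip
  rw [Fintype.sum_prod_type]

omit [Fintype ι] [DecidableEq ι] in
theorem lin_emb (π : A → ι → Vb) (s : A → ι → K → ℤ) (J : A × Vb) (η : K → ℝ) :
    lin (tcol π s) (emb J η) = lin (bcol π s J) η := by
  funext j
  simp only [lin, ip_emb]
  rfl

omit [Fintype A] [Fintype Vb] [Fintype K] in
theorem emb_mem {Γ : AddSubgroup (K → ℝ)} (J : A × Vb) {η : K → ℝ} (h : η ∈ Γ) :
    emb J η ∈ tlat (A × Vb) Γ := by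
  intro J'
  by_cases hJ : J' = J
  · simpa [emb, hJ] using h
  · have : (fun k => emb J η (J', k)) = 0 := by
      funext k
      simp [emb, hJ]
    rw [this]
    exact Γ.zero_mem

theorem lat_tlat {Γ : AddSubgroup (K → ℝ)} {sh : ℝ} (h : Lat Γ sh) :
    Lat (tlat (A × Vb) Γ) sh := by
  refine ⟨fun n J => h.1 fun k => n (J, k), fun m hm => ?_⟩
  by_cases h0 : m = 0
  · exact Or.inl h0
  right
  obtain ⟨x, hx⟩ := Function.ne_iff.1 h0
  have hd : Dual Γ fun k => m (x.1, k) := by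
    intro ρ hρ
    rw [← ip_emb]
    exact hm _ (emb_mem _ hρ)
  rcases h.2 _ hd with h1 | h1
  · exact absurd (congrFun h1 x.2) hx
  · refine h1.trans ?_
    rw [Fintype.sum_prod_type]
    exact Finset.single_le_sum (f := fun J : A × Vb => ∑ k, ((m (J, k) : ℤ) : ℝ) ^ 2)
      (fun J _ => Finset.sum_nonneg fun k _ => sq_nonneg _) (Finset.mem_univ x.1)

omit [Fintype ι] [DecidableEq ι] [Fintype A] [Fintype Vb] [DecidableEq A] in
theorem dual_bcol {Γ : AddSubgroup (K → ℝ)} (π : A → ι → Vb) {s : A → ι → K → ℤ}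
    (h : ∀ a j, Dual Γ (s a j)) (J : A × Vb) (j : ι) : Dual Γ (bcol π s J j) := by
  by_cases hj : π J.1 j = J.2
  · have : bcol π s J j = s J.1 j := by
      funext k
      simp [bcol, hj]
    rw [this]
    exact h _ _
  · intro ρ _
    exact ⟨0, by simp [ip, bcol, hj]⟩

omit [Fintype ι] [DecidableEq ι] [DecidableEq A] in
theorem dual_tcol {Γ : AddSubgroup (K → ℝ)} (π : A → ι → Vb) {s : A → ι → K → ℤ}
    (h : ∀ a j, Dual Γ (s a j)) (j : ι) : Dual (tlat (A × Vb) Γ) (tcol π s j) := by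
  intro ρ hρ
  rw [ip_split]
  choose n hn using fun J : A × Vb => dual_bcol π h J j _ (hρ J)
  refine ⟨∑ J, n J, ?_⟩
  push_cast
  exact Finset.sum_congr rfl fun J _ => hn J

omit [DecidableEq ι] [DecidableEq A] [Fintype K] in
/-- Summing over the blocks counts each coordinate once for each layer. -/
theorem sum_blk (π : A → ι → Vb) (F : A × Vb → ι → ℝ) :
    ∑ J : A × Vb, ∑ j ∈ blk π J, F J j = ∑ a, ∑ j, F (a, π a j) j := by
  rw [Fintype.sum_prod_type]
  refine Finset.sum_congr rfl fun a _ => ?_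
  simp only [blk, Finset.sum_filter]
  rw [Finset.sum_comm]
  refine Finset.sum_congr rfl fun j _ => ?_
  rw [Finset.sum_ite_eq]
  simp

omit [DecidableEq ι] [DecidableEq A] in
theorem split_tcol (π : A → ι → Vb) (s : A → ι → K → ℤ) {C1 C2 : ℝ} (hC2 : 0 ≤ C2)
    (h : ∀ J, Split (blk π J) (bcol π s J) C1 C2) :
    Split univ (tcol π s) (Fintype.card A * C1) (Fintype.card A * C2) := by
  intro V
  choose M1 M2 hM using fun J : A × Vb => h J fun k => V (J, k)
  have hV : nsq V = ∑ J : A × Vb, nsq fun k => V (J, k) := by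
    unfold nsq
    rw [Fintype.sum_prod_type]
  have hn : ∀ J : A × Vb, 0 ≤ nsq fun k => V (J, k) := fun J =>
    Finset.sum_nonneg fun k _ => sq_nonneg _
  refine ⟨fun j => ∑ a, M1 (a, π a j) j, fun j => ∑ a, M2 (a, π a j) j, fun j _ => ?_, ?_,
    fun j => ?_⟩
  · rw [ip_split, Fintype.sum_prod_type, ← Finset.sum_add_distrib]
    refine Finset.sum_congr rfl fun a _ => ?_
    rw [Finset.sum_eq_single (π a j)]
    · exact (hM (a, π a j)).1 j (by simp [blk])
    · intro v _ hv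
      simp [ip, tcol, bcol, Ne.symm hv]
    · simp
  · calc ∑ j, (∑ a, M1 (a, π a j) j) ^ 2
        ≤ ∑ j, (Fintype.card A : ℝ) * ∑ a, M1 (a, π a j) j ^ 2 := by
          refine Finset.sum_le_sum fun j _ => ?_
          simpa using sq_sum_le_card_mul_sum_sq (s := (univ : Finset A))
            (f := fun a => M1 (a, π a j) j)
      _ = Fintype.card A * ∑ J : A × Vb, ∑ j ∈ blk π J, M1 J j ^ 2 := by
          rw [← Finset.mul_sum, Finset.sum_comm, sum_blk π fun J j => M1 J j ^ 2]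
      _ ≤ Fintype.card A * ∑ J : A × Vb, C1 * nsq fun k => V (J, k) := by
          gcongr with J
          exact (hM J).2.1
      _ = _ := by rw [← Finset.mul_sum, ← hV, mul_assoc]
  · calc (∑ a, M2 (a, π a j) j) ^ 2
        ≤ (Fintype.card A : ℝ) * ∑ a, M2 (a, π a j) j ^ 2 := by
          simpa using sq_sum_le_card_mul_sum_sq (s := (univ : Finset A))
            (f := fun a => M2 (a, π a j) j)
      _ ≤ Fintype.card A * ∑ a, C2 * ∑ v, nsq fun k => V ((a, v), k) := by
          gcongr with a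
          refine ((hM (a, π a j)).2.2 j).trans (mul_le_mul_of_nonneg_left ?_ hC2)
          exact Finset.single_le_sum (f := fun v => nsq fun k => V ((a, v), k))
            (fun v _ => hn (a, v)) (Finset.mem_univ _)
      _ = _ := by rw [← Finset.mul_sum, hV, Fintype.sum_prod_type, mul_assoc]

omit [DecidableEq A] [Fintype K] [Fintype A] [Fintype Vb] in
theorem card_inter (π : A → ι → Vb) (S : Finset ι) (J : A × Vb) :
    ((S ∩ blk π J).card : ℝ) = ∑ j ∈ blk π J, if j ∈ S then (1 : ℝ) else 0 := by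
  rw [Finset.sum_ite_mem, Finset.inter_comm]
  simp

omit [DecidableEq A] [Fintype K] in
theorem sum_card (π : A → ι → Vb) (S : Finset ι) :
    ∑ J : A × Vb, ((S ∩ blk π J).card : ℝ) = Fintype.card A * S.card := by
  simp only [card_inter]
  rw [sum_blk π fun _ j => if j ∈ S then (1 : ℝ) else 0]
  simp

omit [DecidableEq A] [Fintype K] in
theorem sum_card_sq (π : A → ι → Vb) (S : Finset ι) {Dc : ℕ}
    (hD : ∀ i i', i ≠ i' → (univ.filter fun a => π a i = π a i').card ≤ Dc) :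
    ∑ J : A × Vb, ((S ∩ blk π J).card : ℝ) * ((S ∩ blk π J).card - 1) ≤
      S.card * (S.card - 1) * Dc := by
  have h1 : ∀ J : A × Vb, ((S ∩ blk π J).card : ℝ) * ((S ∩ blk π J).card - 1) =
      ∑ j ∈ blk π J, if j ∈ S then (((S ∩ blk π J).card : ℝ) - 1) else 0 := by
    intro J
    rw [Finset.sum_ite_mem, Finset.inter_comm (blk π J) S, Finset.sum_const, nsmul_eq_mul]
  simp only [h1]
  rw [sum_blk π fun J j => if j ∈ S then (((S ∩ blk π J).card : ℝ) - 1) else 0, Finset.sum_comm]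
  have h2 : ∀ j, ∑ a, (if j ∈ S then (((S ∩ blk π (a, π a j)).card : ℝ) - 1) else 0) ≤
      if j ∈ S then ((S.card : ℝ) - 1) * Dc else 0 := by
    intro j
    split_ifs with hj
    · have h3 : ∀ a, ((S ∩ blk π (a, π a j)).card : ℝ) - 1 =
          ∑ i ∈ S.erase j, if π a j = π a i then (1 : ℝ) else 0 := by
        intro a
        have : ((S ∩ blk π (a, π a j)).card : ℝ) =
            ∑ i ∈ S, if π a j = π a i then (1 : ℝ) else 0 := by
          rw [Finset.sum_boole]
          congr 2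
          ext i
          simp [blk, eq_comm]
        rw [this, ← Finset.add_sum_erase S _ hj]
        simp
      simp only [h3]
      rw [Finset.sum_comm]
      calc ∑ i ∈ S.erase j, ∑ a, (if π a j = π a i then (1 : ℝ) else 0)
          ≤ ∑ _i ∈ S.erase j, (Dc : ℝ) := by
            refine Finset.sum_le_sum fun i hi => ?_
            rw [Finset.sum_boole]
            exact_mod_cast hD j i (Finset.ne_of_mem_erase hi).symm
        _ = _ := by
            rw [Finset.sum_const, Finset.card_erase_of_mem hj, nsmul_eq_mul,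
              Nat.cast_pred (Finset.card_pos.2 ⟨j, hj⟩)]
    · simp
  refine (Finset.sum_le_sum fun j _ => h2 j).trans (le_of_eq ?_)
  rw [Finset.sum_ite_mem]
  simp [mul_assoc]

end Blocks

theorem one_ge (n : ℕ) : (n : ℝ) - n * (n - 1) ≤ if n = 1 then 1 else 0 := by
  rcases n with _ | _ | n
  · simp
  · simp
  · rw [if_neg (by omega)]
    push_cast
    have : (0 : ℝ) ≤ n := Nat.cast_nonneg n
    nlinarith

theorem two_le (n : ℕ) : (if n = 2 then (2 : ℝ) else 0) ≤ n * (n - 1) ∧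
    (if n = 2 then (2 : ℝ) else 0) ≤ n := by
  split_ifs with h
  · subst h
    norm_num
  · refine ⟨?_, Nat.cast_nonneg n⟩
    rcases n with _ | n
    · simp
    · push_cast
      have : (0 : ℝ) ≤ n := Nat.cast_nonneg n
      nlinarith

/-- The coefficient inequality. -/
theorem coef_ge {P Dc L τ0 ρ N1 N2 : ℝ} {k s0 : ℕ} (hP : 0 ≤ P) (hDc : 0 ≤ Dc) (hL : 0 ≤ L)
    (hρ : 3 / 4 ≤ ρ) (hτ : 0 ≤ τ0) (hs : 2 * (s0 * Dc * (1 + 2 * L)) ≤ P)
    (hk : s0 < k → k * ρ ^ (2 * (k - 2)) ≤ τ0) (h0 : 0 ≤ N1)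
    (h1 : P * k - k * (k - 1) * Dc ≤ N1) (h2 : N2 ≤ k * (k - 1) * Dc) (h3 : N2 ≤ P * k) :
    P * (if k ≤ s0 then k * ρ ^ (2 * (k - 1)) / 2 else 0) ≤
      N1 * ρ ^ (2 * (k - 1)) - L * (N2 * ρ ^ (2 * (k - 2))) + L * P * τ0 := by
  have hρ0 : 0 ≤ ρ := by linarith
  have hp1 : 0 ≤ ρ ^ (2 * (k - 1)) := pow_nonneg hρ0 _
  have hp2 : 0 ≤ ρ ^ (2 * (k - 2)) := pow_nonneg hρ0 _
  have hLP : 0 ≤ L * P * τ0 := by positivity
  split_ifs with hks
  · have hk0 : (0 : ℝ) ≤ k := Nat.cast_nonneg k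
    have hks' : (k : ℝ) ≤ s0 := by exact_mod_cast hks
    have hN2 : N2 * ρ ^ (2 * (k - 2)) ≤ 2 * (k * (k - 1) * Dc) * ρ ^ (2 * (k - 1)) := by
      rcases k with _ | _ | k
      · simp only [Nat.cast_zero, zero_mul] at h2
        simpa using h2
      · simp only [zero_add, Nat.cast_one, sub_self, mul_zero, zero_mul] at h2
        simpa using h2
      · have e1 : 2 * (k + 1 + 1 - 1) = 2 * k + 2 := by omega
        have e2 : 2 * (k + 1 + 1 - 2) = 2 * k := by omega
        rw [e1, e2, pow_add]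
        have hq : 0 ≤ ρ ^ (2 * k) := pow_nonneg hρ0 _
        have hM : (0 : ℝ) ≤ ((k + 1 + 1 : ℕ) : ℝ) * (((k + 1 + 1 : ℕ) : ℝ) - 1) * Dc := by
          have : (0 : ℝ) ≤ ((k + 1 + 1 : ℕ) : ℝ) - 1 := by
            push_cast
            have : (0 : ℝ) ≤ k := Nat.cast_nonneg k
            linarith
          positivity
        set M := ((k + 1 + 1 : ℕ) : ℝ) * (((k + 1 + 1 : ℕ) : ℝ) - 1) * Dc
        have h5 : 1 ≤ 2 * ρ ^ 2 := by nlinarith
        calc N2 * ρ ^ (2 * k) ≤ M * ρ ^ (2 * k) := mul_le_mul_of_nonneg_right h2 hq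
          _ = M * ρ ^ (2 * k) * 1 := by ring
          _ ≤ M * ρ ^ (2 * k) * (2 * ρ ^ 2) := mul_le_mul_of_nonneg_left h5 (mul_nonneg hM hq)
          _ = _ := by ring
    have h6 : (k - 1 : ℝ) * Dc * (1 + 2 * L) ≤ P / 2 := by
      have : (k - 1 : ℝ) * Dc * (1 + 2 * L) ≤ s0 * Dc * (1 + 2 * L) := by
        gcongr
        linarith
      linarith
    have h7 : k * ((k - 1 : ℝ) * Dc * (1 + 2 * L)) * ρ ^ (2 * (k - 1)) ≤
        k * (P / 2) * ρ ^ (2 * (k - 1)) := by gcongr
    have h8 := mul_le_mul_of_nonneg_right h1 hp1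
    have h9 := mul_le_mul_of_nonneg_left hN2 hL
    nlinarith
  · have h4 := hk (by omega)
    have h5 : N2 * ρ ^ (2 * (k - 2)) ≤ P * τ0 :=
      calc N2 * ρ ^ (2 * (k - 2)) ≤ P * k * ρ ^ (2 * (k - 2)) := mul_le_mul_of_nonneg_right h3 hp2
        _ = P * (k * ρ ^ (2 * (k - 2))) := by ring
        _ ≤ P * τ0 := mul_le_mul_of_nonneg_left h4 hP
    have h6 := mul_le_mul_of_nonneg_left h5 hL
    have h7 := mul_nonneg h0 hp1
    nlinarith

theorem ind_le {g : ℝ} {k s0 : ℕ} (hg : 0 < g) (hg' : g ≤ 1 / 4) (hs : 1 ≤ 4 * g * s0)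
    (hk : k ≠ 0) :
    1 ≤ 4 * (if k ≤ s0 then k * (1 - g) ^ (2 * (k - 1)) / 2 else 0) + 4 * g * k := by
  split_ifs with h
  · obtain ⟨k, rfl⟩ := Nat.exists_eq_succ_of_ne_zero hk
    have hb := one_add_mul_le_pow (a := -g) (by linarith) (2 * k)
    have e : 2 * (k.succ - 1) = 2 * k := by simp
    rw [e]
    have hq : 0 ≤ (1 - g) ^ (2 * k) := pow_nonneg (by linarith) _
    have hk0 : (0 : ℝ) ≤ k := Nat.cast_nonneg k
    rw [← sub_eq_add_neg] at hb
    push_cast at hb ⊢
    nlinarith [mul_nonneg hk0 hq]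
  · have : (s0 : ℝ) ≤ k := by exact_mod_cast (by omega : s0 ≤ k)
    have := mul_le_mul_of_nonneg_left this (by linarith : 0 ≤ 4 * g)
    linarith

theorem fin_arith {ω c0 L0 P B n ε l g τ0 I X W a b d : ℝ} (h0 : 0 < ω) (hc0 : 0 < c0)
    (hL0 : 0 < L0) (hP1 : 1 ≤ P) (hB0 : 0 < B) (hn0 : 0 ≤ n) (hε0 : 0 ≤ ε) (hl : 1 ≤ l)
    (hg0 : 0 < g) (hτ : 0 ≤ τ0) (hI0 : 0 ≤ I)
    (hXle : X ≤ L0 * (l * ε * I + n * Real.exp (-l) + τ0)) (hW : W ≤ 2 * X)
    (hV : a - b ≤ 4 * X + 4 * g * I)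
    (hT : b - d ≤ 16 / ω ^ 2 * (P * (2 * B) / (c0 * B) * W +
      Real.sqrt (P * (ε ^ 2 * B) / (c0 * B)) * I)) :
    a - d ≤ (4 + 4 * L0 + 64 * L0 / (ω ^ 2 * c0) + 16 * (1 + 1 / c0) / ω ^ 2) *
      ((g + P * l * ε) * I + P * (n * Real.exp (-l) + τ0)) := by
  have p1 : 0 ≤ 64 * L0 / (ω ^ 2 * c0) := by positivity
  have p2 : 0 ≤ 16 * (1 + 1 / c0) / ω ^ 2 := by positivity
  have e1 : P * (2 * B) / (c0 * B) = 2 * P / c0 := by field_simp
  have e2 : Real.sqrt (P * (ε ^ 2 * B) / (c0 * B)) ≤ P * l * ε * (1 + 1 / c0) := by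
    have e3 : P * (ε ^ 2 * B) / (c0 * B) = P * ε ^ 2 * (1 / c0) := by field_simp
    rw [e3]
    refine Real.sqrt_le_iff.2 ⟨by positivity, ?_⟩
    have c1 : 0 < 1 / c0 := by positivity
    have c2 : 1 / c0 ≤ (1 + 1 / c0) ^ 2 := by nlinarith
    have c3 : P ≤ (P * l) ^ 2 := by
      have : P ≤ P * l := le_mul_of_one_le_right (by linarith) hl
      nlinarith
    calc P * ε ^ 2 * (1 / c0) ≤ (P * l) ^ 2 * ε ^ 2 * (1 + 1 / c0) ^ 2 := by gcongr
      _ = _ := by ring
  rw [e1] at hT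
  set E := l * ε * I with hE
  set R := n * Real.exp (-l) + τ0 with hR
  have hE0 : 0 ≤ E := by positivity
  have hR0 : 0 ≤ R := by positivity
  have hXle' : X ≤ L0 * (E + R) := by
    rw [hR, ← add_assoc]
    exact hXle
  have t1 : 16 / ω ^ 2 * (2 * P / c0 * W) ≤ 64 * L0 / (ω ^ 2 * c0) * (P * (E + R)) := by
    have : W ≤ 2 * (L0 * (E + R)) := by linarith
    calc 16 / ω ^ 2 * (2 * P / c0 * W) ≤ 16 / ω ^ 2 * (2 * P / c0 * (2 * (L0 * (E + R)))) := by
          gcongr
      _ = _ := by field_simp; ring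
  have t2 : 16 / ω ^ 2 * (Real.sqrt (P * (ε ^ 2 * B) / (c0 * B)) * I) ≤
      16 * (1 + 1 / c0) / ω ^ 2 * (P * E) := by
    calc 16 / ω ^ 2 * (Real.sqrt (P * (ε ^ 2 * B) / (c0 * B)) * I)
        ≤ 16 / ω ^ 2 * (P * l * ε * (1 + 1 / c0) * I) := by gcongr
      _ = _ := by rw [hE]; ring
  have t3 : 4 * X ≤ 4 * L0 * (P * (E + R)) := by
    have : L0 * (E + R) ≤ L0 * (P * (E + R)) := by
      gcongr
      exact le_mul_of_one_le_left (by positivity) hP1
    linarith
  set u := 64 * L0 / (ω ^ 2 * c0)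
  set v := 16 * (1 + 1 / c0) / ω ^ 2
  have hgI : 0 ≤ g * I := by positivity
  have hPE : 0 ≤ P * E := by positivity
  have hPR : 0 ≤ P * R := by positivity
  have fin : (4 + 4 * L0 + u + v) * ((g + P * l * ε) * I + P * R) =
      (4 + 4 * L0 + u + v) * (g * I + P * E + P * R) := by rw [hE]; ring
  rw [fin]
  nlinarith [mul_nonneg hL0.le hgI, mul_nonneg p1 hgI, mul_nonneg p2 hgI, mul_nonneg p2 hPR]

end Poincare

open Noised Poincare in
theorem poincare_proof (_hR : RampStmt) (_hT : TorusStmt) (hD : DerivStmt) (hF : FourierStmt)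
    (hN : NoisedStmt) (hBl : BlockStmt) (hTV : TVStmt) : PoincareStmt := by
  intro c0 hc0
  obtain ⟨ω0, hω0, hω0', hB⟩ := hBl c0 hc0
  refine ⟨ω0, hω0, hω0', fun ω h0 hω => ?_⟩
  have h1 : ω ≤ 1 / 8 := hω.trans hω0'
  obtain ⟨L0, hL0, hB⟩ := hB ω 2 h0 hω (by norm_num)
  have p1 : 0 ≤ 64 * L0 / (ω ^ 2 * c0) := by positivity
  have p2 : 0 ≤ 16 * (1 + 1 / c0) / ω ^ 2 := by positivity
  refine ⟨4 + 4 * L0 + 64 * L0 / (ω ^ 2 * c0) + 16 * (1 + 1 / c0) / ω ^ 2, by linarith, ?_⟩
  intro ι A Vb K _ _ _ _ _ _ _ _ _ π s Γ c f Dc s0 g τ0 ε l hLat hs hsp hDc hε0 hε1 hl hg0 hg1 hgs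
    hP hτ hk hf hinv
  set P : ℝ := (Fintype.card A : ℝ) with hPdef
  set n : ℝ := (Fintype.card ι : ℝ) with hndef
  set B : ℝ := (Fintype.card K : ℝ) with hBdef
  have hP1 : 1 ≤ P := by
    rw [hPdef]
    exact_mod_cast Fintype.card_pos
  have hB0 : 0 < B := by
    rw [hBdef]
    exact_mod_cast Fintype.card_pos
  have hn0 : 0 ≤ n := Nat.cast_nonneg _
  have hLt := lat_tlat (A := A) (Vb := Vb) hLat
  have ml := meas_lin (tcol π s) c
  obtain ⟨f0, f1, fvar, fI, fW, -⟩ := hF ι ω f h0 h1 hf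
  obtain ⟨dE, -, -, dbm, -⟩ := hD ι ω f h0 h1 hf
  have hf2 : U01 fun x => f x ^ 2 := fun x =>
    ⟨sq_nonneg _, pow_le_one₀ (hf x).1 (hf x).2⟩
  obtain ⟨dE2, -⟩ := hD ι ω (fun x => f x ^ 2) h0 h1 hf2
  have bE : BM (Ey ω f) := ⟨dE.1, 1, fun y => by
    rw [abs_of_nonneg (dE.2 y).1]; exact (dE.2 y).2⟩
  have bE2 : BM (Ey ω fun x => f x ^ 2) := ⟨dE2.1, 1, fun y => by
    rw [abs_of_nonneg (dE2.2 y).1]; exact (dE2.2 y).2⟩
  have bEsq : BM fun y => Ey ω f y ^ 2 := by
    simpa only [sq] using bm_mul bE bE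
  set I := tm (fun β => Inf ω univ f (c + lin (tcol π s) β)) with hI
  have hI0 : 0 ≤ I := tm_nonneg fun β => ((dbm univ).2.2.2 _).2.2.2
  have bI : BM fun β => Inf ω univ f (c + lin (tcol π s) β) := bm_comp (dbm univ).2.2.1 ml
  have bQ1 : ∀ J, BM fun β => Q1 ω (1 - g) J f (c + lin (tcol π s) β) := fun J =>
    bm_comp (F := Q1 ω (1 - g) J f) (by rw [Q1_eq]; exact bm_fsum hF h0 h1 hf _) ml
  have bQ2 : ∀ J, BM fun β => Q2 ω (1 - g) J f (c + lin (tcol π s) β) := fun J =>
    bm_comp (F := Q2 ω (1 - g) J f) (by rw [Q2_eq]; exact bm_fsum hF h0 h1 hf _) ml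
  -- the block inequality for every block
  have hJ : ∀ J : A × Vb, tm (fun β => Q1 ω (1 - g) (blk π J) f (c + lin (tcol π s) β)) ≤
      L0 * (tm (fun β => Q2 ω (1 - g) (blk π J) f (c + lin (tcol π s) β)) +
        l * ε * tm (fun β => Inf ω (blk π J) f (c + lin (tcol π s) β)) +
          (blk π J).card * Real.exp (-l)) := by
    intro J
    have hz : ∀ j, j ∉ blk π J → bcol π s J j = 0 := by
      intro j hj
      funext k
      have : ¬ π J.1 j = J.2 := by simpa [blk] using hj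
      simp [bcol, this]
    refine hN ι K ((A × Vb) × K) Γ (tlat (A × Vb) Γ) (blk π J) (bcol π s J) (tcol π s) (emb J)
      c f ω L0 ε l (1 - g) h0 h1 hL0.le hε0 (by linarith) (by linarith) (by linarith) ?_ hz
      (meas_emb J) (lin_emb π s J) hLt.1 hf ?_ hinv
    · refine hB ι K Γ (blk π J) (bcol π s J) ε l hLat (dual_bcol π (fun a j => (hs a j).1) J)
        (fun j hj => ?_) hz (hsp J).1 (hsp J).2 hε0 hε1 hl
      have hj' : π J.1 j = J.2 := by simpa [blk] using hj
      have : bcol π s J j = s J.1 j := by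
        funext k
        simp [bcol, hj']
      rw [this]
      exact (hs _ _).2
    · intro r hr z hz
      refine hinv (emb J r) (emb_mem J hr) z fun j => ?_
      rw [lin_emb]
      exact hz j
  have hsum : tm (fun β => ∑ J : A × Vb, Q1 ω (1 - g) (blk π J) f (c + lin (tcol π s) β)) ≤
      L0 * (tm (fun β => ∑ J : A × Vb, Q2 ω (1 - g) (blk π J) f (c + lin (tcol π s) β)) +
        l * ε * (P * I) + P * n * Real.exp (-l)) := by
    have e1 : P * I = ∑ J : A × Vb, tm (fun β => Inf ω (blk π J) f (c + lin (tcol π s) β)) := by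
      rw [← tm_sum _ fun J _ => bm_comp (dbm (blk π J)).2.2.1 ml, hI, ← tm_mul]
      congr 1
      funext β
      unfold Inf
      rw [sum_blk π fun _ j => dpr ω ((c + lin (tcol π s) β) j) *
        inf1 ω f j (c + lin (tcol π s) β)]
      simp [hPdef]
    have e2 : P * n = ∑ J : A × Vb, ((blk π J).card : ℝ) := by
      have := sum_card π (univ : Finset ι)
      simp only [Finset.univ_inter, Finset.card_univ] at this
      exact this.symm
    rw [tm_sum _ fun J _ => bQ1 _, tm_sum _ fun J _ => bQ2 _, e1, e2, Finset.mul_sum,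
      Finset.sum_mul, ← Finset.sum_add_distrib, ← Finset.sum_add_distrib, Finset.mul_sum]
    exact Finset.sum_le_sum fun J _ => hJ J
  -- the low degree part
  set a : ℕ → ℝ := fun k => if k ≤ s0 then k * (1 - g) ^ (2 * (k - 1)) / 2 else 0 with ha
  have ha0 : ∀ k, 0 ≤ a k := by
    intro k
    have : 0 ≤ (1 - g) ^ (2 * (k - 1)) := pow_nonneg (by linarith) _
    simp only [ha]
    split_ifs
    · positivity
    · exact le_rfl
  have bX : BM fun β => ∑ S : Finset ι, a S.card * fw ω f S (c + lin (tcol π s) β) :=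
    bm_comp (bm_fsum hF h0 h1 hf fun S => a S.card) ml
  set X := tm (fun β => ∑ S : Finset ι, a S.card * fw ω f S (c + lin (tcol π s) β)) with hX
  have hpt : ∀ y, P * ∑ S : Finset ι, a S.card * fw ω f S y ≤
      ∑ J : A × Vb, Q1 ω (1 - g) (blk π J) f y - L0 * ∑ J : A × Vb, Q2 ω (1 - g) (blk π J) f y +
        L0 * P * τ0 := by
    intro y
    have q1 : ∑ J : A × Vb, Q1 ω (1 - g) (blk π J) f y = ∑ S : Finset ι,
        ((∑ J : A × Vb, if (S ∩ blk π J).card = 1 then (1 : ℝ) else 0) *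
          (1 - g) ^ (2 * (S.card - 1))) * fw ω f S y := by
      unfold Q1
      rw [Finset.sum_comm]
      refine Finset.sum_congr rfl fun S _ => ?_
      rw [Finset.sum_mul, Finset.sum_mul]
      refine Finset.sum_congr rfl fun J _ => ?_
      split_ifs <;> ring
    have q2 : ∑ J : A × Vb, Q2 ω (1 - g) (blk π J) f y = ∑ S : Finset ι,
        ((∑ J : A × Vb, if (S ∩ blk π J).card = 2 then (2 : ℝ) else 0) *
          (1 - g) ^ (2 * (S.card - 2))) * fw ω f S y := by
      unfold Q2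
      rw [Finset.sum_comm]
      refine Finset.sum_congr rfl fun S _ => ?_
      rw [Finset.sum_mul, Finset.sum_mul]
      refine Finset.sum_congr rfl fun J _ => ?_
      split_ifs <;> ring
    have q3 : ∑ S : Finset ι, L0 * P * τ0 * fw ω f S y ≤ L0 * P * τ0 := by
      rw [← Finset.mul_sum]
      exact mul_le_of_le_one_right (by positivity) (f1 y)
    rw [q1, q2, Finset.mul_sum, Finset.mul_sum, ← Finset.sum_sub_distrib]
    refine le_trans ?_ (add_le_add_right q3 _)
    rw [← Finset.sum_add_distrib]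
    refine Finset.sum_le_sum fun S _ => ?_
    have hc := coef_ge (P := P) (Dc := Dc) (L := L0) (τ0 := τ0) (ρ := 1 - g) (k := S.card)
      (s0 := s0) (N1 := ∑ J : A × Vb, if (S ∩ blk π J).card = 1 then (1 : ℝ) else 0)
      (N2 := ∑ J : A × Vb, if (S ∩ blk π J).card = 2 then (2 : ℝ) else 0) (by linarith)
      (Nat.cast_nonneg _) hL0.le (by linarith) hτ ?_ (hk _) ?_ ?_ ?_ ?_
    · have := mul_le_mul_of_nonneg_right hc ((f0 S).2 y)
      simp only [ha]
      linarith
    · refine le_trans ?_ hP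
      have : (0 : ℝ) ≤ s0 * Dc := by positivity
      gcongr
      linarith
    · exact Finset.sum_nonneg fun J _ => by split_ifs <;> norm_num
    · have h2 := sum_card_sq π S hDc
      have h3 := sum_card π S
      have h4 := Finset.sum_le_sum (s := (univ : Finset (A × Vb)))
        fun J _ => one_ge (S ∩ blk π J).card
      rw [Finset.sum_sub_distrib] at h4
      linarith
    · exact (Finset.sum_le_sum fun J _ => (two_le _).1).trans (sum_card_sq π S hDc)
    · exact (Finset.sum_le_sum fun J _ => (two_le _).2).trans (sum_card π S).le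
  have hXle : X ≤ L0 * (l * ε * I + n * Real.exp (-l) + τ0) := by
    have b1 := bm_sum (univ : Finset (A × Vb)) fun J _ => bQ1 (blk π J)
    have b2 := bm_sum (univ : Finset (A × Vb)) fun J _ => bQ2 (blk π J)
    have b3 := bm_mul (bm_const (-L0)) b2
    have h2 := tm_mono (bm_mul (bm_const P) bX)
      (bm_add (bm_add b1 b3) (bm_const (L0 * P * τ0))) fun β => by
        have := hpt (c + lin (tcol π s) β)
        linarith
    rw [tm_add (bm_add b1 b3) (bm_const _), tm_add b1 b3, tm_mul, tm_mul, tm_const, ← hX] at h2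
    have h3 : P * X ≤ P * (L0 * (l * ε * I + n * Real.exp (-l) + τ0)) := by linarith
    exact le_of_mul_le_mul_left h3 (by linarith)
  have hs1 : 1 ≤ s0 := by
    rcases s0 with _ | s0
    · norm_num at hgs
    · omega
  have hW : tm (fun β => W1 ω univ f (c + lin (tcol π s) β)) ≤ 2 * X := by
    rw [hX, ← tm_mul]
    refine tm_mono (bm_comp (dbm univ).1 ml) (bm_mul (bm_const _) bX) fun β => ?_
    rw [fW, Finset.mul_sum]
    refine Finset.sum_le_sum fun S _ => ?_
    split_ifs with hS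
    · simp only [ha, hS, if_pos hs1]
      norm_num
      linarith
    · have := mul_nonneg (ha0 S.card) ((f0 S).2 (c + lin (tcol π s) β))
      linarith
  have hV : tm (fun β => Ey ω (fun x => f x ^ 2) (c + lin (tcol π s) β)) -
      tm (fun β => Ey ω f (c + lin (tcol π s) β) ^ 2) ≤ 4 * X + 4 * g * I := by
    rw [← tm_sub (bm_comp bE2 ml) (bm_comp bEsq ml), hX, hI, ← tm_mul, ← tm_mul,
      ← tm_add (bm_mul (bm_const _) bX) (bm_mul (bm_const _) bI)]
    have b4 : BM fun β => Ey ω (fun x => f x ^ 2) (c + lin (tcol π s) β) -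
        Ey ω f (c + lin (tcol π s) β) ^ 2 := by
      have := bm_add (bm_comp bE2 ml) (bm_mul (bm_const (-1)) (bm_comp bEsq ml))
      simpa [sub_eq_add_neg] using this
    refine tm_mono b4 (bm_add (bm_mul (bm_const _) bX) (bm_mul (bm_const _) bI)) fun β => ?_
    rw [fvar]
    have h5 := mul_le_mul_of_nonneg_left (fI (c + lin (tcol π s) β)) (by linarith : 0 ≤ 4 * g)
    refine le_trans ?_ (add_le_add_right h5 _)
    rw [Finset.mul_sum, Finset.mul_sum, ← Finset.sum_add_distrib]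
    refine Finset.sum_le_sum fun S _ => ?_
    have hw := (f0 S).2 (c + lin (tcol π s) β)
    split_ifs with hS
    · have := mul_nonneg (ha0 S.card) hw
      positivity
    · have h6 := ind_le hg0 hg1 hgs (k := S.card) (by simpa using hS)
      have h7 := mul_le_mul_of_nonneg_right h6 hw
      simp only [ha]
      linarith
  have hsplit := split_tcol π s (C1 := 2 * B) (C2 := ε ^ 2 * B) (by positivity)
    fun J => (hsp J).1
  have hT := hTV ι ((A × Vb) × K) (tlat (A × Vb) Γ) (tcol π s) c f ω (c0 * B) (P * (2 * B))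
    (P * (ε ^ 2 * B)) h0 h1 (by positivity) (by positivity) (by positivity) hLt
    (dual_tcol π fun a j => (hs a j).1) hsplit hf hinv
  rw [← hI] at hT
  exact fin_arith h0 hc0 hL0 hP1 hB0 hn0 hε0 hl hg0 hτ hI0 hXle hW hV hT

end Vale.Agent.P318.M
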