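import Vale.Agent.P318.M.Stmt

/-! Simple facts on `rho` and on good vertices. -/

namespace Vale.Agent.P318.M

open Finset

namespace Rho

variable {ι κ : Type} [Fintype ι] [Fintype κ]

theorem ip_add (m : κ → ℤ) (β γ : κ → ℝ) : ip m (β + γ) = ip m β + ip m γ := by
  simp [ip, mul_add, Finset.sum_add_distrib]

theorem ip_sub (m : κ → ℤ) (β γ : κ → ℝ) : ip m (β - γ) = ip m β - ip m γ := by
  simp [ip, mul_sub, Finset.sum_sub_distrib]

theorem abs_ip_le (m : κ → ℤ) (β : κ → ℝ) {B L : ℝ} (hB : 0 ≤ B) (hβ : ∀ k, |β k| ≤ B)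
    (hL : ∑ k, |(m k : ℝ)| ≤ L) : |ip m β| ≤ L * B := by
  calc |ip m β| ≤ ∑ k, |(m k : ℝ) * β k| := Finset.abs_sum_le_sum_abs _ _
    _ ≤ ∑ k, |(m k : ℝ)| * B := Finset.sum_le_sum fun k _ => by
        rw [abs_mul]; exact mul_le_mul_of_nonneg_left (hβ k) (abs_nonneg _)
    _ = (∑ k, |(m k : ℝ)|) * B := (Finset.sum_mul _ _ _).symm
    _ ≤ L * B := mul_le_mul_of_nonneg_right hL hB

omit [Fintype ι] in
theorem perp_sub (s : ι → κ → ℤ) (Sp : (ι → ℝ) →ₗ[ℝ] (κ → ℝ)) (z z' : ι → ℝ) (j : ι) :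
    perp s Sp (z - z') j = perp s Sp z j - perp s Sp z' j := by
  simp only [perp, lin, map_sub, ip_sub, Pi.sub_apply]; ring

theorem perp_lin {s : ι → κ → ℤ} {Sp : (ι → ℝ) →ₗ[ℝ] (κ → ℝ)} {m : ℝ} (h : Proj s Sp m)
    (z : ι → ℝ) (β : κ → ℝ) : perp s Sp (z + lin s β) = perp s Sp z := by
  funext j
  simp only [perp, map_add, h.1, Pi.add_apply]
  simp only [lin, ip_add]; ring

theorem perp_sq_le {s : ι → κ → ℤ} {Sp : (ι → ℝ) →ₗ[ℝ] (κ → ℝ)} {m : ℝ} (h : Proj s Sp m)
    (z : ι → ℝ) : ∑ j, perp s Sp z j ^ 2 ≤ ∑ j, z j ^ 2 := by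
  have h1 := h.2.1 z (Sp z)
  have e : ∑ j, z j ^ 2 = ∑ j, perp s Sp z j ^ 2 +
      2 * ∑ j, (z j - lin s (Sp z) j) * lin s (Sp z) j + ∑ j, lin s (Sp z) j ^ 2 := by
    rw [Finset.mul_sum, ← Finset.sum_add_distrib, ← Finset.sum_add_distrib]
    exact Finset.sum_congr rfl fun j _ => by simp only [perp]; ring
  have h2 : 0 ≤ ∑ j, lin s (Sp z) j ^ 2 := Finset.sum_nonneg fun j _ => sq_nonneg _
  rw [e, h1]; linarith

theorem D0_nonneg {Φ : Type} [Fintype Φ] (lam : Φ → κ → ℤ) (β : κ → ℝ) : 0 ≤ D0 lam β :=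
  Finset.sum_nonneg fun _ _ => sub_nonneg.2 (Real.cos_le_one _)

theorem one_sub_cos_le (t : ℝ) : 1 - Real.cos t ≤ |t| := by
  have := Real.abs_cos_sub_cos_le 0 t
  rw [Real.cos_zero, zero_sub, abs_neg] at this
  exact (le_abs_self _).trans this

theorem gth_lip (ω1 θ0 θ t t' : ℝ) (hθ : |θ| ≤ 1 / 2) :
    |gth ω1 θ0 θ t - gth ω1 θ0 θ t'| ≤ 2 * |t - t'| := by
  have h1 : |θ * t - θ * t'| ≤ |t - t'| := by
    rw [← mul_sub, abs_mul]
    nlinarith [abs_nonneg (t - t'), abs_nonneg θ]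
  have key : ∀ u u' : ℝ, |u - u'| ≤ |t - t'| → |u - θ * t - (u' - θ * t')| ≤ 2 * |t - t'| := by
    intro u u' hu
    have : u - θ * t - (u' - θ * t') = (u - u') - (θ * t - θ * t') := by ring
    rw [this]
    have := abs_sub (u - u') (θ * t - θ * t')
    linarith
  unfold gth
  split_ifs
  · refine key _ _ ((abs_max_sub_max_le_abs _ _ _).trans_eq ?_)
    congr 1; ring
  · refine key _ _ ((abs_max_sub_max_le_abs _ _ _).trans_eq ?_)
    rw [← abs_neg]; congr 1; ring
  · exact key _ _ (by simp)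

end Rho

open Rho in
theorem rho_proof (hN : NegStmt) : RhoStmt := by
  intro ι κ Φ _ _ _ _ Γ s Sp lam Kp ω1 δn δ0 δ1 Cn L1 m A N E1 Q c H
  obtain ⟨-, -, nadd, neuc, ncos, nexp, -⟩ := hN
  have hN0 : 0 ≤ N := le_trans (by have := H.Kp_pos; have := H.d1_pos; positivity) H.N_ge
  have hA := H.A_pos
  have hm := H.m_pos
  have hcast : ∀ x x' : ι → ℤ, (fun j => (x j : ℝ) - x' j) =
      (fun j => (x j : ℝ)) - fun j => (x' j : ℝ) := fun _ _ => rfl
  have hvv : ∀ ρ ∈ Γ, ∀ r : ι → ℤ, (∀ j, (r j : ℝ) = lin s ρ j) → ∀ x,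
      vv s Sp c (x + r) = vv s Sp c x := by
    intro ρ _ r hr x
    unfold vv
    rw [← perp_lin H.proj (fun j => (x j : ℝ) + c j) ρ]
    congr 1
    funext j
    simp only [Pi.add_apply, Int.cast_add, hr]; ring
  refine ⟨?_, ?_, ?_, ?_, ?_, ?_⟩
  · have h1 := ncos (ι → ℤ) Φ fun x l => 2 * Real.pi * ip (lam l) (Sp fun j => (x j : ℝ))
    have h2 := nadd _ _ _ A (neuc (ι → ℤ) ι (vv s Sp c)) (nexp _ _ N h1 hN0) hA.le
    have e : rho s Sp c lam A N = fun x y => ∑ j, (vv s Sp c x j - vv s Sp c y j) ^ 2 +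
        A * (1 - Real.exp (-(N * ∑ l, (1 - Real.cos
          (2 * Real.pi * ip (lam l) (Sp fun j => (x j : ℝ)) -
            2 * Real.pi * ip (lam l) (Sp fun j => (y j : ℝ))))))) := by
      funext x y
      simp only [rho, D0, hcast, map_sub, ip_sub, mul_sub (2 * Real.pi)]
    rw [e]; exact h2
  · intro x j
    set e : ι → ℝ := fun i => (x i : ℝ) - (x + Pi.single j 1 : ι → ℤ) i with he
    have hej : ∀ i, e i = if i = j then -1 else 0 := by
      intro i
      by_cases hi : i = j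
      · subst hi; simp [he]
      · simp [he, hi]
    have h1 : ∑ i, (vv s Sp c x i - vv s Sp c (x + Pi.single j 1) i) ^ 2 ≤ 1 := by
      have : ∀ i, vv s Sp c x i - vv s Sp c (x + Pi.single j 1) i = perp s Sp e i := by
        intro i
        unfold vv
        rw [← perp_sub]
        congr 1
        funext i'
        simp only [Pi.sub_apply, he]; ring
      simp_rw [this]
      refine (perp_sq_le H.proj e).trans_eq ?_
      simp [hej]
    have hβ : ∀ k, |Sp e k| ≤ 2 * 1 / m := H.proj.2.2 e 1 fun k => by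
      simpa [hej] using H.ent j k
    have h2 : D0 lam (Sp e) ≤ Fintype.card Φ * (2 * Real.pi * (L1 * (2 * 1 / m))) := by
      unfold D0
      rw [← nsmul_eq_mul, ← Finset.card_univ]
      refine Finset.sum_le_card_nsmul _ _ _ fun l _ => (one_sub_cos_le _).trans ?_
      rw [abs_mul, abs_of_pos (by positivity : 0 < 2 * Real.pi)]
      exact mul_le_mul_of_nonneg_left
        (abs_ip_le _ _ (by positivity) hβ (H.feat.2.1 l)) (by positivity)
    have h3 : 1 - Real.exp (-(N * D0 lam (Sp e))) ≤ N * D0 lam (Sp e) := by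
      have := Real.add_one_le_exp (-(N * D0 lam (Sp e))); linarith
    have h4 : A * (N * (Fintype.card Φ * (2 * Real.pi * (L1 * (2 * 1 / m))))) =
        (32 * Real.pi * A * N * Fintype.card Φ * L1 / m) / 8 := by ring
    have h5 : A * (1 - Real.exp (-(N * D0 lam (Sp e)))) ≤
        A * (N * (Fintype.card Φ * (2 * Real.pi * (L1 * (2 * 1 / m))))) :=
      mul_le_mul_of_nonneg_left (h3.trans (mul_le_mul_of_nonneg_left h2 hN0)) hA.le
    have h6 := H.A_le
    have h7 := H.Kp_le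
    unfold rho
    rw [← he]
    linarith
  · intro x x'
    have h1 := mul_nonneg hN0 (D0_nonneg lam (Sp fun j => (x j : ℝ) - x' j))
    have h2 : Real.exp (-(N * D0 lam (Sp fun j => (x j : ℝ) - x' j))) ≤ 1 :=
      Real.exp_le_one_iff.2 (by linarith)
    have h3 := Real.exp_pos (-(N * D0 lam (Sp fun j => (x j : ℝ) - x' j)))
    unfold rho
    constructor <;> nlinarith
  · intro ρ hρ r hr x
    refine ⟨hvv ρ hρ r hr x, fun x' => ?_⟩
    unfold rho
    rw [hvv ρ hρ r hr x]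
    have e : (fun j => ((x + r) j : ℝ) - x' j) = (fun j => (x j : ℝ) - x' j) + lin s ρ := by
      funext j
      simp only [Pi.add_apply, Int.cast_add, hr]; ring
    have e2 : D0 lam (Sp fun j => ((x + r) j : ℝ) - x' j) =
        D0 lam (Sp fun j => (x j : ℝ) - x' j) := by
      rw [e, map_add, H.proj.1]
      unfold D0
      refine Finset.sum_congr rfl fun l _ => ?_
      obtain ⟨n, hn⟩ := H.feat.1 l ρ hρ
      rw [ip_add, hn, mul_add, mul_comm (2 * Real.pi) (n : ℝ), Real.cos_add_int_mul_two_pi]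
    rw [e2]
  · intro β b
    unfold vv
    rw [← perp_lin H.proj (fun j => ((pt (c + lin s β) b j : ℤ) : ℝ) + c j) β]
    congr 1
    funext j
    simp only [zz, Pi.add_apply]; ring
  · intro ω ω5 θ0 E0 z z' hz hz' hd h5 hω hE
    have hE0 : 0 ≤ E0 := (abs_nonneg _).trans (hz.2 fun _ => ⟨0, H.Q_pos⟩)
    have hs : ∀ k, |∑ j, (s j k : ℝ) * z' j| ≤ E0 + 1 := by
      intro k
      have e : ∑ j, (s j k : ℝ) * z' j =
          ∑ j, (s j k : ℝ) * z j + ∑ j, (s j k : ℝ) * (z' j - z j) := by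
        rw [← Finset.sum_add_distrib]
        exact Finset.sum_congr rfl fun j _ => by ring
      have h1 : |∑ j, (s j k : ℝ) * (z' j - z j)| ≤ ∑ j, |z' j - z j| :=
        (Finset.abs_sum_le_sum_abs _ _).trans (Finset.sum_le_sum fun j _ => by
          rw [abs_mul]
          exact mul_le_of_le_one_left (abs_nonneg _) (H.ent j k))
      rw [e]
      have := abs_add_le (∑ j, (s j k : ℝ) * z j) (∑ j, (s j k : ℝ) * (z' j - z j))
      have := hz.1 k
      linarith
    have hp : ∀ j, |perp s Sp z' j - z' j| ≤ ω5 := by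
      intro j
      have := abs_ip_le (s j) (Sp z') (by positivity) (H.proj.2.2 z' _ hs) (H.colsum j)
      have e : perp s Sp z' j - z' j = -ip (s j) (Sp z') := by simp [perp, lin]
      rw [e, abs_neg]; linarith
    refine ⟨⟨fun j => ?_, fun g => ?_⟩, hp⟩
    · have h1 := abs_add_le (perp s Sp z' j - z' j) (z' j)
      rw [sub_add_cancel] at h1
      have := hp j
      have := hz' j
      linarith
    · have h1 : |∑ j, gth ω1 θ0 (th s Q g j) (perp s Sp z' j) -
          ∑ j, gth ω1 θ0 (th s Q g j) (z j)| ≤ ∑ j, (2 * ω5 + 2 * |z' j - z j|) := by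
        rw [← Finset.sum_sub_distrib]
        refine (Finset.abs_sum_le_sum_abs _ _).trans (Finset.sum_le_sum fun j _ => ?_)
        have h2 := gth_lip ω1 θ0 (th s Q g j) (perp s Sp z' j) (z j) (abs_sub_round _)
        have h3 := abs_sub_le (perp s Sp z' j) (z' j) (z j)
        have := hp j
        linarith
      rw [Finset.sum_add_distrib, ← Finset.mul_sum, ← Finset.mul_sum, Finset.sum_const,
        Finset.card_univ, nsmul_eq_mul] at h1
      have h2 := abs_sub_le (∑ j, gth ω1 θ0 (th s Q g j) (perp s Sp z' j))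
        (∑ j, gth ω1 θ0 (th s Q g j) (z j)) (Mg ω ω1 θ0 s Q g)
      have := hz.2 g
      linarith

end Vale.Agent.P318.M
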