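import Vale.Agent.P318.M.Stmt

/-!
The near triangle inequality for `rho` on good vertices.
-/

namespace Vale.Agent.P318.M

open Finset

namespace Tri

/-- One coordinate, small drift. -/
lemma coord_small (Kp ω1 δn θ e vx vy vz : ℝ) (k : ℤ) (hK : 0 < Kp) (hK1 : Kp ≤ 1)
    (hd : 0 < δn) (hdo : δn ≤ ω1) (ho : ω1 ≤ Kp ^ 3 / 32768)
    (hx : |vx| ≤ 1 / 2 + ω1 - δn) (hy : |vy| ≤ 1 / 2 + ω1 - δn) (hz : |vz| ≤ 1 / 2 + ω1 - δn)
    (he : |e| ≤ δn) (hθ : |θ| ≤ Kp / 32) (ha : vy - vx = k - θ - e) :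
    k * (vz - vy) ≤ Kp / 4 * (vy - vx) ^ 2 := by
  have h3 : Kp ^ 3 ≤ Kp := by
    have : Kp ^ 2 ≤ 1 := by nlinarith
    nlinarith
  rw [abs_le] at hx hy hz he hθ
  have hk1 : (k : ℝ) < 2 := by linarith
  have hk2 : (-2 : ℝ) < k := by linarith
  have hk1' : k < 2 := by exact_mod_cast hk1
  have hk2' : -2 < k := by exact_mod_cast hk2
  have hk : k = -1 ∨ k = 0 ∨ k = 1 := by omega
  rcases hk with rfl | rfl | rfl
  · push_cast at ha ⊢
    have h1 : vy - vx ≤ -(3 / 4) := by linarith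
    have h2 : 1 / 2 ≤ (vy - vx) ^ 2 := by nlinarith
    have h4 : Kp / 4 * (1 / 2) ≤ Kp / 4 * (vy - vx) ^ 2 :=
      mul_le_mul_of_nonneg_left h2 (by linarith)
    linarith
  · simp only [Int.cast_zero, zero_mul]
    positivity
  · push_cast at ha ⊢
    have h1 : 3 / 4 ≤ vy - vx := by linarith
    have h2 : 1 / 2 ≤ (vy - vx) ^ 2 := by nlinarith
    have h4 : Kp / 4 * (1 / 2) ≤ Kp / 4 * (vy - vx) ^ 2 :=
      mul_le_mul_of_nonneg_left h2 (by linarith)
    linarith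

/-- One coordinate, large positive drift. -/
lemma coord_pos (Kp ω1 δn θ e vx vy vz : ℝ) (k : ℤ) (hK : 0 < Kp) (hK1 : Kp ≤ 1)
    (hd : 0 < δn) (hdo : δn ≤ ω1) (ho : ω1 ≤ Kp ^ 3 / 32768)
    (hx : |vx| ≤ 1 / 2 + ω1 - δn) (hy : |vy| ≤ 1 / 2 + ω1 - δn)
    (he : |e| ≤ δn) (hθ : Kp / 32 < θ) (hθ' : θ ≤ 1 / 2) (ha : vy - vx = k - θ - e) :
    k * (vz - vy) ≤ Kp / 4 * (vy - vx) ^ 2 +
      (max (vz - (1 / 2 - ω1 - θ)) 0 - max (vy - (1 / 2 - ω1 - θ)) 0) := by
  have h3 : Kp ^ 3 ≤ Kp := by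
    have : Kp ^ 2 ≤ 1 := by nlinarith
    nlinarith
  rw [abs_le] at hx hy he
  have hk1 : (k : ℝ) < 2 := by linarith
  have hk2 : (-1 : ℝ) < k := by linarith
  have hk1' : k < 2 := by exact_mod_cast hk1
  have hk2' : -1 < k := by exact_mod_cast hk2
  have hk : k = 0 ∨ k = 1 := by omega
  have hz0 : 0 ≤ max (vz - (1 / 2 - ω1 - θ)) 0 := le_max_right _ _
  have hz1 : vz - (1 / 2 - ω1 - θ) ≤ max (vz - (1 / 2 - ω1 - θ)) 0 := le_max_left _ _
  rcases hk with rfl | rfl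
  · push_cast at ha ⊢
    have h1 : vy - vx ≤ -(Kp / 64) := by linarith
    have h2 : (Kp / 64) ^ 2 ≤ (vy - vx) ^ 2 := by nlinarith
    have h4 : Kp / 4 * (Kp / 64) ^ 2 ≤ Kp / 4 * (vy - vx) ^ 2 :=
      mul_le_mul_of_nonneg_left h2 (by linarith)
    have h5 : max (vy - (1 / 2 - ω1 - θ)) 0 ≤ 2 * ω1 := max_le (by linarith) (by linarith)
    have h6 : Kp / 4 * (Kp / 64) ^ 2 = Kp ^ 3 / 16384 := by ring
    linarith
  · push_cast at ha ⊢
    have h5 : max (vy - (1 / 2 - ω1 - θ)) 0 = vy - (1 / 2 - ω1 - θ) := max_eq_left (by linarith)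
    have h4 : 0 ≤ Kp / 4 * (vy - vx) ^ 2 := by positivity
    linarith

/-- One coordinate, any drift. -/
lemma coord (Kp ω1 δn θ e vx vy vz : ℝ) (k : ℤ) (hK : 0 < Kp) (hK1 : Kp ≤ 1)
    (hd : 0 < δn) (hdo : δn ≤ ω1) (ho : ω1 ≤ Kp ^ 3 / 32768)
    (hx : |vx| ≤ 1 / 2 + ω1 - δn) (hy : |vy| ≤ 1 / 2 + ω1 - δn) (hz : |vz| ≤ 1 / 2 + ω1 - δn)
    (he : |e| ≤ δn) (hθ : |θ| ≤ 1 / 2) (ha : vy - vx = k - θ - e) :
    (vy - vx) * (vz - vy) ≤ Kp / 4 * (vy - vx) ^ 2 +
      (gth ω1 (Kp / 32) θ vz - gth ω1 (Kp / 32) θ vy) + 2 * δn := by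
  have h3 : Kp ^ 3 ≤ Kp := by
    have : Kp ^ 2 ≤ 1 := by nlinarith
    nlinarith
  have hb : |vz - vy| ≤ 2 := by
    rw [abs_le] at hy hz ⊢
    constructor <;> linarith
  have heb : -(e * (vz - vy)) ≤ 2 * δn := by
    have h1 : |e * (vz - vy)| ≤ δn * 2 := by
      rw [abs_mul]
      exact mul_le_mul he hb (abs_nonneg _) hd.le
    have := neg_abs_le (e * (vz - vy))
    linarith
  have hexp : (vy - vx) * (vz - vy) = k * (vz - vy) - θ * (vz - vy) - e * (vz - vy) := by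
    rw [ha]; ring
  rw [hexp]
  unfold gth
  by_cases h1 : Kp / 32 < θ
  · simp only [h1, if_true]
    have := coord_pos Kp ω1 δn θ e vx vy vz k hK hK1 hd hdo ho hx hy he h1 (abs_le.1 hθ).2 ha
    linarith
  · by_cases h2 : θ < -(Kp / 32)
    · simp only [h1, h2, if_true, if_false]
      have := coord_pos Kp ω1 δn (-θ) (-e) (-vx) (-vy) (-vz) (-k) hK hK1 hd hdo ho
        (by rwa [abs_neg]) (by rwa [abs_neg]) (by rwa [abs_neg]) (by linarith)
        (by linarith [(abs_le.1 hθ).1]) (by push_cast; linarith)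
      push_cast at this
      have e1 : -vz - (1 / 2 - ω1 - -θ) = -vz - (1 / 2 - ω1 + θ) := by ring
      have e2 : -vy - (1 / 2 - ω1 - -θ) = -vy - (1 / 2 - ω1 + θ) := by ring
      have e3 : (-vy - -vx) ^ 2 = (vy - vx) ^ 2 := by ring
      rw [e1, e2, e3] at this
      linarith
    · simp only [h1, h2, if_false]
      have := coord_small Kp ω1 δn θ e vx vy vz k hK hK1 hd hdo ho hx hy hz he
        (abs_le.2 ⟨by linarith, by linarith⟩) ha
      linarith

variable {ι κ : Type} [Fintype κ]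

lemma ip_add (m : κ → ℤ) (β γ : κ → ℝ) : ip m (β + γ) = ip m β + ip m γ := by
  simp [ip, mul_add, sum_add_distrib]

lemma ip_sub (m : κ → ℤ) (β γ : κ → ℝ) : ip m (β - γ) = ip m β - ip m γ := by
  simp [ip, mul_sub, sum_sub_distrib]

lemma ip_abs_le (m : κ → ℤ) (β : κ → ℝ) (C M : ℝ) (hM : 0 ≤ M) (hC : ∑ k, |(m k : ℝ)| ≤ C)
    (hβ : ∀ k, |β k| ≤ M) : |ip m β| ≤ C * M := by
  unfold ip
  calc |∑ k, (m k : ℝ) * β k| ≤ ∑ k, |(m k : ℝ) * β k| := abs_sum_le_sum_abs _ _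
    _ ≤ ∑ k, |(m k : ℝ)| * M := by
        refine sum_le_sum fun k _ => ?_
        rw [abs_mul]
        exact mul_le_mul_of_nonneg_left (hβ k) (abs_nonneg _)
    _ = (∑ k, |(m k : ℝ)|) * M := by rw [sum_mul]
    _ ≤ C * M := mul_le_mul_of_nonneg_right hC hM

lemma ip_int (m n : κ → ℤ) : ip m (fun k => (n k : ℝ)) = ((∑ k, m k * n k : ℤ) : ℝ) := by
  simp [ip]

lemma vv_sub (s : ι → κ → ℤ) (Sp : (ι → ℝ) →ₗ[ℝ] (κ → ℝ)) (c : ι → ℝ) (x y : ι → ℤ) (j : ι) :
    vv s Sp c x j - vv s Sp c y j =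
      ((x j : ℝ) - y j) - lin s (Sp fun j => (x j : ℝ) - y j) j := by
  have h : (fun j => (x j : ℝ) - y j) =
      (fun j => (x j : ℝ) + c j) - fun j => (y j : ℝ) + c j := by
    funext j; simp
  rw [h, map_sub]
  simp only [vv, perp, lin, ip_sub]
  ring

lemma D0_nonneg {Φ : Type} [Fintype Φ] (lam : Φ → κ → ℤ) (β : κ → ℝ) : 0 ≤ D0 lam β :=
  sum_nonneg fun _ _ => by linarith [Real.cos_le_one (2 * Real.pi * ip (lam ‹_›) β)]

lemma one_sub_cos_ge (u : ℝ) : 8 * (u - round u) ^ 2 ≤ 1 - Real.cos (2 * Real.pi * u) := by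
  have h1 : Real.cos (2 * Real.pi * u) = Real.cos (2 * Real.pi * (u - round u)) := by
    have : 2 * Real.pi * (u - round u) = 2 * Real.pi * u - (round u : ℤ) * (2 * Real.pi) := by
      ring
    rw [this, Real.cos_sub_int_mul_two_pi]
  have h2 : |u - round u| ≤ 1 / 2 := abs_sub_round u
  have hpi := Real.pi_pos
  have h3 : |2 * Real.pi * (u - round u)| ≤ Real.pi := by
    rw [abs_mul, abs_of_pos (by positivity : 0 < 2 * Real.pi)]
    nlinarith
  have h4 := Real.cos_le_one_sub_mul_cos_sq h3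
  have h5 : 2 / Real.pi ^ 2 * (2 * Real.pi * (u - round u)) ^ 2 = 8 * (u - round u) ^ 2 := by
    field_simp
    ring
  rw [h1]
  linarith

lemma exp_neg_sub_le (u w : ℝ) (hu : 0 ≤ u) :
    Real.exp (-u) - Real.exp (-w) ≤ |w - u| := by
  by_cases h : w ≤ u
  · have : Real.exp (-u) ≤ Real.exp (-w) := Real.exp_le_exp.2 (by linarith)
    have := abs_nonneg (w - u)
    linarith
  · have h1 : Real.exp (-w) = Real.exp (-u) * Real.exp (-(w - u)) := by
      rw [← Real.exp_add]; congr 1; ring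
    have h2 : 1 - (w - u) ≤ Real.exp (-(w - u)) := by
      have := Real.add_one_le_exp (-(w - u))
      linarith
    have h3 : Real.exp (-u) ≤ 1 := Real.exp_le_one_iff.2 (by linarith)
    have h4 := Real.exp_pos (-u)
    have h5 : 0 ≤ w - u := by linarith
    rw [abs_of_nonneg h5, h1]
    nlinarith

lemma D0_lip {Φ : Type} [Fintype Φ] (lam : Φ → κ → ℤ) (γ b ρ : κ → ℝ) (L1 M : ℝ) (hM : 0 ≤ M)
    (hL : ∀ l, ∑ k, |(lam l k : ℝ)| ≤ L1) (hb : ∀ k, |b k| ≤ M)
    (hρ : ∀ l, ∃ n : ℤ, ip (lam l) ρ = n) :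
    |D0 lam (b + ρ + γ) - D0 lam γ| ≤ Fintype.card Φ * (2 * Real.pi * (L1 * M)) := by
  unfold D0
  rw [← sum_sub_distrib]
  refine (abs_sum_le_sum_abs _ _).trans ?_
  have : ∀ l ∈ (univ : Finset Φ), |1 - Real.cos (2 * Real.pi * ip (lam l) (b + ρ + γ)) -
      (1 - Real.cos (2 * Real.pi * ip (lam l) γ))| ≤ 2 * Real.pi * (L1 * M) := by
    intro l _
    obtain ⟨n, hn⟩ := hρ l
    have h1 : 2 * Real.pi * ip (lam l) (b + ρ + γ) =
        2 * Real.pi * (ip (lam l) b + ip (lam l) γ) + n * (2 * Real.pi) := by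
      rw [ip_add, ip_add, hn]; ring
    rw [h1, Real.cos_add_int_mul_two_pi]
    have h2 := Real.abs_cos_sub_cos_le (2 * Real.pi * ip (lam l) γ)
      (2 * Real.pi * (ip (lam l) b + ip (lam l) γ))
    have h3 : 2 * Real.pi * ip (lam l) γ - 2 * Real.pi * (ip (lam l) b + ip (lam l) γ) =
        -(2 * Real.pi * ip (lam l) b) := by ring
    have hpi := Real.pi_pos
    rw [h3, abs_neg, abs_mul, abs_of_pos (by positivity : 0 < 2 * Real.pi)] at h2
    have h4 := ip_abs_le (lam l) b L1 M hM (hL l) hb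
    have h5 : 1 - Real.cos (2 * Real.pi * (ip (lam l) b + ip (lam l) γ)) -
        (1 - Real.cos (2 * Real.pi * ip (lam l) γ)) = Real.cos (2 * Real.pi * ip (lam l) γ) -
        Real.cos (2 * Real.pi * (ip (lam l) b + ip (lam l) γ)) := by ring
    rw [h5]
    exact h2.trans (mul_le_mul_of_nonneg_left h4 (by positivity))
  refine (sum_le_sum this).trans ?_
  simp

lemma int_abs_le (k : ℤ) (θ a : ℝ) (hθ : |θ| ≤ 1 / 2) (ha : a = k - θ) :
    |(k : ℝ)| ≤ 4 * a ^ 2 := by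
  by_cases h : k = 0
  · subst h
    simp only [Int.cast_zero, abs_zero]
    positivity
  · have h1 : (1 : ℝ) ≤ |(k : ℝ)| := by
      have : 1 ≤ |k| := Int.one_le_abs h
      exact_mod_cast this
    have h2 : |(k : ℝ)| - |θ| ≤ |a| := by
      rw [ha]; exact abs_sub_abs_le_abs_sub _ _
    have h3 : |(k : ℝ)| / 2 ≤ |a| := by linarith
    have h4 : a ^ 2 = |a| ^ 2 := (sq_abs a).symm
    rw [h4]
    nlinarith

section Main

variable [Fintype ι] {Φ : Type} [Fintype Φ] {Γ : AddSubgroup (κ → ℝ)}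
  {s : ι → κ → ℤ} {Sp : (ι → ℝ) →ₗ[ℝ] (κ → ℝ)} {lam : Φ → κ → ℤ}
  {Kp ω1 δn δ0 δ1 Cn L1 m A N E1 : ℝ} {Q : ℕ} {ω : ℝ} {c : ι → ℝ}

/-- The inner product bound from typicality. -/
lemma far (H : GHyp Γ s Sp lam Kp ω1 δn δ0 δ1 Cn L1 m A N E1 Q) (x y z : ι → ℤ)
    (hx : Good ω ω1 (Kp / 32) (1 / 2 + ω1 - δn) E1 s Q (vv s Sp c x))
    (hy : Good ω ω1 (Kp / 32) (1 / 2 + ω1 - δn) E1 s Q (vv s Sp c y))
    (hz : Good ω ω1 (Kp / 32) (1 / 2 + ω1 - δn) E1 s Q (vv s Sp c z)) :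
    ∑ j, (vv s Sp c y j - vv s Sp c x j) * (vv s Sp c z j - vv s Sp c y j) ≤
      Kp / 4 * ∑ j, (vv s Sp c y j - vv s Sp c x j) ^ 2 + 2 * E1 + 2 * Fintype.card ι * δn := by
  set β : κ → ℝ := Sp fun j => (y j : ℝ) - x j with hβ
  have hQ : (0 : ℝ) < Q := by exact_mod_cast H.Q_pos
  have hg : ∀ k, ⌊(Q : ℝ) * Int.fract (β k)⌋₊ < Q := by
    intro k
    rw [Nat.floor_lt (mul_nonneg hQ.le (Int.fract_nonneg _))]
    have := Int.fract_lt_one (β k)
    nlinarith
  let g : κ → Fin Q := fun k => ⟨⌊(Q : ℝ) * Int.fract (β k)⌋₊, hg k⟩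
  let gq : κ → ℝ := fun k => ((g k : ℕ) : ℝ) / Q
  let n : κ → ℤ := fun k => ⌊β k⌋
  let err : κ → ℝ := fun k => Int.fract (β k) - gq k
  have herr : ∀ k, |err k| ≤ 1 / Q := by
    intro k
    have h1 : ((g k : ℕ) : ℝ) ≤ Q * Int.fract (β k) :=
      Nat.floor_le (mul_nonneg hQ.le (Int.fract_nonneg _))
    have h2 : (Q : ℝ) * Int.fract (β k) < ((g k : ℕ) : ℝ) + 1 := Nat.lt_floor_add_one _
    have h3 : err k = ((Q : ℝ) * Int.fract (β k) - ((g k : ℕ) : ℝ)) / Q := by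
      simp only [err, gq]
      field_simp
    rw [h3, abs_div, abs_of_pos hQ]
    refine div_le_div_of_nonneg_right ?_ hQ.le
    rw [abs_le]
    constructor <;> linarith
  have hdec : β = (fun k => (n k : ℝ)) + gq + err := by
    funext k
    simp only [n, err, Pi.add_apply]
    have := Int.floor_add_fract (β k)
    linarith
  have hj : ∀ j, (vv s Sp c y j - vv s Sp c x j) * (vv s Sp c z j - vv s Sp c y j) ≤
      Kp / 4 * (vv s Sp c y j - vv s Sp c x j) ^ 2 +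
        (gth ω1 (Kp / 32) (th s Q g j) (vv s Sp c z j) -
          gth ω1 (Kp / 32) (th s Q g j) (vv s Sp c y j)) + 2 * δn := by
    intro j
    refine coord Kp ω1 δn (th s Q g j) (ip (s j) err) _ _ _
      (y j - x j - (∑ k, s j k * n k) - round (lin s gq j)) H.Kp_pos H.Kp_le H.dn_pos H.dn_le
      H.om_le (hx.1 j) (hy.1 j) (hz.1 j) ?_ (abs_sub_round _) ?_
    · refine (ip_abs_le (s j) err Cn (1 / Q) (by positivity) (H.colsum j) herr).trans ?_
      have := H.net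
      rwa [mul_one_div]
    · rw [vv_sub, ← hβ]
      have h1 : lin s β j = ((∑ k, s j k * n k : ℤ) : ℝ) + lin s gq j + ip (s j) err := by
        rw [← ip_int]
        conv_lhs => rw [hdec]
        simp only [lin, ip_add]
      have h2 : th s Q g j = lin s gq j - round (lin s gq j) := rfl
      rw [h1, h2]
      push_cast
      ring
  have hsum := sum_le_sum fun j (_ : j ∈ (univ : Finset ι)) => hj j
  rw [sum_add_distrib, sum_add_distrib, sum_sub_distrib, ← mul_sum] at hsum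
  have h1 := abs_le.1 (hy.2 g)
  have h2 := abs_le.1 (hz.2 g)
  simp only [sum_const, card_univ, nsmul_eq_mul] at hsum
  linarith

/-- The case where the drift is close to the lattice. -/
lemma near (H : GHyp Γ s Sp lam Kp ω1 δn δ0 δ1 Cn L1 m A N E1 Q) (x y z : ι → ℤ)
    (hx : ∀ j, |vv s Sp c x j| ≤ 1 / 2 + ω1 - δn) (hy : ∀ j, |vv s Sp c y j| ≤ 1 / 2 + ω1 - δn)
    (hz : ∀ j, |vv s Sp c z j| ≤ 1 / 2 + ω1 - δn)
    (hf : Kp / 4 < Real.exp (-(N * D0 lam (Sp fun j => (x j : ℝ) - y j)))) :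
    ∑ j, (vv s Sp c y j - vv s Sp c x j) * (vv s Sp c z j - vv s Sp c y j) ≤
      Kp / 4 * ∑ j, (vv s Sp c y j - vv s Sp c x j) ^ 2 ∧
    A * (Real.exp (-(N * D0 lam (Sp fun j => (y j : ℝ) - z j))) -
      Real.exp (-(N * D0 lam (Sp fun j => (x j : ℝ) - z j)))) ≤
      Kp / 2 * ∑ j, (vv s Sp c y j - vv s Sp c x j) ^ 2 := by
  set β : κ → ℝ := Sp fun j => (x j : ℝ) - y j with hβ
  have hK := H.Kp_pos
  have hd1 := H.d1_pos
  have hN : 0 < N := lt_of_lt_of_le (by positivity) H.N_ge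
  have hlt : N * D0 lam β < 4 / Kp := by
    have h1 : N * D0 lam β + 1 ≤ Real.exp (N * D0 lam β) := Real.add_one_le_exp _
    have h2 : Real.exp (-(N * D0 lam β)) * Real.exp (N * D0 lam β) = 1 := by
      rw [← Real.exp_add]; simp
    have h3 := Real.exp_pos (N * D0 lam β)
    rw [lt_div_iff₀ hK]
    nlinarith
  have hfeat : ∀ l, |ip (lam l) β - round (ip (lam l) β)| ≤ δ1 := by
    intro l
    have h1 : 1 - Real.cos (2 * Real.pi * ip (lam l) β) ≤ D0 lam β := by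
      unfold D0
      refine single_le_sum (f := fun l => 1 - Real.cos (2 * Real.pi * ip (lam l) β))
        (fun i _ => ?_) (mem_univ l)
      linarith [Real.cos_le_one (2 * Real.pi * ip (lam i) β)]
    have h2 := one_sub_cos_ge (ip (lam l) β)
    have h3 : N * (8 * (ip (lam l) β - round (ip (lam l) β)) ^ 2) < 4 / Kp :=
      lt_of_le_of_lt (mul_le_mul_of_nonneg_left (h2.trans h1) hN.le) hlt
    have h4 := H.N_ge
    rw [div_le_iff₀ (by positivity)] at h4
    rw [lt_div_iff₀ hK] at h3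
    have h5 : (ip (lam l) β - round (ip (lam l) β)) ^ 2 ≤ δ1 ^ 2 := by
      by_contra hc
      have h6 : δ1 ^ 2 < (ip (lam l) β - round (ip (lam l) β)) ^ 2 := lt_of_not_ge hc
      have h7 : N * Kp * δ1 ^ 2 ≤ N * Kp * (ip (lam l) β - round (ip (lam l) β)) ^ 2 :=
        mul_le_mul_of_nonneg_left h6.le (by positivity)
      nlinarith
    exact abs_le_of_sq_le_sq' h5 hd1.le |> abs_le.2
  obtain ⟨ρ, hρ, hρβ⟩ := H.feat.2.2 β hfeat
  choose r hr using fun j => H.dual j ρ hρ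
  let k : ι → ℤ := fun j => x j - y j - r j
  have hb' : (Sp fun j => (k j : ℝ)) = β - ρ := by
    have h1 : (fun j => (k j : ℝ)) = (fun j => (x j : ℝ) - y j) - lin s ρ := by
      funext j
      simp only [k, lin, Pi.sub_apply, hr j]
      push_cast
      ring
    rw [h1, map_sub, H.proj.1 ρ]
  have hθ : ∀ j, |lin s (β - ρ) j| ≤ Kp / 32 := fun j =>
    (ip_abs_le (s j) (β - ρ) Cn δ0 H.d0_nonneg (H.colsum j) hρβ).trans H.d0_le
  have ha : ∀ j, vv s Sp c x j - vv s Sp c y j = k j - lin s (β - ρ) j := by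
    intro j
    rw [vv_sub, ← hβ]
    simp only [k, lin, ip_sub, hr j]
    push_cast
    ring
  constructor
  · have horth := H.proj.2.1 (fun j => (z j : ℝ) - y j) (β - ρ)
    have h1 : ∀ j, (vv s Sp c y j - vv s Sp c x j) * (vv s Sp c z j - vv s Sp c y j) ≤
        Kp / 4 * (vv s Sp c y j - vv s Sp c x j) ^ 2 +
          ((z j : ℝ) - y j - lin s (Sp fun j => (z j : ℝ) - y j) j) * lin s (β - ρ) j := by
      intro j
      have h2 := coord_small Kp ω1 δn (-lin s (β - ρ) j) 0 _ _ _ (-k j) hK H.Kp_le H.dn_pos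
        H.dn_le H.om_le (hx j) (hy j) (hz j) (by simpa using H.dn_pos.le)
        (by rw [abs_neg]; exact hθ j) (by push_cast; linarith [ha j])
      rw [← vv_sub s Sp c z y j]
      have h3 : vv s Sp c y j - vv s Sp c x j = -k j + lin s (β - ρ) j := by linarith [ha j]
      push_cast at h2
      have h4 : (vv s Sp c y j - vv s Sp c x j) * (vv s Sp c z j - vv s Sp c y j) =
          -k j * (vv s Sp c z j - vv s Sp c y j) +
            (vv s Sp c z j - vv s Sp c y j) * lin s (β - ρ) j := by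
        rw [h3]; ring
      linarith
    have hsum := sum_le_sum fun j (_ : j ∈ (univ : Finset ι)) => h1 j
    rw [sum_add_distrib, ← mul_sum, horth] at hsum
    linarith
  · set S : ℝ := ∑ j, (vv s Sp c y j - vv s Sp c x j) ^ 2 with hS
    have hS0 : 0 ≤ S := sum_nonneg fun j _ => sq_nonneg _
    have hm := H.m_pos
    have hk : ∑ j, |(k j : ℝ)| ≤ 4 * S := by
      rw [hS, mul_sum]
      refine sum_le_sum fun j _ => ?_
      have h1 := int_abs_le (k j) _ _ ((hθ j).trans (by linarith [H.Kp_le])) (ha j)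
      have h2 : (vv s Sp c x j - vv s Sp c y j) ^ 2 = (vv s Sp c y j - vv s Sp c x j) ^ 2 := by
        ring
      rwa [h2] at h1
    have hb : ∀ i, |(β - ρ) i| ≤ 2 * (4 * S) / m := by
      rw [← hb']
      refine H.proj.2.2 _ _ fun i => ?_
      refine (abs_sum_le_sum_abs _ _).trans (le_trans (sum_le_sum fun j _ => ?_) hk)
      rw [abs_mul]
      exact mul_le_of_le_one_left (abs_nonneg _) (H.ent j i)
    set γ : κ → ℝ := Sp fun j => (y j : ℝ) - z j with hγ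
    have hxz : (Sp fun j => (x j : ℝ) - z j) = β - ρ + ρ + γ := by
      have h1 : (fun j => (x j : ℝ) - z j) =
          (fun j => (x j : ℝ) - y j) + fun j => (y j : ℝ) - z j := by
        funext j; simp
      rw [h1, map_add, ← hβ, ← hγ]
      simp
    have hlip := D0_lip lam γ (β - ρ) ρ L1 (2 * (4 * S) / m) (by positivity) H.feat.2.1 hb
      fun l => H.feat.1 l ρ hρ
    rw [hxz]
    have h1 := exp_neg_sub_le (N * D0 lam γ) (N * D0 lam (β - ρ + ρ + γ))
      (mul_nonneg hN.le (D0_nonneg lam γ))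
    rw [← mul_sub, abs_mul, abs_of_pos hN] at h1
    have h2 := h1.trans (mul_le_mul_of_nonneg_left hlip hN.le)
    have h3 := mul_le_mul_of_nonneg_left h2 H.A_pos.le
    have h4 : A * (N * (Fintype.card Φ * (2 * Real.pi * (L1 * (2 * (4 * S) / m))))) =
        32 * Real.pi * A * N * Fintype.card Φ * L1 / m * (S / 2) := by
      field_simp
      ring
    have h5 := mul_le_mul_of_nonneg_right H.A_le (by positivity : 0 ≤ S / 2)
    rw [h4] at h3
    linarith

end Main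

end Tri

theorem tri_proof : TriStmt := by
  intro ι κ Φ _ _ _ _ Γ s Sp lam Kp ω1 δn δ0 δ1 Cn L1 m A N E1 Q ω c H x y z hx hy hz
  have hK := H.Kp_pos
  have hd1 := H.d1_pos
  have hA := H.A_pos
  have hN : 0 < N := lt_of_lt_of_le (by positivity) H.N_ge
  have hle : ∀ β : κ → ℝ, Real.exp (-(N * D0 lam β)) ≤ 1 := fun β =>
    Real.exp_le_one_iff.2 (by linarith [mul_nonneg hN.le (Tri.D0_nonneg lam β)])
  have e1 : ∑ j, (vv s Sp c x j - vv s Sp c z j) ^ 2 =
      ∑ j, (vv s Sp c y j - vv s Sp c x j) ^ 2 + ∑ j, (vv s Sp c y j - vv s Sp c z j) ^ 2 +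
        2 * ∑ j, (vv s Sp c y j - vv s Sp c x j) * (vv s Sp c z j - vv s Sp c y j) := by
    rw [mul_sum, ← sum_add_distrib, ← sum_add_distrib]
    exact sum_congr rfl fun j _ => by ring
  have e2 : ∑ j, (vv s Sp c x j - vv s Sp c y j) ^ 2 = ∑ j, (vv s Sp c y j - vv s Sp c x j) ^ 2 :=
    sum_congr rfl fun j _ => by ring
  have hS0 : 0 ≤ ∑ j, (vv s Sp c y j - vv s Sp c x j) ^ 2 := sum_nonneg fun j _ => sq_nonneg _
  unfold rho
  rw [e1, e2]
  have ha := hle (Sp fun j => (x j : ℝ) - y j)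
  have hb := hle (Sp fun j => (y j : ℝ) - z j)
  have hc := Real.exp_pos (-(N * D0 lam (Sp fun j => (x j : ℝ) - z j)))
  by_cases hf : Kp / 4 < Real.exp (-(N * D0 lam (Sp fun j => (x j : ℝ) - y j)))
  · obtain ⟨h1, h2⟩ := Tri.near (c := c) H x y z hx.1 hy.1 hz.1 hf
    have h3 := mul_nonneg hA.le (sub_nonneg.2 ha)
    have h4 := mul_nonneg hK.le h3
    nlinarith
  · have h1 := Tri.far H x y z hx hy hz
    have h2 := H.A_ge
    have hf' := le_of_not_gt hf
    have h3 := mul_le_mul_of_nonneg_left hf' hA.le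
    have h4 := mul_le_mul_of_nonneg_left hb hA.le
    have h5 := mul_pos hA hc
    have h6 := mul_le_mul_of_nonneg_left h3 hK.le
    have h7 : Kp * (A * (Kp / 4)) ≤ Kp * A / 4 := by
      have := mul_le_mul_of_nonneg_left H.Kp_le (mul_pos hK hA).le
      nlinarith
    have h8 := mul_nonneg hK.le hS0
    have h9 := mul_pos hK hA
    nlinarith

end Vale.Agent.P318.M
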