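import Vale.Agent.P318.M.Bit
import Vale.Agent.P318.M.Block
import Vale.Agent.P318.M.Chernoff
import Vale.Agent.P318.M.Columns
import Vale.Agent.P318.M.Deriv
import Vale.Agent.P318.M.Final
import Vale.Agent.P318.M.Fourier
import Vale.Agent.P318.M.Gap
import Vale.Agent.P318.M.Gauss
import Vale.Agent.P318.M.Good
import Vale.Agent.P318.M.Inst
import Vale.Agent.P318.M.Lattice
import Vale.Agent.P318.M.LinAlg
import Vale.Agent.P318.M.Line
import Vale.Agent.P318.M.Metric
import Vale.Agent.P318.M.Model
import Vale.Agent.P318.M.Near
import Vale.Agent.P318.M.Neg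
import Vale.Agent.P318.M.Noised
import Vale.Agent.P318.M.Pair
import Vale.Agent.P318.M.Poincare
import Vale.Agent.P318.M.Ramp
import Vale.Agent.P318.M.Reduce
import Vale.Agent.P318.M.Rho
import Vale.Agent.P318.M.TV
import Vale.Agent.P318.M.Torus
import Vale.Agent.P318.M.Tri

/-! Assembly of track A: all parts of the blueprint `M/Stmt` put together. -/

namespace Vale.Agent.P318.M

theorem inst_all : InstStmt := by
  have hR := ramp_proof
  have hT := torus_proof
  have hB := bit_proof
  have hG := gauss_proof
  have hD := deriv_proof hR hB
  have hF := fourier_proof hR hB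
  have hL := line_proof hT hG
  have hPa := pair_proof hB
  have hNe := near_proof hR hT hG hPa hD
  have hBl := block_proof hR hT hG hL hD hNe
  have hTV := tv_proof hR hT hG hD
  have hNo := noised_proof hR hT hB hD hF
  have hP := poincare_proof hR hT hD hF hNo hBl hTV
  have hC := chernoff_proof' hR
  have hN := neg_proof
  exact inst_proof hP linalg_proof lattice_proof columns_proof (good_proof hR hC)
    (metric_proof hR hT hB hD tri_proof hN (rho_proof hN)) (model_proof hR hB hD reduce_proof')

theorem final_all : FinalStmt := final_proof inst_all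

end Vale.Agent.P318.M
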