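import Mathlib
import Vale.Agent.P318.Defs

/-!
Definitions for the lattice-window construction (lower bound for the uniform
Goemans-Linial gap).  Only used inside the proof.
-/

namespace Vale.Agent.P318.M

open Finset MeasureTheory ProbabilityTheory

noncomputable section

/-- Indicator of a proposition. -/
def ind (P : Prop) : ℝ := @ite ℝ P (Classical.propDecidable P) 1 0

/-! ### The window -/

/-- `C^1` ramp from `0` (for `x ≤ 0`) to `1` (for `x ≥ 1`). -/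
def ramp (x : ℝ) : ℝ :=
  2 * (max x 0) ^ 2 - 4 * (max (x - 1 / 2) 0) ^ 2 + 2 * (max (x - 1) 0) ^ 2

/-- A quarter of the derivative of `ramp`. -/
def tent (x : ℝ) : ℝ := max (min x (1 - x)) 0

def pos (ω y : ℝ) : ℝ := (Int.fract y - 1 / 2 + ω) / (2 * ω)

/-- Probability that the bit at offset `y` is `true`. -/
def pr (ω y : ℝ) : ℝ := ramp (pos ω y)

def ee (ω y : ℝ) : ℝ := tent (pos ω y)

/-- Derivative of `pr ω` (away from the integers). -/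
def dpr (ω y : ℝ) : ℝ := 2 * ee ω y / ω

def pq (ω y : ℝ) : ℝ := pr ω y * (1 - pr ω y)

/-- `dpr` cut off near the ends of the window. -/
def psi (ω e3 y : ℝ) : ℝ := if e3 ≤ ee ω y then dpr ω y else 0

/-- Mean of `φ z` when the offset is uniform and `z = fract y - bit`. -/
def zmean (ω : ℝ) (φ : ℝ → ℝ) : ℝ :=
  ∫ t in (0 : ℝ)..1, ((1 - pr ω t) * φ (Int.fract t) + pr ω t * φ (Int.fract t - 1))

/-! ### Bits -/

section Bits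

variable {ι : Type} [Fintype ι] [DecidableEq ι]

def bit (b : Bool) : ℝ := if b then 1 else 0

def wt1 (p : ℝ) (b : Bool) : ℝ := if b then p else 1 - p

def wt (p : ι → ℝ) (b : ι → Bool) : ℝ := ∏ i, wt1 (p i) (b i)

/-- Expectation for independent bits with `P(b i = true) = p i`. -/
def Eb (p : ι → ℝ) (F : (ι → Bool) → ℝ) : ℝ := ∑ b, wt p b * F b

def Dd (j : ι) (F : (ι → Bool) → ℝ) (b : ι → Bool) : ℝ :=
  F (Function.update b j true) - F (Function.update b j false)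

/-- The integer point with offset `y` and bits `b`. -/
def pt (y : ι → ℝ) (b : ι → Bool) : ι → ℤ := fun i => -⌊y i⌋ - if b i then 1 else 0

/-- The position `z = x + y` in the window. -/
def zz (y : ι → ℝ) (b : ι → Bool) : ι → ℝ := fun i => (pt y b i : ℝ) + y i

def py (ω : ℝ) (y : ι → ℝ) : ι → ℝ := fun i => pr ω (y i)

def Ey (ω : ℝ) (h : (ι → ℤ) → ℝ) (y : ι → ℝ) : ℝ := Eb (py ω y) fun b => h (pt y b)

def c1 (ω : ℝ) (h : (ι → ℤ) → ℝ) (j : ι) (y : ι → ℝ) : ℝ :=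
  Eb (py ω y) (Dd j fun b => h (pt y b))

def c2 (ω : ℝ) (h : (ι → ℤ) → ℝ) (j j' : ι) (y : ι → ℝ) : ℝ :=
  Eb (py ω y) (Dd j' (Dd j fun b => h (pt y b)))

def inf1 (ω : ℝ) (h : (ι → ℤ) → ℝ) (j : ι) (y : ι → ℝ) : ℝ :=
  Eb (py ω y) fun b => |Dd j (fun b' => h (pt y b')) b|

def W1 (ω : ℝ) (J : Finset ι) (h : (ι → ℤ) → ℝ) (y : ι → ℝ) : ℝ :=
  ∑ j ∈ J, pq ω (y j) * c1 ω h j y ^ 2

def W2 (ω : ℝ) (J : Finset ι) (h : (ι → ℤ) → ℝ) (y : ι → ℝ) : ℝ :=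
  ∑ j ∈ J, ∑ j' ∈ J.erase j, pq ω (y j) * pq ω (y j') * c2 ω h j j' y ^ 2

/-- Total influence of the coordinates of `J`, weighted by `dpr`. -/
def Inf (ω : ℝ) (J : Finset ι) (h : (ι → ℤ) → ℝ) (y : ι → ℝ) : ℝ :=
  ∑ j ∈ J, dpr ω (y j) * inf1 ω h j y

/-- `h` has values in `[0,1]`. -/
def U01 {α : Type} (h : α → ℝ) : Prop := ∀ x, 0 ≤ h x ∧ h x ≤ 1

/-- Coefficient of `∏ i ∈ S, (b i - p i)` in `F`. -/
def coef (p : ι → ℝ) (F : (ι → Bool) → ℝ) (S : Finset ι) : ℝ :=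
  ∑ a, F a * ∏ i, if i ∈ S then (if a i then (1 : ℝ) else -1) else wt1 (p i) (a i)

/-- Fourier weight of `S` for the function `h` at offset `y`. -/
def fw (ω : ℝ) (h : (ι → ℤ) → ℝ) (S : Finset ι) (y : ι → ℝ) : ℝ :=
  (∏ i ∈ S, pq ω (y i)) * coef (py ω y) (fun b => h (pt y b)) S ^ 2

def Q1 (ω ρ : ℝ) (J : Finset ι) (h : (ι → ℤ) → ℝ) (y : ι → ℝ) : ℝ :=
  ∑ S : Finset ι, if (S ∩ J).card = 1 then fw ω h S y * ρ ^ (2 * (S.card - 1)) else 0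

def Q2 (ω ρ : ℝ) (J : Finset ι) (h : (ι → ℤ) → ℝ) (y : ι → ℝ) : ℝ :=
  ∑ S : Finset ι, if (S ∩ J).card = 2 then 2 * fw ω h S y * ρ ^ (2 * (S.card - 2)) else 0

/-- `f` with noise on the coordinates outside `J` (started from the bits `b` at offset `y`),
as a function of the coordinates in `J`. -/
def noised (ω ρ : ℝ) (J : Finset ι) (f : (ι → ℤ) → ℝ) (y : ι → ℝ) (b : ι → Bool)
    (x : ι → ℤ) : ℝ :=
  ∑ a : ι → Bool,
    (∏ i, if i ∈ J then (if a i then (0 : ℝ) else 1)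
      else ρ * (if a i = b i then 1 else 0) + (1 - ρ) * wt1 (pr ω (y i)) (a i)) *
    f fun i => if i ∈ J then x i else pt y a i

end Bits

/-! ### The torus -/

section Torus

variable {κ : Type} [Fintype κ]

/-- Lebesgue measure on the unit cube. -/
def cube (κ : Type) [Fintype κ] : Measure (κ → ℝ) :=
  volume.restrict (Set.univ.pi fun _ : κ => Set.Ioc (0 : ℝ) 1)

instance cube_prob (κ : Type) [Fintype κ] : IsProbabilityMeasure (cube κ) := by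
  constructor
  simp [cube, volume_pi_pi]

/-- Mean over the unit cube. -/
def tm (F : (κ → ℝ) → ℝ) : ℝ := ∫ β, F β ∂cube κ

def Per (F : (κ → ℝ) → ℝ) : Prop := ∀ (β : κ → ℝ) (n : κ → ℤ), F (β + fun k => (n k : ℝ)) = F β

/-- Bounded and measurable. -/
def BM {α : Type} [MeasurableSpace α] (F : α → ℝ) : Prop :=
  Measurable F ∧ ∃ C, ∀ x, |F x| ≤ C

def ip (m : κ → ℤ) (β : κ → ℝ) : ℝ := ∑ k, (m k : ℝ) * β k

def ch (x : ℝ) : ℂ := Complex.exp (2 * Real.pi * Complex.I * x)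

/-- Fourier coefficient. -/
def fc (F : (κ → ℝ) → ℝ) (m : κ → ℤ) : ℂ := ∫ β, ch (-ip m β) * (F β : ℂ) ∂cube κ

def nsq (V : κ → ℝ) : ℝ := ∑ k, V k ^ 2

/-- Centered Gaussian vector with independent coordinates of variance `σ^2`. -/
def gm (κ : Type) [Fintype κ] (σ : ℝ) : Measure (κ → ℝ) :=
  Measure.pi fun _ : κ => gaussianReal 0 (Real.toNNReal (σ ^ 2))

instance gm_prob (κ : Type) [Fintype κ] (σ : ℝ) : IsProbabilityMeasure (gm κ σ) := by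
  unfold gm; infer_instance

def chi (ε u : ℝ) : ℝ := Real.exp (-u ^ 2 / (2 * ε ^ 2))

/-- Fourier multiplier of the weighted Gaussian move. -/
def kap (σ ε : ℝ) (s m : κ → ℤ) : ℂ := ∫ ξ, (chi ε (ip s ξ) : ℂ) * ch (-ip m ξ) ∂gm κ σ

def k0 (W ε : ℝ) : ℝ := 1 / Real.sqrt (1 + W ^ 2 / ε ^ 2)

def bb (W ε : ℝ) : ℝ := 2 * Real.pi ^ 2 / (1 / ε ^ 2 + 1 / W ^ 2)

def A0 (W ε : ℝ) : ℝ := ∑' i : ℤ, k0 W ε * Real.exp (-(bb W ε * (i : ℝ) ^ 2))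

def A1 (W ε : ℝ) : ℝ := ∑' i : ℤ, |(i : ℝ)| * (k0 W ε * Real.exp (-(bb W ε * (i : ℝ) ^ 2)))

/-- `m` lies in the dual lattice of `Γ`. -/
def Dual (Γ : AddSubgroup (κ → ℝ)) (m : κ → ℤ) : Prop := ∀ ρ ∈ Γ, ∃ n : ℤ, ip m ρ = n

/-- `Γ` contains the integer vectors and its dual has no nonzero vector of squared length `< sh`. -/
def Lat (Γ : AddSubgroup (κ → ℝ)) (sh : ℝ) : Prop :=
  (∀ n : κ → ℤ, (fun k => (n k : ℝ)) ∈ Γ) ∧
    ∀ m : κ → ℤ, Dual Γ m → m = 0 ∨ sh ≤ ∑ k, (m k : ℝ) ^ 2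

def PM (s : κ → ℤ) : Prop := ∀ k, s k = 1 ∨ s k = -1

variable {ι : Type} [Fintype ι] [DecidableEq ι]

/-- `lin s β = S^T β` where `s j` is the column of coordinate `j`. -/
def lin (s : ι → κ → ℤ) (β : κ → ℝ) : ι → ℝ := fun j => ip (s j) β

/-- `h` is invariant under the integer vectors `S^T ρ`, `ρ ∈ Γ`. -/
def Inv (Γ : AddSubgroup (κ → ℝ)) (s : ι → κ → ℤ) (h : (ι → ℤ) → ℝ) : Prop :=
  ∀ ρ ∈ Γ, ∀ r : ι → ℤ, (∀ j, (r j : ℝ) = lin s ρ j) → ∀ x, h (x + r) = h x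

/-- Every `S^T V` (on `J`) is the sum of a vector with small `ℓ2` norm and a vector with small
entries. -/
def Split (J : Finset ι) (s : ι → κ → ℤ) (C1 C2 : ℝ) : Prop :=
  ∀ V : κ → ℝ, ∃ M1 M2 : ι → ℝ, (∀ j ∈ J, ip (s j) V = M1 j + M2 j) ∧
    ∑ j ∈ J, M1 j ^ 2 ≤ C1 * nsq V ∧ ∀ j, M2 j ^ 2 ≤ C2 * nsq V

/-- Vectors in the kernel of `S` (on `J`) are spread. -/
def Ksh (J : Finset ι) (s : ι → κ → ℤ) (Kc : ℝ) : Prop :=
  ∀ d : ι → ℝ, (∀ k, ∑ j ∈ J, d j * (s j k : ℝ) = 0) →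
    ∑ j ∈ J, d j ^ 2 ≤ Kc * (∑ j ∈ J, |d j|) ^ 2

/-! ### Geometry -/

/-- `Sp` is the pseudo-inverse of `lin s`, with a sup-norm bound. -/
def Proj (s : ι → κ → ℤ) (Sp : (ι → ℝ) →ₗ[ℝ] (κ → ℝ)) (m : ℝ) : Prop :=
  (∀ β, Sp (lin s β) = β) ∧
  (∀ z β, ∑ j, (z j - lin s (Sp z) j) * lin s β j = 0) ∧
  ∀ (z : ι → ℝ) (M : ℝ), (∀ k, |∑ j, (s j k : ℝ) * z j| ≤ M) → ∀ k, |Sp z k| ≤ 2 * M / m

/-- Projection of `z` to the orthogonal complement of the range of `lin s`. -/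
def perp (s : ι → κ → ℤ) (Sp : (ι → ℝ) →ₗ[ℝ] (κ → ℝ)) (z : ι → ℝ) : ι → ℝ :=
  fun j => z j - lin s (Sp z) j

def vv (s : ι → κ → ℤ) (Sp : (ι → ℝ) →ₗ[ℝ] (κ → ℝ)) (c : ι → ℝ) (x : ι → ℤ) : ι → ℝ :=
  perp s Sp fun j => (x j : ℝ) + c j

def D0 {Φ : Type} [Fintype Φ] (lam : Φ → κ → ℤ) (β : κ → ℝ) : ℝ :=
  ∑ l, (1 - Real.cos (2 * Real.pi * ip (lam l) β))

/-- The squared Euclidean distance before the snowflake. -/
def rho {Φ : Type} [Fintype Φ] (s : ι → κ → ℤ) (Sp : (ι → ℝ) →ₗ[ℝ] (κ → ℝ)) (c : ι → ℝ)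
    (lam : Φ → κ → ℤ) (A N : ℝ) (x x' : ι → ℤ) : ℝ :=
  ∑ j, (vv s Sp c x j - vv s Sp c x' j) ^ 2 +
    A * (1 - Real.exp (-(N * D0 lam (Sp fun j => (x j : ℝ) - x' j))))

/-- Potential used for typicality. -/
def gth (ω1 θ0 θ t : ℝ) : ℝ :=
  (if θ0 < θ then max (t - (1 / 2 - ω1 - θ)) 0
    else if θ < -θ0 then max (-t - (1 / 2 - ω1 + θ)) 0 else 0) - θ * t

/-- Centered fractional parts of the drift at the net point `g / Q`. -/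
def th (s : ι → κ → ℤ) (Q : ℕ) (g : κ → Fin Q) (j : ι) : ℝ :=
  lin s (fun k => ((g k : ℕ) : ℝ) / Q) j - round (lin s (fun k => ((g k : ℕ) : ℝ) / Q) j)

def Mg (ω ω1 θ0 : ℝ) (s : ι → κ → ℤ) (Q : ℕ) (g : κ → Fin Q) : ℝ :=
  ∑ j, zmean ω (gth ω1 θ0 (th s Q g j))

/-- Good vertices (a property of the vector `vv`). -/
def Good (ω ω1 θ0 τ E1 : ℝ) (s : ι → κ → ℤ) (Q : ℕ) (v : ι → ℝ) : Prop :=
  (∀ j, |v j| ≤ τ) ∧
    ∀ g : κ → Fin Q, |∑ j, gth ω1 θ0 (th s Q g j) (v j) - Mg ω ω1 θ0 s Q g| ≤ E1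

/-- Very good samples (a property of the position `zz`). -/
def VG (ω ω1 θ0 E0 : ℝ) (s : ι → κ → ℤ) (Q : ℕ) (z : ι → ℝ) : Prop :=
  (∀ k, |∑ j, (s j k : ℝ) * z j| ≤ E0) ∧
    ∀ g : κ → Fin Q, |∑ j, gth ω1 θ0 (th s Q g j) (z j) - Mg ω ω1 θ0 s Q g| ≤ E0

/-- The features `lam` detect the points far from `Γ`. -/
def Feat {Φ : Type} (Γ : AddSubgroup (κ → ℝ)) (lam : Φ → κ → ℤ) (L1 δ1 δ0 : ℝ) : Prop :=
  (∀ l, Dual Γ (lam l)) ∧ (∀ l, ∑ k, |(lam l k : ℝ)| ≤ L1) ∧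
    ∀ β : κ → ℝ, (∀ l, |ip (lam l) β - round (ip (lam l) β)| ≤ δ1) →
      ∃ ρ ∈ Γ, ∀ k, |β k - ρ k| ≤ δ0

/-- Hypotheses of the near triangle inequality. -/
structure GHyp {Φ : Type} [Fintype Φ] (Γ : AddSubgroup (κ → ℝ)) (s : ι → κ → ℤ)
    (Sp : (ι → ℝ) →ₗ[ℝ] (κ → ℝ)) (lam : Φ → κ → ℤ)
    (Kp ω1 δn δ0 δ1 Cn L1 m A N E1 : ℝ) (Q : ℕ) : Prop where
  proj : Proj s Sp m
  m_pos : 0 < m
  dual : ∀ j, Dual Γ (s j)
  ent : ∀ j k, |(s j k : ℝ)| ≤ 1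
  colsum : ∀ j, ∑ k, |(s j k : ℝ)| ≤ Cn
  feat : Feat Γ lam L1 δ1 δ0
  L1_nonneg : 0 ≤ L1
  Kp_pos : 0 < Kp
  Kp_le : Kp ≤ 1
  dn_pos : 0 < δn
  dn_le : δn ≤ ω1
  om_le : ω1 ≤ Kp ^ 3 / 32768
  Q_pos : 0 < Q
  net : Cn / Q ≤ δn
  d0_nonneg : 0 ≤ δ0
  d0_le : Cn * δ0 ≤ Kp / 32
  d1_pos : 0 < δ1
  N_ge : 1 / (2 * Kp * δ1 ^ 2) ≤ N
  A_pos : 0 < A
  A_le : 32 * Real.pi * A * N * Fintype.card Φ * L1 / m ≤ Kp
  A_ge : 4 * E1 + 4 * Fintype.card ι * δn ≤ Kp * A / 4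

end Torus

/-- Conditionally negative definite kernels. -/
def CND {X : Type} (ρ : X → X → ℝ) : Prop :=
  (∀ x, ρ x x = 0) ∧ (∀ x y, ρ x y = ρ y x) ∧
    ∀ (n : ℕ) (x : Fin n → X) (a : Fin n → ℝ), ∑ i, a i = 0 →
      ∑ i, ∑ j, a i * a j * ρ (x i) (x j) ≤ 0

/-! ### Blocks -/

section Blocks

variable {ι A Vb K : Type} [DecidableEq A] [DecidableEq Vb]

/-- Columns of the block `J = (layer, label)`: zero outside the block. -/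
def bcol (π : A → ι → Vb) (s : A → ι → K → ℤ) (J : A × Vb) : ι → K → ℤ :=
  fun j k => if π J.1 j = J.2 then s J.1 j k else 0

/-- Columns of the whole matrix. -/
def tcol (π : A → ι → Vb) (s : A → ι → K → ℤ) : ι → (A × Vb) × K → ℤ :=
  fun j Jk => bcol π s Jk.1 j Jk.2

/-- The coordinates of the block `J`. -/
def blk [Fintype ι] (π : A → ι → Vb) (J : A × Vb) : Finset ι := univ.filter fun j => π J.1 j = J.2

/-- Product of copies of `Γ`, one for each block. -/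
def tlat (B : Type) (Γ : AddSubgroup (K → ℝ)) : AddSubgroup (B × K → ℝ) where
  carrier := {ρ | ∀ J : B, (fun k => ρ (J, k)) ∈ Γ}
  add_mem' := fun ha hb J => Γ.add_mem (ha J) (hb J)
  zero_mem' := fun _ => Γ.zero_mem
  neg_mem' := fun ha J => Γ.neg_mem (ha J)

end Blocks

end

end Vale.Agent.P318.M
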