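import Vale.Agent.P318.M.Stmt

/-!
Structural facts on the block matrix, used for the instances.
-/

namespace Vale.Agent.P318.M

open Finset

namespace Inst

section Blk

variable {B K Φ : Type} [Fintype B] [DecidableEq B] [Fintype K]

omit [DecidableEq B] in
lemma ip_block (f : B → K → ℤ) (ρ : B × K → ℝ) :
    ip (fun x : B × K => f x.1 x.2) ρ = ∑ J, ip (f J) fun k => ρ (J, k) := by
  simp [ip, Fintype.sum_prod_type]

omit [DecidableEq B] in
lemma dual_block (Γ : AddSubgroup (K → ℝ)) (f : B → K → ℤ) (h : ∀ J, Dual Γ (f J)) :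
    Dual (tlat B Γ) fun x : B × K => f x.1 x.2 := fun ρ hρ => by
  choose n hn using fun J => h J _ (hρ J)
  exact ⟨∑ J, n J, by rw [ip_block]; simp [hn]⟩

lemma dual_ite (Γ : AddSubgroup (K → ℝ)) {s : K → ℤ} (h : Dual Γ s) (P : Prop) [Decidable P] :
    Dual Γ fun k => if P then s k else 0 := by
  split_ifs
  · exact h
  · exact fun ρ _ => ⟨0, by simp [ip]⟩

/-- The features of one block, placed in every block. -/
def lamt (B : Type) [DecidableEq B] (lam : Φ → K → ℤ) (l : B × Φ) (x : B × K) : ℤ :=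
  if x.1 = l.1 then lam l.2 x.2 else 0

lemma ip_lamt (lam : Φ → K → ℤ) (l : B × Φ) (β : B × K → ℝ) :
    ip (lamt B lam l) β = ip (lam l.2) fun k => β (l.1, k) := by
  simp [ip, lamt, Fintype.sum_prod_type, ite_mul, Finset.sum_ite_irrel]

lemma feat_lamt {Γ : AddSubgroup (K → ℝ)} {lam : Φ → K → ℤ} {L1 δ1 δ0 : ℝ}
    (h : Feat Γ lam L1 δ1 δ0) : Feat (tlat B Γ) (lamt B lam) L1 δ1 δ0 := by
  refine ⟨fun l => dual_block Γ (fun J k => if J = l.1 then lam l.2 k else 0)
    fun J => dual_ite Γ (h.1 _) _, fun l => ?_, fun β hβ => ?_⟩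
  · refine le_of_eq_of_le ?_ (h.2.1 l.2)
    simp [lamt, Fintype.sum_prod_type, apply_ite, Finset.sum_ite_irrel]
  · choose ρ h1 h2 using fun J => h.2.2 (fun k => β (J, k)) fun l => by
      have := hβ (J, l)
      rwa [ip_lamt] at this
    exact ⟨fun x => ρ x.1 x.2, h1, fun x => h2 x.1 x.2⟩

end Blk

section Col

variable {ι A Vb K : Type} [Fintype ι] [DecidableEq ι] [Fintype A] [DecidableEq A] [Fintype Vb]
  [DecidableEq Vb] [Fintype K] {π : A → ι → Vb} {s : A → ι → K → ℤ}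

omit [Fintype K] in
lemma pm_abs {t : K → ℤ} (h : PM t) (k : K) : |(t k : ℝ)| = 1 := by
  rcases h k with e | e <;> simp [e]

omit [Fintype K] in
lemma pm_sq {t : K → ℤ} (h : PM t) (k : K) : (t k : ℝ) ^ 2 = 1 := by
  rcases h k with e | e <;> simp [e]

omit [Fintype ι] [DecidableEq ι] [DecidableEq A] in
lemma tcol_dual {Γ : AddSubgroup (K → ℝ)} (h : ∀ a j, Dual Γ (s a j)) (j : ι) :
    Dual (tlat (A × Vb) Γ) (tcol π s j) :=
  dual_block Γ (fun J => bcol π s J j) fun _ => dual_ite Γ (h _ _) _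

omit [Fintype ι] [DecidableEq ι] [DecidableEq A] [Fintype A] [Fintype Vb] [Fintype K] in
lemma tcol_abs (h : ∀ a j, PM (s a j)) (j : ι) (x : (A × Vb) × K) :
    |(tcol π s j x : ℝ)| = if π x.1.1 j = x.1.2 then 1 else 0 := by
  simp only [tcol, bcol]
  split_ifs
  · exact pm_abs (h _ _) _
  · simp

omit [Fintype ι] [DecidableEq ι] [DecidableEq A] [Fintype A] [Fintype Vb] [Fintype K] in
lemma tcol_ent (h : ∀ a j, PM (s a j)) (j : ι) (x : (A × Vb) × K) : |(tcol π s j x : ℝ)| ≤ 1 := by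
  rw [tcol_abs h]
  split_ifs <;> norm_num

omit [Fintype ι] [DecidableEq ι] [DecidableEq A] in
lemma tcol_sum (h : ∀ a j, PM (s a j)) (j : ι) :
    ∑ x, |(tcol π s j x : ℝ)| = Fintype.card A * Fintype.card K := by
  have e : ∀ a v, ∑ k : K, |(tcol π s j ((a, v), k) : ℝ)| =
      if π a j = v then (Fintype.card K : ℝ) else 0 := fun a v => by
    simp only [tcol_abs h]
    split_ifs <;> simp
  simp only [Fintype.sum_prod_type, e]
  simp

omit [DecidableEq ι] [DecidableEq A] [Fintype A] [Fintype Vb] [Fintype K] in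
lemma tcol_sq (h : ∀ a j, PM (s a j)) (x : (A × Vb) × K) :
    ∑ j, (tcol π s j x : ℝ) ^ 2 = (blk π x.1).card := by
  simp only [← sq_abs (tcol π s _ x : ℝ), tcol_abs h, blk]
  simp

omit [Fintype ι] [DecidableEq ι] [DecidableEq A] [Fintype A] [Fintype Vb] [Fintype K] in
lemma tcol_pm [Nonempty A] [Nonempty K] (h : ∀ a j, PM (s a j)) (j : ι) :
    ∃ x, tcol π s j x = 1 ∨ tcol π s j x = -1 := by
  obtain ⟨a⟩ := ‹Nonempty A›
  obtain ⟨k⟩ := ‹Nonempty K›
  exact ⟨((a, π a j), k), by simpa [tcol, bcol] using h a j k⟩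

omit [DecidableEq ι] [DecidableEq A] [Fintype A] [Fintype Vb] [Fintype K] in
lemma bcol_mem {J : A × Vb} {j : ι} (hj : j ∈ blk π J) : bcol π s J j = s J.1 j := by
  funext k
  simp only [blk, mem_filter] at hj
  simp [bcol, hj.2]

omit [Fintype ι] [DecidableEq ι] [Fintype K] in
lemma ksh_mono {J : Finset ι} {t : ι → K → ℤ} {a b : ℝ} (h : Ksh J t a) (hab : a ≤ b) :
    Ksh J t b := fun d hd => (h d hd).trans (by gcongr)

end Col

end Inst

end Vale.Agent.P318.M
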