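import Vale.Agent.P318.M.Defs

/-!
Statements of the parts of the proof of `g(N) ≥ (log N)^c`.  Every part is a `Prop`; a part is
proved as `theorem x_proof (h1 : AStmt) (h2 : BStmt) : XStmt`.
-/

namespace Vale.Agent.P318.M

open Finset MeasureTheory ProbabilityTheory

/-- Facts on the window. -/
structure RampAt (ω : ℝ) : Prop where
  pr_nonneg : ∀ y, 0 ≤ pr ω y
  pr_le : ∀ y, pr ω y ≤ 1
  ee_nonneg : ∀ y, 0 ≤ ee ω y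
  ee_le : ∀ y, ee ω y ≤ 1 / 2
  sq_le_pq : ∀ y, ee ω y ^ 2 ≤ pq ω y
  pq_le_sq : ∀ y, pq ω y ≤ 2 * ee ω y ^ 2
  pq_nonneg : ∀ y, 0 ≤ pq ω y
  pq_le : ∀ y, pq ω y ≤ 1 / 4
  dpr_nonneg : ∀ y, 0 ≤ dpr ω y
  dpr_le : ∀ y, dpr ω y ≤ 1 / ω
  dpr_sq_le : ∀ y, dpr ω y ^ 2 ≤ 4 / ω ^ 2 * pq ω y
  pq_le_dpr : ∀ y, pq ω y ≤ dpr ω y
  pr_per : ∀ y (n : ℤ), pr ω (y + n) = pr ω y
  ee_per : ∀ y (n : ℤ), ee ω (y + n) = ee ω y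
  dpr_per : ∀ y (n : ℤ), dpr ω (y + n) = dpr ω y
  pq_per : ∀ y (n : ℤ), pq ω (y + n) = pq ω y
  psi_per : ∀ e3 y (n : ℤ), psi ω e3 (y + n) = psi ω e3 y
  pr_meas : Measurable (pr ω)
  ee_meas : Measurable (ee ω)
  dpr_meas : Measurable (dpr ω)
  pq_meas : Measurable (pq ω)
  psi_meas : ∀ e3, Measurable (psi ω e3)
  ee_supp : ∀ y, 0 < ee ω y → |Int.fract y - 1 / 2| < ω
  pr_ne_zero : ∀ y, pr ω y ≠ 0 → 1 / 2 - ω < Int.fract y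
  pr_ne_one : ∀ y, pr ω y ≠ 1 → Int.fract y < 1 / 2 + ω
  int_dpr : ∫ t in (0 : ℝ)..1, dpr ω t = 1
  int_win : ∫ t in (0 : ℝ)..1, ind (0 < ee ω t) ≤ 2 * ω
  int_ends : ∀ e3, 0 < e3 → ∫ t in (0 : ℝ)..1, ind (0 < ee ω t ∧ ee ω t < e3) ≤ 4 * ω * e3
  int_psi : ∀ e3, 0 < e3 → 1 - 4 * e3 ≤ ∫ t in (0 : ℝ)..1, psi ω e3 t
  zmean_id : zmean ω (fun z => z) = 0
  ratio : ∀ y u r e3, 0 < e3 → e3 ≤ 1 / 2 → |u| < 1 / 2 → 0 < ee ω y → e3 ≤ ee ω (y + u) →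
    0 ≤ r → r ≤ 1 → ⌊y + r * u⌋ = ⌊y⌋ ∧ pq ω y ≤ 1 / (2 * e3 ^ 2) * pq ω (y + r * u)

def RampStmt : Prop :=
  (∀ x, HasDerivAt ramp (4 * tent x) x) ∧ ∀ ω : ℝ, 0 < ω → ω ≤ 1 / 8 → RampAt ω

/-- Shift invariance, Parseval, support of the Fourier coefficients, one-dimensional marginals. -/
def TorusStmt : Prop :=
  ∀ (κ : Type) [Fintype κ],
    (∀ F : (κ → ℝ) → ℝ, Per F → BM F → ∀ ξ : κ → ℝ, tm (fun β : κ → ℝ => F (β + ξ)) = tm F) ∧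
    (∀ F G : (κ → ℝ) → ℝ, Per F → BM F → Per G → BM G → ∀ ξ : κ → ℝ,
      HasSum (fun m : κ → ℤ => fc F m * (starRingEnd ℂ) (fc G m) * ch (-ip m ξ))
        ((tm fun β => F β * G (β + ξ) : ℝ) : ℂ)) ∧
    (∀ F : (κ → ℝ) → ℝ, Per F → BM F →
      HasSum (fun m : κ → ℤ => ‖fc F m‖ ^ 2) (tm fun β => F β ^ 2)) ∧
    (∀ F : (κ → ℝ) → ℝ, Per F → BM F → ∀ (ρ : κ → ℝ) (m : κ → ℤ), (∀ β, F (β + ρ) = F β) →
      (¬ ∃ n : ℤ, ip m ρ = n) → fc F m = 0) ∧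
    (∀ (φ : ℝ → ℝ) (s : κ → ℤ) (k : κ) (t : ℝ), BM φ → (∀ x (n : ℤ), φ (x + n) = φ x) →
      (s k = 1 ∨ s k = -1) → tm (fun β => φ (t + ip s β)) = ∫ x in (0 : ℝ)..1, φ x)

/-- Gaussian moves. -/
def GaussStmt : Prop :=
  (∀ (κ : Type) [Fintype κ] (σ : ℝ),
    (∀ x : κ → ℝ, ∫ ξ, ch (∑ k, x k * ξ k) ∂gm κ σ =
      (Real.exp (-(2 * Real.pi ^ 2 * σ ^ 2 * nsq x)) : ℝ)) ∧
    (∀ k, Integrable (fun ξ : κ → ℝ => ξ k) (gm κ σ)) ∧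
    (∀ a : (κ → ℝ) → ℝ, BM a →
      ∑ k, (∫ ξ, ξ k * a ξ ∂gm κ σ) ^ 2 ≤ σ ^ 2 * ∫ ξ, a ξ ^ 2 ∂gm κ σ) ∧
    (∀ (ε δ : ℝ) (s m : κ → ℤ), 0 < ε → (∀ η : ℝ, δ ≤ ∑ k, ((m k : ℝ) + η * s k) ^ 2) →
      ‖kap σ ε s m‖ ≤ Real.exp (-(2 * Real.pi ^ 2 * σ ^ 2 * δ))) ∧
    (∀ (ε W : ℝ) (s : κ → ℤ) (i : ℤ), 0 < ε → 0 < W → W ^ 2 = σ ^ 2 * ∑ k, (s k : ℝ) ^ 2 →
      kap σ ε s (i • s) = (k0 W ε * Real.exp (-(bb W ε * (i : ℝ) ^ 2)) : ℝ))) ∧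
  ∀ W ε : ℝ, 0 < W → 0 < ε → bb W ε ≤ 1 →
    Summable (fun i : ℤ => k0 W ε * Real.exp (-(bb W ε * (i : ℝ) ^ 2))) ∧
    Summable (fun i : ℤ => |(i : ℝ)| * (k0 W ε * Real.exp (-(bb W ε * (i : ℝ) ^ 2)))) ∧
    0 < k0 W ε ∧ k0 W ε ≤ A0 W ε ∧ 0 ≤ A1 W ε ∧ A1 W ε ≤ 8 * k0 W ε / bb W ε ^ 2

/-- The weighted Gaussian move acts as the mean on functions supported in the window. -/
def LineStmt : Prop :=
  ∀ (κ : Type) [Fintype κ] [Nonempty κ] (σ ε W ω t e : ℝ) (s : κ → ℤ) (F G : (κ → ℝ) → ℝ),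
    0 < ε → 0 < W → W ^ 2 = σ ^ 2 * Fintype.card κ → bb W ε ≤ 1 → PM s → 0 ≤ ω → 0 ≤ e →
    Per F → BM F → Per G → BM G →
    (∀ β, F β ≠ 0 → |Int.fract (t + ip s β) - 1 / 2| ≤ ω) →
    (∀ β, G β ≠ 0 → |Int.fract (t + ip s β) - 1 / 2| ≤ ω) →
    (∀ m : κ → ℤ, (¬ ∃ i : ℤ, m = i • s) → fc F m ≠ 0 → fc G m ≠ 0 → ‖kap σ ε s m‖ ≤ e) →
    |∫ ξ, chi ε (ip s ξ) * tm (fun β => F β * G (β + ξ)) ∂gm κ σ - A0 W ε * tm F * tm G| ≤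
      4 * Real.pi * ω * A1 W ε * tm (fun β => |F β|) * tm (fun β => |G β|) +
        e * Real.sqrt (tm fun β => F β ^ 2) * Real.sqrt (tm fun β => G β ^ 2)

/-- Independent bits: covariance, Bessel, exponential tail. -/
def BitStmt : Prop :=
  ∀ (ι : Type) [Fintype ι] [DecidableEq ι] (p : ι → ℝ), (∀ i, 0 ≤ p i ∧ p i ≤ 1) →
    (∀ b, 0 ≤ wt p b) ∧ (∑ b, wt p b = 1) ∧
    (∀ (F : (ι → Bool) → ℝ) (j : ι),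
      Eb p (fun b => F b * (bit (b j) - p j)) = p j * (1 - p j) * Eb p (Dd j F)) ∧
    (∀ F : (ι → Bool) → ℝ,
      ∑ j, p j * (1 - p j) * Eb p (Dd j F) ^ 2 ≤ Eb p fun b => F b ^ 2) ∧
    ∀ (G : (ι → Bool) → ℝ) (M : ι → ℝ) (M0 l : ℝ), (∀ b, |G b| ≤ 1) → 0 ≤ M0 → 0 ≤ l →
      (∀ j, |M j| ≤ M0) → ∑ j, p j * (1 - p j) * M j ^ 2 ≤ M0 ^ 2 →
      |Eb p fun b => G b * ∑ j, M j * (bit (b j) - p j)| ≤
        2 * l * M0 * Eb p (fun b => |G b|) + 12 * M0 * Real.exp (-l)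

/-- The pairing of second derivatives with vector fields, at one point of the torus. -/
def PairStmt : Prop :=
  ∀ (ι κ : Type) [Fintype ι] [DecidableEq ι] [Fintype κ] (J : Finset ι) (s : ι → κ → ℤ)
    (C1 C2 ω v0 l η : ℝ) (p kk : ι → ℝ) (F : (ι → Bool) → ℝ) (V : ι → κ → ℝ),
    Split J s C1 C2 → 0 ≤ C1 → 0 ≤ C2 → 0 < ω → 0 ≤ v0 → 0 ≤ l → 0 < η →
    (∀ i, 0 ≤ p i ∧ p i ≤ 1) → U01 F → (∀ j, 0 ≤ kk j ∧ kk j ≤ 1 / ω) →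
    (∀ j, kk j ^ 2 ≤ 4 / ω ^ 2 * (p j * (1 - p j))) → (∀ j ∈ J, nsq (V j) ≤ v0) →
    ∑ j ∈ J, p j * (1 - p j) * nsq (V j) ≤ v0 →
    |∑ j ∈ J, ∑ j' ∈ J.erase j,
        p j * (1 - p j) * kk j' * Eb p (Dd j' (Dd j F)) * ip (s j') (V j)| ≤
      η * C1 * ∑ j ∈ J, p j * (1 - p j) * nsq (V j) +
      1 / (η * ω ^ 2) * ∑ j ∈ J, ∑ j' ∈ J.erase j,
        p j * (1 - p j) * (p j' * (1 - p j')) * Eb p (Dd j' (Dd j F)) ^ 2 +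
      2 * l * Real.sqrt (C2 * v0) * ∑ j ∈ J, kk j * Eb p (fun b => |Dd j F b|) +
      J.card * (12 / ω * Real.sqrt (C2 * v0) * Real.exp (-l))

/-- Measurability, bounds, invariance and derivatives along segments. -/
def DerivStmt : Prop :=
  ∀ (ι : Type) [Fintype ι] [DecidableEq ι] (ω : ℝ) (h : (ι → ℤ) → ℝ),
    0 < ω → ω ≤ 1 / 8 → U01 h →
    (Measurable (Ey ω h) ∧ U01 (Ey ω h)) ∧
    (∀ j, Measurable (c1 ω h j) ∧ Measurable (inf1 ω h j) ∧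
      ∀ y, |c1 ω h j y| ≤ inf1 ω h j y ∧ inf1 ω h j y ≤ 1) ∧
    (∀ j j', Measurable (c2 ω h j j') ∧ ∀ y, |c2 ω h j j' y| ≤ 2) ∧
    (∀ J, BM (W1 ω J h) ∧ BM (W2 ω J h) ∧ BM (Inf ω J h) ∧
      ∀ y, 0 ≤ W1 ω J h y ∧ W1 ω J h y ≤ 1 ∧ 0 ≤ W2 ω J h y ∧ 0 ≤ Inf ω J h y) ∧
    (∀ r : ι → ℤ, (∀ x, h (x + r) = h x) → ∀ y,
      Ey ω h (y + fun i => (r i : ℝ)) = Ey ω h y ∧
      (∀ j, c1 ω h j (y + fun i => (r i : ℝ)) = c1 ω h j y ∧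
        inf1 ω h j (y + fun i => (r i : ℝ)) = inf1 ω h j y) ∧
      (∀ j j', c2 ω h j j' (y + fun i => (r i : ℝ)) = c2 ω h j j' y) ∧
      ∀ J, W1 ω J h (y + fun i => (r i : ℝ)) = W1 ω J h y ∧
        W2 ω J h (y + fun i => (r i : ℝ)) = W2 ω J h y ∧
        Inf ω J h (y + fun i => (r i : ℝ)) = Inf ω J h y) ∧
    (∀ y u : ι → ℝ, Ey ω h (y + u) - Ey ω h y =
      ∫ r in (0 : ℝ)..1, ∑ j, u j * dpr ω (y j + r * u j) * c1 ω h j (y + r • u)) ∧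
    ∀ (y u : ι → ℝ) (j : ι), (∀ r : ℝ, 0 ≤ r → r ≤ 1 → ⌊y j + r * u j⌋ = ⌊y j⌋) →
      c1 ω h j (y + u) - c1 ω h j y =
        ∫ r in (0 : ℝ)..1, ∑ j' ∈ univ.erase j,
          u j' * dpr ω (y j' + r * u j') * c2 ω h j j' (y + r • u)

/-- The part of the move which stays in the same window. -/
def NearStmt : Prop :=
  ∀ ω W e3 δ C1 : ℝ, 0 < ω → ω ≤ 1 / 8 → 0 < W → 0 < e3 → e3 ≤ 1 / 2 → 0 < δ → 0 ≤ C1 →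
    ∃ C : ℝ, 0 < C ∧ ∀ (ι κ : Type) [Fintype ι] [DecidableEq ι] [Fintype κ]
      (Γ : AddSubgroup (κ → ℝ)) (J : Finset ι) (s : ι → κ → ℤ) (t : ι → ℝ) (h : (ι → ℤ) → ℝ)
      (σ ε l : ℝ) (χ : ℝ → ℝ),
      (∀ n : κ → ℤ, (fun k => (n k : ℝ)) ∈ Γ) → (∀ j, j ∉ J → s j = 0) → U01 h → Inv Γ s h →
      W ^ 2 = σ ^ 2 * Fintype.card κ →
      Split J s (C1 * Fintype.card κ) (ε ^ 2 * Fintype.card κ) → 0 ≤ ε → ε ≤ 1 → 1 ≤ l →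
      Measurable χ → (∀ u, |χ u| ≤ 1) →
      |∑ j ∈ J, ∫ ξ, (if |ip (s j) ξ| < 1 / 2 then χ (ip (s j) ξ) else 0) *
          tm (fun η => pq ω ((t + lin s η) j) * c1 ω h j (t + lin s η) *
            psi ω e3 ((t + lin s (η + ξ)) j) *
            (c1 ω h j (t + lin s η) - c1 ω h j (t + lin s (η + ξ)))) ∂gm κ σ| ≤
        δ * tm (fun η => W1 ω J h (t + lin s η)) +
          C * (tm (fun η => W2 ω J h (t + lin s η)) +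
            l * ε * tm (fun η => Inf ω J h (t + lin s η)) + J.card * Real.exp (-l))

/-- The conclusion of the block lemma for one block. -/
def BlockAt {ι κ : Type} [Fintype ι] [DecidableEq ι] [Fintype κ] (ω L ε l : ℝ)
    (Γ : AddSubgroup (κ → ℝ)) (J : Finset ι) (s : ι → κ → ℤ) : Prop :=
  ∀ (t : ι → ℝ) (h : (ι → ℤ) → ℝ), U01 h → Inv Γ s h →
    tm (fun η => W1 ω J h (t + lin s η)) ≤
      L * (tm (fun η => W2 ω J h (t + lin s η)) +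
        l * ε * tm (fun η => Inf ω J h (t + lin s η)) + J.card * Real.exp (-l))

/-- The block lemma. -/
def BlockStmt : Prop :=
  ∀ c0 : ℝ, 0 < c0 → ∃ ω0 : ℝ, 0 < ω0 ∧ ω0 ≤ 1 / 8 ∧ ∀ ω C1 : ℝ, 0 < ω → ω ≤ ω0 → 0 ≤ C1 →
    ∃ L : ℝ, 0 < L ∧ ∀ (ι κ : Type) [Fintype ι] [DecidableEq ι] [Fintype κ] [Nonempty κ]
      (Γ : AddSubgroup (κ → ℝ)) (J : Finset ι) (s : ι → κ → ℤ) (ε l : ℝ),
      Lat Γ (c0 * Fintype.card κ) → (∀ j, Dual Γ (s j)) → (∀ j ∈ J, PM (s j)) →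
      (∀ j, j ∉ J → s j = 0) →
      Split J s (C1 * Fintype.card κ) (ε ^ 2 * Fintype.card κ) → Ksh J s (ε ^ 2) →
      0 ≤ ε → ε ≤ 1 → 1 ≤ l → BlockAt ω L ε l Γ J s

/-- Variance on the torus of the fibre mean. -/
def TVStmt : Prop :=
  ∀ (ι κ : Type) [Fintype ι] [DecidableEq ι] [Fintype κ] (Γ : AddSubgroup (κ → ℝ))
    (s : ι → κ → ℤ) (t : ι → ℝ) (f : (ι → ℤ) → ℝ) (ω sh C1 C2 : ℝ),
    0 < ω → ω ≤ 1 / 8 → 0 < sh → 0 ≤ C1 → 0 ≤ C2 → Lat Γ sh → (∀ j, Dual Γ (s j)) →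
    Split univ s C1 C2 → U01 f → Inv Γ s f →
    tm (fun β => Ey ω f (t + lin s β) ^ 2) - tm (fun β => Ey ω f (t + lin s β)) ^ 2 ≤
      16 / ω ^ 2 * (C1 / sh * tm (fun β => W1 ω univ f (t + lin s β)) +
        Real.sqrt (C2 / sh) * tm (fun β => Inf ω univ f (t + lin s β)))

/-- Fourier expansion in the bits. -/
def FourierStmt : Prop :=
  ∀ (ι : Type) [Fintype ι] [DecidableEq ι] (ω : ℝ) (f : (ι → ℤ) → ℝ),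
    0 < ω → ω ≤ 1 / 8 → U01 f →
    (∀ S, Measurable (fw ω f S) ∧ ∀ y, 0 ≤ fw ω f S y) ∧
    (∀ y, ∑ S : Finset ι, fw ω f S y ≤ 1) ∧
    (∀ y, Ey ω (fun x => f x ^ 2) y - Ey ω f y ^ 2 =
      ∑ S : Finset ι, if S = ∅ then 0 else fw ω f S y) ∧
    (∀ y, ∑ S : Finset ι, (S.card : ℝ) * fw ω f S y ≤ Inf ω univ f y) ∧
    (∀ y, W1 ω univ f y = ∑ S : Finset ι, if S.card = 1 then fw ω f S y else 0) ∧
    (∀ r : ι → ℤ, (∀ x, f (x + r) = f x) → ∀ S y, fw ω f S (y + fun i => (r i : ℝ)) = fw ω f S y) ∧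
    ∀ (ρ : ℝ) (J : Finset ι) (y : ι → ℝ), 0 ≤ ρ → ρ ≤ 1 →
      (∀ b, U01 (noised ω ρ J f y b)) ∧
      (∀ (r : ι → ℤ) (b : ι → Bool), (∀ i, i ∉ J → r i = 0) → (∀ x, f (x + r) = f x) →
        ∀ x, noised ω ρ J f y b (x + r) = noised ω ρ J f y b x) ∧
      ∀ y' : ι → ℝ, (∀ i, i ∉ J → y' i = y i) →
        Eb (py ω y) (fun b => W1 ω J (noised ω ρ J f y b) y') = Q1 ω ρ J f y' ∧
        Eb (py ω y) (fun b => W2 ω J (noised ω ρ J f y b) y') = Q2 ω ρ J f y' ∧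
        Eb (py ω y) (fun b => Inf ω J (noised ω ρ J f y b) y') ≤ Inf ω J f y'

/-- The block lemma for the noised function, averaged over the whole torus. -/
def NoisedStmt : Prop :=
  ∀ (ι K κ : Type) [Fintype ι] [DecidableEq ι] [Fintype K] [Fintype κ]
    (Γ : AddSubgroup (K → ℝ)) (Γt : AddSubgroup (κ → ℝ)) (J : Finset ι) (s : ι → K → ℤ)
    (S : ι → κ → ℤ) (emb : (K → ℝ) → (κ → ℝ)) (c : ι → ℝ) (f : (ι → ℤ) → ℝ) (ω L ε l ρ : ℝ),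
    0 < ω → ω ≤ 1 / 8 → 0 ≤ L → 0 ≤ ε → 0 ≤ l → 0 ≤ ρ → ρ ≤ 1 → BlockAt ω L ε l Γ J s →
    (∀ j, j ∉ J → s j = 0) → Measurable emb → (∀ η, lin S (emb η) = lin s η) →
    (∀ n : κ → ℤ, (fun k => (n k : ℝ)) ∈ Γt) → U01 f → Inv Γ s f → Inv Γt S f →
    tm (fun β => Q1 ω ρ J f (c + lin S β)) ≤
      L * (tm (fun β => Q2 ω ρ J f (c + lin S β)) +
        l * ε * tm (fun β => Inf ω J f (c + lin S β)) + J.card * Real.exp (-l))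

/-- The Poincare inequality of the model. -/
def PoincareStmt : Prop :=
  ∀ c0 : ℝ, 0 < c0 → ∃ ω0 : ℝ, 0 < ω0 ∧ ω0 ≤ 1 / 8 ∧ ∀ ω : ℝ, 0 < ω → ω ≤ ω0 →
    ∃ L : ℝ, 1 ≤ L ∧ ∀ (ι A Vb K : Type) [Fintype ι] [DecidableEq ι] [Fintype A] [DecidableEq A]
      [Nonempty A] [Fintype Vb] [DecidableEq Vb] [Fintype K] [Nonempty K]
      (π : A → ι → Vb) (s : A → ι → K → ℤ) (Γ : AddSubgroup (K → ℝ)) (c : ι → ℝ)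
      (f : (ι → ℤ) → ℝ) (Dc s0 : ℕ) (g τ0 ε l : ℝ),
      Lat Γ (c0 * Fintype.card K) → (∀ a j, Dual Γ (s a j) ∧ PM (s a j)) →
      (∀ J, Split (blk π J) (bcol π s J) (2 * Fintype.card K) (ε ^ 2 * Fintype.card K) ∧
        Ksh (blk π J) (bcol π s J) (ε ^ 2)) →
      (∀ i i', i ≠ i' → (univ.filter fun a => π a i = π a i').card ≤ Dc) →
      0 ≤ ε → ε ≤ 1 → 1 ≤ l → 0 < g → g ≤ 1 / 4 → 1 ≤ 4 * g * s0 →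
      2 * (s0 * Dc * (1 + 2 * L)) ≤ Fintype.card A → 0 ≤ τ0 →
      (∀ k : ℕ, s0 < k → k * (1 - g) ^ (2 * (k - 2)) ≤ τ0) →
      U01 f → Inv (tlat (A × Vb) Γ) (tcol π s) f →
      tm (fun β => Ey ω (fun x => f x ^ 2) (c + lin (tcol π s) β)) -
          tm (fun β => Ey ω f (c + lin (tcol π s) β)) ^ 2 ≤
        L * ((g + Fintype.card A * l * ε) * tm (fun β => Inf ω univ f (c + lin (tcol π s) β)) +
          Fintype.card A * (Fintype.card ι * Real.exp (-l) + τ0))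

/-- Coherence gives the splitting and the spread kernel; diagonal dominance gives the
pseudo-inverse; Reed-Solomon partitions. -/
def LinAlgStmt : Prop :=
  (∀ (ι κ : Type) [Fintype ι] [DecidableEq ι] [Fintype κ] [Nonempty κ] (J : Finset ι)
    (s : ι → κ → ℤ) (μ : ℝ), 0 ≤ μ → (∀ j ∈ J, PM (s j)) →
    (∀ j ∈ J, ∀ j' ∈ J, j ≠ j' → |∑ k, (s j k : ℝ) * s j' k| ≤ μ) →
    Split J s (2 * Fintype.card κ) (2 * μ) ∧ Ksh J s (μ / Fintype.card κ)) ∧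
  (∀ (ι κ : Type) [Fintype ι] [DecidableEq ι] [Fintype κ] [DecidableEq κ] (s : ι → κ → ℤ) (m : ℝ),
    0 < m → (∀ k, ∑ j, (s j k : ℝ) ^ 2 = m) →
    (∀ k, ∑ k' ∈ univ.erase k, |∑ j, (s j k : ℝ) * s j k'| ≤ m / 2) →
    ∃ Sp : (ι → ℝ) →ₗ[ℝ] (κ → ℝ), Proj s Sp m) ∧
  ∀ (q D P : ℕ) [Fact q.Prime], 1 ≤ D → P ≤ q →
    ∃ π : Fin P → (Fin D → ZMod q) → ZMod q, (∀ J, (blk π J).card = q ^ (D - 1)) ∧
      ∀ i i', i ≠ i' → (univ.filter fun a => π a i = π a i').card ≤ D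

/-- The lattice from random parity checks and its sign vectors. -/
def LatticeStmt : Prop :=
  ∃ q0 : ℕ, ∀ q : ℕ, q0 ≤ q → q.Prime → ∀ μ : ℝ, 0 ≤ μ →
    ∃ (Γ : AddSubgroup (Fin (q ^ 2) → ℝ)) (lam : Fin (q ^ 2) ⊕ Fin (q ^ 2) → Fin (q ^ 2) → ℤ)
      (T : Finset (Fin (q ^ 2) → ℤ)),
      Lat Γ (1 / 500 * Fintype.card (Fin (q ^ 2))) ∧
      Feat Γ lam (q ^ 3) (1 / (4 * q ^ 3)) (1 / (4 * q ^ 4)) ∧ T.Nonempty ∧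
      (∀ s ∈ T, Dual Γ s ∧ PM s ∧ -s ∈ T) ∧
      (((T ×ˢ T).filter fun p => μ < |∑ k, (p.1 k : ℝ) * p.2 k|).card : ℝ) ≤
        (100 * Real.exp (-(μ ^ 2 / (2 * q ^ 2))) + (1 / 2) ^ q) * T.card ^ 2 ∧
      ∀ k k', k ≠ k' → |∑ s ∈ T, (s k : ℝ) * s k'| ≤ (1 / 2) ^ q * T.card

/-- Independent columns from the set `T`. -/
def ColumnsStmt : Prop :=
  ∀ (ι A Vb K : Type) [Fintype ι] [DecidableEq ι] [Fintype A] [DecidableEq A] [Fintype Vb]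
    [DecidableEq Vb] [Fintype K] [DecidableEq K] (π : A → ι → Vb) (T : Finset (K → ℤ))
    (μ p1 p2 Th : ℝ), T.Nonempty → (∀ s ∈ T, PM s ∧ -s ∈ T) → 0 ≤ p2 → 0 < Th →
    (((T ×ˢ T).filter fun p => μ < |∑ k, (p.1 k : ℝ) * p.2 k|).card : ℝ) ≤ p1 * T.card ^ 2 →
    (∀ k k', k ≠ k' → |∑ s ∈ T, (s k : ℝ) * s k'| ≤ p2 * T.card) →
    Fintype.card A * (Fintype.card ι : ℝ) ^ 2 * p1 + (Fintype.card ((A × Vb) × K) : ℝ) ^ 2 *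
      (Fintype.card ι + (Fintype.card ι * p2) ^ 2) / Th ^ 2 < 1 →
    ∃ s : A → ι → K → ℤ, (∀ a j, s a j ∈ T) ∧
      (∀ a j j', j ≠ j' → |∑ k, (s a j k : ℝ) * s a j' k| ≤ μ) ∧
      ∀ x x' : (A × Vb) × K, x ≠ x' → |∑ j, (tcol π s j x : ℝ) * tcol π s j x'| ≤ Th

/-- Tail bound for sums of functions of the positions, offsets uniform. -/
def ChernoffStmt : Prop :=
  ∀ (ι : Type) [Fintype ι] [DecidableEq ι] [Nonempty ι] (ω a E : ℝ) (φ : ι → ℝ → ℝ) (t : ι → ℝ),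
    0 < ω → ω ≤ 1 / 8 → 0 < a → 0 ≤ E → E ≤ 4 * Fintype.card ι * a →
    (∀ j, Measurable (φ j)) → (∀ j z, |z| ≤ 1 → |φ j z| ≤ a) →
    tm (fun c => Eb (py ω (c + t)) fun b =>
        ind (E ≤ |∑ j, (φ j (zz (c + t) b j) - zmean ω (φ j))|)) ≤
      2 * Real.exp (-(E ^ 2 / (16 * Fintype.card ι * a ^ 2)))

/-- There is an offset `c` for which almost all samples are very good. -/
def GoodStmt : Prop :=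
  ∀ (ι κ : Type) [Fintype ι] [DecidableEq ι] [Nonempty ι] [Fintype κ] [DecidableEq κ]
    (s : ι → κ → ℤ) (ω ω1 θ0 E0 : ℝ) (Q : ℕ),
    0 < ω → ω ≤ 1 / 8 → 0 ≤ ω1 → ω1 ≤ 1 / 8 → 0 ≤ θ0 → 0 ≤ E0 → E0 ≤ Fintype.card ι →
    (∀ j k, |(s j k : ℝ)| ≤ 1) →
    BM (fun y : ι → ℝ => Eb (py ω y) fun b => ind (¬ VG ω ω1 θ0 E0 s Q (zz y b))) ∧
    ∃ c : ι → ℝ, (∀ j, |c j| ≤ 1) ∧
      tm (fun β => Eb (py ω (c + lin s β)) fun b =>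
          ind (¬ VG ω ω1 θ0 E0 s Q (zz (c + lin s β) b))) ≤
        2 * (Fintype.card κ + (Q : ℝ) ^ Fintype.card κ) *
          Real.exp (-(E0 ^ 2 / (64 * Fintype.card ι)))

/-- The near triangle inequality. -/
def TriStmt : Prop :=
  ∀ (ι κ Φ : Type) [Fintype ι] [DecidableEq ι] [Fintype κ] [Fintype Φ]
    (Γ : AddSubgroup (κ → ℝ)) (s : ι → κ → ℤ) (Sp : (ι → ℝ) →ₗ[ℝ] (κ → ℝ)) (lam : Φ → κ → ℤ)
    (Kp ω1 δn δ0 δ1 Cn L1 m A N E1 : ℝ) (Q : ℕ) (ω : ℝ) (c : ι → ℝ),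
    GHyp Γ s Sp lam Kp ω1 δn δ0 δ1 Cn L1 m A N E1 Q → ∀ x y z : ι → ℤ,
      Good ω ω1 (Kp / 32) (1 / 2 + ω1 - δn) E1 s Q (vv s Sp c x) →
      Good ω ω1 (Kp / 32) (1 / 2 + ω1 - δn) E1 s Q (vv s Sp c y) →
      Good ω ω1 (Kp / 32) (1 / 2 + ω1 - δn) E1 s Q (vv s Sp c z) →
      rho s Sp c lam A N x z ≤
        rho s Sp c lam A N x y + rho s Sp c lam A N y z + Kp * rho s Sp c lam A N x y

/-- Kernels of negative type. -/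
def NegStmt : Prop :=
  (∀ (X : Type) (ρ : X → X → ℝ), CND ρ → ∀ x y, 0 ≤ ρ x y) ∧
  (∀ (X Y : Type) (ρ : X → X → ℝ) (φ : Y → X), CND ρ → CND fun a b => ρ (φ a) (φ b)) ∧
  (∀ (X : Type) (ρ ρ' : X → X → ℝ) (a : ℝ), CND ρ → CND ρ' → 0 ≤ a →
    CND fun x y => ρ x y + a * ρ' x y) ∧
  (∀ (X ι : Type) [Fintype ι] (v : X → ι → ℝ), CND fun x y => ∑ j, (v x j - v y j) ^ 2) ∧
  (∀ (X Φ : Type) [Fintype Φ] (a : X → Φ → ℝ),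
    CND fun x y => ∑ l, (1 - Real.cos (a x l - a y l))) ∧
  (∀ (X : Type) (ρ : X → X → ℝ) (t : ℝ), CND ρ → 0 ≤ t →
    CND fun x y => 1 - Real.exp (-(t * ρ x y))) ∧
  (∀ (X : Type) (ρ : X → X → ℝ) (α : ℝ), CND ρ → 0 < α → α ≤ 1 → CND fun x y => ρ x y ^ α) ∧
  (∀ (n : ℕ) (d : Fin n → Fin n → ℝ), CND d →
    ∃ x : Fin n → EuclideanSpace ℝ (Fin n), ∀ i j, d i j = ‖x i - x j‖ ^ 2) ∧
  ∀ a b c Kp α : ℝ, 0 ≤ a → 0 ≤ b → 0 ≤ c → 0 ≤ Kp → 0 < α → α ≤ 1 → (2 + Kp) ^ α ≤ 2 →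
    c ≤ a + b + Kp * min a b → c ^ α ≤ a ^ α + b ^ α

/-- Simple facts on `rho` and on good vertices. -/
def RhoStmt : Prop :=
  ∀ (ι κ Φ : Type) [Fintype ι] [DecidableEq ι] [Fintype κ] [Fintype Φ]
    (Γ : AddSubgroup (κ → ℝ)) (s : ι → κ → ℤ) (Sp : (ι → ℝ) →ₗ[ℝ] (κ → ℝ)) (lam : Φ → κ → ℤ)
    (Kp ω1 δn δ0 δ1 Cn L1 m A N E1 : ℝ) (Q : ℕ) (c : ι → ℝ),
    GHyp Γ s Sp lam Kp ω1 δn δ0 δ1 Cn L1 m A N E1 Q →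
    CND (rho s Sp c lam A N) ∧
    (∀ x j, rho s Sp c lam A N x (x + Pi.single j 1) ≤ 2) ∧
    (∀ x x', ∑ j, (vv s Sp c x j - vv s Sp c x' j) ^ 2 ≤ rho s Sp c lam A N x x' ∧
      rho s Sp c lam A N x x' ≤ ∑ j, (vv s Sp c x j - vv s Sp c x' j) ^ 2 + A) ∧
    (∀ ρ ∈ Γ, ∀ r : ι → ℤ, (∀ j, (r j : ℝ) = lin s ρ j) → ∀ x,
      vv s Sp c (x + r) = vv s Sp c x ∧
        ∀ x', rho s Sp c lam A N (x + r) x' = rho s Sp c lam A N x x') ∧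
    (∀ β b, vv s Sp c (pt (c + lin s β) b) = perp s Sp (zz (c + lin s β) b)) ∧
    ∀ (ω ω5 θ0 E0 : ℝ) (z z' : ι → ℝ), VG ω ω1 θ0 E0 s Q z → (∀ j, |z' j| ≤ 1 / 2 + ω) →
      ∑ j, |z' j - z j| ≤ 1 → Cn * (2 * (E0 + 1) / m) ≤ ω5 → ω + ω5 ≤ ω1 - δn →
      E0 + 2 + 2 * Fintype.card ι * ω5 ≤ E1 →
      Good ω ω1 θ0 (1 / 2 + ω1 - δn) E1 s Q (perp s Sp z') ∧ ∀ j, |perp s Sp z' j - z' j| ≤ ω5

/-- The properties of the semimetric `dd` on the integer points which are used in the end. -/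
structure MetricAt {ι κ : Type} [Fintype ι] [DecidableEq ι] [Fintype κ] (ω D1 D2 : ℝ)
    (Γ : AddSubgroup (κ → ℝ)) (s : ι → κ → ℤ) (c : ι → ℝ) (dd : (ι → ℤ) → (ι → ℤ) → ℝ) :
    Prop where
  cnd : CND dd
  tri : ∀ x y z, dd x z ≤ dd x y + dd y z
  inv : ∀ x', Inv Γ s fun x => dd x x'
  bdd : ∃ C, ∀ x x', dd x x' ≤ C
  edge : tm (fun β => ∑ j, dpr ω ((c + lin s β) j) * Eb (py ω (c + lin s β)) fun b =>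
    dd (pt (c + lin s β) (Function.update b j true))
      (pt (c + lin s β) (Function.update b j false))) ≤ D1
  spread : ∀ x', tm (fun β => Ey ω (fun x => ind (dd x x' < D2)) (c + lin s β)) ≤ 1 / 10

/-- Collapse of the bad vertices and snowflake. -/
def MetricStmt : Prop :=
  ∀ (ι κ Φ : Type) [Fintype ι] [DecidableEq ι] [Nonempty ι] [Fintype κ] [Fintype Φ]
    (Γ : AddSubgroup (κ → ℝ)) (s : ι → κ → ℤ) (Sp : (ι → ℝ) →ₗ[ℝ] (κ → ℝ)) (lam : Φ → κ → ℤ)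
    (Kp ω1 δn δ0 δ1 Cn L1 m A N E1 : ℝ) (Q : ℕ) (c : ι → ℝ) (ω ω5 E0 α pb : ℝ),
    GHyp Γ s Sp lam Kp ω1 δn δ0 δ1 Cn L1 m A N E1 Q →
    (∀ j, ∃ k, s j k = 1 ∨ s j k = -1) → 0 < ω → ω ≤ 1 / 160 → ω5 ≤ ω →
    Cn * (2 * (E0 + 1) / m) ≤ ω5 → ω + ω5 ≤ ω1 - δn → E0 + 2 + 2 * Fintype.card ι * ω5 ≤ E1 →
    0 < α → α ≤ 1 → (2 + Kp) ^ α ≤ 2 → pb ≤ 1 / 20 →
    BM (fun y : ι → ℝ => Eb (py ω y) fun b => ind (¬ VG ω ω1 (Kp / 32) E0 s Q (zz y b))) →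
    tm (fun β => Eb (py ω (c + lin s β)) fun b =>
        ind (¬ VG ω ω1 (Kp / 32) E0 s Q (zz (c + lin s β) b))) ≤ pb →
    ∃ dd, MetricAt ω (Fintype.card ι / ω * (2 + pb * (4 * Fintype.card ι + A + 1)))
      (((Fintype.card ι : ℝ) / 51200) ^ α) Γ s c dd

/-- A lower bound for `gap` from one instance and one feasible semimetric. -/
def GapStmt : Prop :=
  ∀ (N : ℕ) (c d : Fin N → Fin N → ℝ) (r D : ℝ), 2 ≤ N → IsCap c → IsNegType d → 0 < r → 0 < D →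
    (∀ S : Finset (Fin N), S.Nonempty → S ≠ univ → r ≤ cutRatio c S) →
    pairSum (fun i j => c i j * d i j) ≤ D → r * pairSum d / D ≤ gap N

/-- From a weighted instance with expensive balanced cuts to uniform demands. -/
def ReduceStmt : Prop :=
  ∀ (X : Type) [Fintype X] [DecidableEq X] (ν : X → ℝ) (C d : X → X → ℝ) (δ D1 D2 : ℝ),
    (∀ x, 0 ≤ ν x) → ∑ x, ν x = 1 → (∀ x x', 0 ≤ C x x') → (∀ x x', C x x' = C x' x) →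
    CND d → (∀ x y z, d x z ≤ d x y + d y z) → 0 < δ → 0 < D1 → 0 < D2 →
    (∀ U : Finset X, (∑ x ∈ U, ν x) * (1 - ∑ x ∈ U, ν x) ≤
      δ * ∑ x ∈ U, ∑ x' ∈ Uᶜ, C x x' + 1 / 100) →
    ∑ x, ∑ x', C x x' * d x x' ≤ D1 →
    (∀ x', ∑ x, ν x * ind (d x x' < D2) ≤ 1 / 10) →
    ∀ N : ℕ, 101 * Fintype.card X ≤ N → D2 / (100 * δ * D1) ≤ gap N

/-- From the model to the finite weighted instance. -/
def ModelStmt : Prop :=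
  ∀ (ι κ : Type) [Fintype ι] [DecidableEq ι] [Fintype κ] (Γ : AddSubgroup (κ → ℝ))
    (s : ι → κ → ℤ) (c : ι → ℝ) (dd : (ι → ℤ) → (ι → ℤ) → ℝ) (Cn : ℕ) (ω δ D1 D2 : ℝ),
    0 < ω → ω ≤ 1 / 8 → 0 < δ → 0 < D1 → 0 < D2 → (∀ j, |c j| ≤ 1) →
    (∀ j, ∑ k, |(s j k : ℝ)| ≤ Cn) → MetricAt ω D1 D2 Γ s c dd →
    (∀ f : (ι → ℤ) → ℝ, (∀ x, f x = 0 ∨ f x = 1) → Inv Γ s f →
      tm (fun β => Ey ω f (c + lin s β)) * (1 - tm fun β => Ey ω f (c + lin s β)) ≤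
        δ * tm (fun β => Inf ω univ f (c + lin s β)) + 1 / 100) →
    ∀ N : ℕ, 101 * (2 * Cn + 6) ^ Fintype.card ι ≤ N → D2 / (200 * δ * D1) ≤ gap N

/-- The instances. -/
def InstStmt : Prop :=
  ∃ C : ℝ, 0 < C ∧ ∃ u0 : ℕ, ∀ u : ℕ, u0 ≤ u → ∀ N : ℕ,
    Real.exp ((u : ℝ) ^ 451) ≤ N → Real.sqrt u / C ≤ gap N

/-- The result. -/
def FinalStmt : Prop :=
  ∃ c : ℝ, 0 < c ∧ ∃ N0 : ℕ, ∀ N : ℕ, N0 ≤ N → Real.log N ^ c ≤ gap N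

end Vale.Agent.P318.M
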